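import Vale.Agent.P109.Defs

/-!
P109: windows of two-sided sequences and approximation of measurable sets by window sets.
-/

namespace Vale.Agent.P109

open MeasureTheory Set Filter Topology

/-- The window of length `m` starting at position `p`. -/
def win (p : ℤ) (m : ℕ) (x : ℤ → Bool) : Word m := fun i => x (p + ((i : ℕ) : ℤ))

theorem shift_iterate (t : ℕ) (x : ℤ → Bool) (i : ℤ) : shift^[t] x i = x (i + t) := by
  induction t generalizing x with
  | zero => simp
  | succ t ih =>
    rw [Function.iterate_succ_apply, ih]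
    simp only [shift]
    congr 1
    push_cast
    ring

theorem win_iterate (p : ℤ) (m t : ℕ) (x : ℤ → Bool) :
    win p m (shift^[t] x) = win (p + t) m x := by
  funext i
  simp only [win, shift_iterate]
  congr 1
  ring

theorem measurable_shift : Measurable shift :=
  measurable_pi_lambda _ fun _ => measurable_pi_apply _

theorem continuous_shift : Continuous shift :=
  continuous_pi fun _ => continuous_apply _

theorem measurable_win (p : ℤ) (m : ℕ) : Measurable (win p m) :=
  measurable_pi_lambda _ fun _ => measurable_pi_apply _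

theorem continuous_win (p : ℤ) (m : ℕ) : Continuous (win p m) :=
  continuous_pi fun _ => continuous_apply _

theorem measurableSet_win (p : ℤ) (m : ℕ) (W : Set (Word m)) :
    MeasurableSet (win p m ⁻¹' W) :=
  measurable_win p m W.toFinite.measurableSet

theorem isClopen_win (p : ℤ) (m : ℕ) (W : Set (Word m)) : IsClopen (win p m ⁻¹' W) :=
  (isClopen_discrete W).preimage (continuous_win p m)

theorem wordLaw_eq (μ : Measure (ℤ → Bool)) (n : ℕ) (v : Word n) :
    wordLaw μ n v = μ.real (win 0 n ⁻¹' {v}) := by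
  rw [wordLaw]
  congr 1
  ext x
  simp [win, funext_iff]

theorem real_win_finset (μ : Measure (ℤ → Bool)) [IsFiniteMeasure μ] (n : ℕ)
    (W : Finset (Word n)) : ∑ v ∈ W, wordLaw μ n v = μ.real (win 0 n ⁻¹' (W : Set (Word n))) := by
  simp only [wordLaw_eq]
  rw [← sum_measureReal_preimage_singleton W]
  intro v _
  exact measurableSet_win 0 n {v}

/-- The window of coordinates within `m` of the origin. -/
def centred (m : ℕ) (x : ℤ → Bool) : Word (2 * m + 1) := win (-(m : ℤ)) (2 * m + 1) x

/-- Sets approximated by sets of centred windows. -/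
def Approx (μ : Measure (ℤ → Bool)) (A : Set (ℤ → Bool)) : Prop :=
  ∀ η : ℝ, 0 < η → ∃ (m : ℕ) (W : Set (Word (2 * m + 1))),
    μ.real (symmDiff A (centred m ⁻¹' W)) < η

/-- A centred window set is one for every larger radius. -/
theorem centred_mono {m m' : ℕ} (h : m ≤ m') (W : Set (Word (2 * m + 1))) :
    ∃ W' : Set (Word (2 * m' + 1)), centred m' ⁻¹' W' = centred m ⁻¹' W := by
  refine ⟨(fun (u : Word (2 * m' + 1)) (i : Fin (2 * m + 1)) =>
    u ⟨(m' - m) + (i : ℕ), by omega⟩) ⁻¹' W, ?_⟩
  ext x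
  simp only [mem_preimage]
  refine iff_of_eq (congrArg (· ∈ W) ?_)
  funext i
  simp only [centred, win]
  congr 1
  push_cast [Nat.cast_sub h]
  ring

variable {μ : Measure (ℤ → Bool)} [IsFiniteMeasure μ]

omit [IsFiniteMeasure μ] in
theorem approx_empty : Approx μ ∅ := fun η hη =>
  ⟨0, ∅, by simpa using hη⟩

omit [IsFiniteMeasure μ] in
theorem approx_compl {A : Set (ℤ → Bool)} (h : Approx μ A) : Approx μ Aᶜ := fun η hη => by
  obtain ⟨m, W, hW⟩ := h η hη
  refine ⟨m, Wᶜ, ?_⟩
  rwa [preimage_compl, compl_symmDiff_compl]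

theorem approx_union {A B : Set (ℤ → Bool)} (hA : Approx μ A) (hB : Approx μ B) :
    Approx μ (A ∪ B) := fun η hη => by
  obtain ⟨m, W, hW⟩ := hA (η / 2) (by linarith)
  obtain ⟨m', W', hW'⟩ := hB (η / 2) (by linarith)
  obtain ⟨V, hV⟩ := centred_mono (le_max_left m m') W
  obtain ⟨V', hV'⟩ := centred_mono (le_max_right m m') W'
  refine ⟨max m m', V ∪ V', ?_⟩
  rw [preimage_union, hV, hV']
  have hsub : symmDiff (A ∪ B) (centred m ⁻¹' W ∪ centred m' ⁻¹' W') ⊆
      symmDiff A (centred m ⁻¹' W) ∪ symmDiff B (centred m' ⁻¹' W') := by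
    intro x
    simp only [Set.mem_symmDiff, Set.mem_union]
    tauto
  linarith [measureReal_mono (μ := μ) hsub,
    measureReal_union_le (μ := μ) (symmDiff A (centred m ⁻¹' W))
      (symmDiff B (centred m' ⁻¹' W'))]

theorem approx_iUnion {A : ℕ → Set (ℤ → Bool)} (hm : ∀ i, MeasurableSet (A i))
    (h : ∀ i, Approx μ (A i)) : Approx μ (⋃ i, A i) := fun η hη => by
  have hmono : Monotone (fun n => ⋃ i ∈ Finset.range n, A i) := fun a b hab =>
    biUnion_mono (fun i hi => Finset.range_mono hab hi) fun i _ => subset_rfl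
  have hU : (⋃ n, ⋃ i ∈ Finset.range n, A i) = ⋃ i, A i := by
    ext x
    simp only [mem_iUnion, Finset.mem_range, exists_prop]
    exact ⟨fun ⟨_, i, _, hi⟩ => ⟨i, hi⟩, fun ⟨i, hi⟩ => ⟨i + 1, i, by omega, hi⟩⟩
  have ht := tendsto_measure_iUnion_atTop (μ := μ) hmono
  rw [hU] at ht
  have ht' : Tendsto (fun n => μ.real (⋃ i ∈ Finset.range n, A i)) atTop
      (𝓝 (μ.real (⋃ i, A i))) := (ENNReal.tendsto_toReal (measure_ne_top μ _)).comp ht
  obtain ⟨n, hn⟩ := (ht'.eventually (eventually_gt_nhds
    (show μ.real (⋃ i, A i) - η / 2 < μ.real (⋃ i, A i) by linarith))).exists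
  have happ : ∀ k, Approx μ (⋃ i ∈ Finset.range k, A i) := by
    intro k
    induction k with
    | zero => simpa using approx_empty (μ := μ)
    | succ j hj =>
      rw [Finset.range_add_one, Finset.set_biUnion_insert]
      exact approx_union (h j) hj
  obtain ⟨m, W, hW⟩ := happ n (η / 2) (by linarith)
  refine ⟨m, W, ?_⟩
  have hsubU : (⋃ i ∈ Finset.range n, A i) ⊆ ⋃ i, A i :=
    iUnion₂_subset fun i _ => subset_iUnion A i
  have hd : μ.real (symmDiff (⋃ i, A i) (⋃ i ∈ Finset.range n, A i)) < η / 2 := by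
    rw [symmDiff_of_ge hsubU,
      measureReal_sdiff hsubU (Finset.measurableSet_biUnion _ fun i _ => hm i)]
    linarith
  linarith [measureReal_symmDiff_le (μ := μ) (s := ⋃ i, A i)
    (t := ⋃ i ∈ Finset.range n, A i) (centred m ⁻¹' W) (measure_ne_top _ _) (measure_ne_top _ _)]

/-- Every measurable set is approximated by window sets. -/
theorem approx_of_measurable {A : Set (ℤ → Bool)} (hA : MeasurableSet A) : Approx μ A := by
  let msp : MeasurableSpace (ℤ → Bool) :=
    { MeasurableSet' := fun A => MeasurableSet A ∧ Approx μ A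
      measurableSet_empty := ⟨MeasurableSet.empty, approx_empty⟩
      measurableSet_compl := fun A h => ⟨h.1.compl, approx_compl h.2⟩
      measurableSet_iUnion := fun f h =>
        ⟨MeasurableSet.iUnion fun i => (h i).1, approx_iUnion (fun i => (h i).1) fun i => (h i).2⟩ }
  suffices hle : (MeasurableSpace.pi : MeasurableSpace (ℤ → Bool)) ≤ msp from (hle A hA).2
  refine iSup_le fun i => ?_
  rintro _ ⟨s, _, rfl⟩
  refine ⟨(measurable_pi_apply i) s.toFinite.measurableSet, fun η hη => ?_⟩
  refine ⟨i.natAbs, {u | u ⟨(i + i.natAbs).toNat, by omega⟩ ∈ s}, ?_⟩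
  have he : (centred i.natAbs ⁻¹' {u | u ⟨(i + i.natAbs).toNat, by omega⟩ ∈ s}) =
      (fun x : ℤ → Bool => x i) ⁻¹' s := by
    ext x
    simp only [centred, win, mem_preimage, mem_ofPred_eq]
    have : -(i.natAbs : ℤ) + (((i + i.natAbs).toNat : ℕ) : ℤ) = i := by omega
    rw [this]
  rw [he]
  simpa using hη

end Vale.Agent.P109
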