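import Vale.Agent.P109.Spec
import Vale.Agent.P109.Window

/-!
P109: sequences made of rounds of code words, their window frequencies and their periodic laws.
-/

namespace Vale.Agent.P109

open Finset

/-- `y` starts with `M` rounds of words of `P`, each round using every word once. -/
def Built (P : Code) (M : ℕ) (y : ℕ → Bool) : Prop :=
  ∃ φ : ℕ → Fin (2 ^ P.e),
    (∀ R < M, Function.Bijective fun j : Fin (2 ^ P.e) => φ (R * 2 ^ P.e + j)) ∧
    ∀ b < M * 2 ^ P.e, ∀ t < P.n, y (b * P.n + t) = P.word (φ b) t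

theorem Composite.built {P Q : Code} (h : Composite P Q) :
    ∃ q, Q.n = q * 2 ^ P.e * P.n ∧ ∀ i, Built P q (Q.word i) := by
  obtain ⟨q, hn, idx, hidx⟩ := h
  have hq : 0 < q := Nat.pos_of_ne_zero fun hz => by
    have := Q.n_pos
    simp [hn, hz] at this
  refine ⟨q, hn, fun i => ?_⟩
  have he : 0 < 2 ^ P.e := Nat.two_pow_pos _
  refine ⟨fun b => idx i ⟨b / 2 ^ P.e % q, Nat.mod_lt _ hq⟩ ⟨b % 2 ^ P.e, Nat.mod_lt _ he⟩, ?_, ?_⟩
  · intro R hR
    have : (fun j : Fin (2 ^ P.e) => idx i ⟨(R * 2 ^ P.e + j) / 2 ^ P.e % q, Nat.mod_lt _ hq⟩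
        ⟨(R * 2 ^ P.e + j) % 2 ^ P.e, Nat.mod_lt _ he⟩) = idx i ⟨R, hR⟩ := by
      funext j
      have h1 : (R * 2 ^ P.e + (j : ℕ)) / 2 ^ P.e = R := by
        rw [mul_comm, Nat.mul_add_div he, Nat.div_eq_of_lt j.isLt, add_zero]
      have h2 : (R * 2 ^ P.e + (j : ℕ)) % 2 ^ P.e = j := Nat.mul_add_mod_of_lt j.isLt
      simp only [h1, h2, Nat.mod_eq_of_lt hR]
    rw [this]
    exact (idx i ⟨R, hR⟩).bijective
  · intro b hb t ht
    have hR : b / 2 ^ P.e < q := Nat.div_lt_of_lt_mul (by rwa [mul_comm] at hb)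
    have h := hidx i ⟨b / 2 ^ P.e, hR⟩ ⟨b % 2 ^ P.e, Nat.mod_lt _ he⟩ t ht
    simp only [Nat.div_add_mod'] at h
    simpa only [Nat.mod_eq_of_lt hR] using h

theorem built_concat {P : Code} {M B L : ℕ} (hL : L = M * 2 ^ P.e * P.n) {y : ℕ → Bool}
    {z : ℕ → ℕ → Bool} (hz : ∀ b < B, Built P M (z b))
    (hy : ∀ b < B, ∀ t < L, y (b * L + t) = z b t) : Built P (B * M) y := by
  classical
  set E := 2 ^ P.e with hE
  have he : 0 < E := Nat.two_pow_pos _
  have hex : ∀ b, ∃ φ : ℕ → Fin (2 ^ P.e), b < B →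
      (∀ R < M, Function.Bijective fun j : Fin (2 ^ P.e) => φ (R * E + j)) ∧
      ∀ c < M * E, ∀ t < P.n, z b (c * P.n + t) = P.word (φ c) t := fun b => by
    by_cases hb : b < B
    · obtain ⟨φ, h⟩ := hz b hb
      exact ⟨φ, fun _ => h⟩
    · exact ⟨fun _ => ⟨0, he⟩, fun h => absurd h hb⟩
  choose φ hφ using hex
  refine ⟨fun c => φ (c / (M * E)) (c % (M * E)), fun R hR => ?_, fun c hc t ht => ?_⟩
  · have hM : 0 < M := Nat.pos_of_ne_zero fun h => by simp [h] at hR
    have hb : R / M < B := Nat.div_lt_of_lt_mul (by rwa [mul_comm] at hR)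
    have key : ∀ j : Fin (2 ^ P.e), (R * E + j) / (M * E) = R / M ∧
        (R * E + j) % (M * E) = R % M * E + j := fun j => by
      have hj : R % M * E + j < M * E :=
        calc R % M * E + j < R % M * E + E := Nat.add_lt_add_left j.isLt _
          _ = (R % M + 1) * E := by ring
          _ ≤ M * E := Nat.mul_le_mul_right _ (Nat.mod_lt _ hM)
      have hsum : R * E + j = M * E * (R / M) + (R % M * E + j) := by
        conv_lhs => rw [← Nat.div_add_mod R M]
        ring
      rw [hsum, Nat.mul_add_div (Nat.mul_pos hM he), Nat.mul_add_mod,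
        Nat.div_eq_of_lt hj, Nat.mod_eq_of_lt hj]
      simp
    have heq : (fun j : Fin (2 ^ P.e) => φ ((R * E + j) / (M * E)) ((R * E + j) % (M * E))) =
        fun j : Fin (2 ^ P.e) => φ (R / M) (R % M * E + j) := by
      funext j
      rw [(key j).1, (key j).2]
    rw [heq]
    exact (hφ _ hb).1 _ (Nat.mod_lt _ hM)
  · have hc' : c < M * E * B := hc.trans_eq (by rw [hE]; ring)
    have hME : 0 < M * E := Nat.pos_of_ne_zero fun h => by simp [h] at hc'
    have hb : c / (M * E) < B := Nat.div_lt_of_lt_mul hc'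
    have hr : c % (M * E) < M * E := Nat.mod_lt _ hME
    have hlt : c % (M * E) * P.n + t < L := by
      rw [hL]
      calc c % (M * E) * P.n + t < c % (M * E) * P.n + P.n := Nat.add_lt_add_left ht _
        _ = (c % (M * E) + 1) * P.n := by ring
        _ ≤ M * E * P.n := Nat.mul_le_mul_right _ hr
    have h1 : c / (M * E) * L + (c % (M * E) * P.n + t) = c * P.n + t := by
      rw [hL]
      conv_rhs => rw [← Nat.div_add_mod c (M * E)]
      ring
    rw [← h1, hy _ hb _ hlt]
    exact (hφ _ hb).2 _ hr t ht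

/-- The words of a later level are made of rounds of the words of an earlier one. -/
theorem built_of_chain {P : ℕ → Code} (h : ∀ k, Composite (P k) (P (k + 1))) {k l : ℕ}
    (hkl : k < l) : ∃ M, (P l).n = M * 2 ^ (P k).e * (P k).n ∧
      ∀ i, Built (P k) M ((P l).word i) := by
  induction l, hkl using Nat.le_induction with
  | base => exact (h k).built
  | succ l _ ih =>
    obtain ⟨M, hM, hB⟩ := ih
    obtain ⟨q, hq, hQ⟩ := (h l).built
    refine ⟨q * 2 ^ (P l).e * M, by rw [hq, hM]; ring, fun i => ?_⟩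
    obtain ⟨φ, _, hw⟩ := hQ i
    exact built_concat hM (z := fun b => (P l).word (φ b)) (fun b _ => hB _)
      (fun b hb t ht => hw b hb t ht)

/-- In rounds of words the count of each pattern set is nearly linear. -/
theorem built_count {P : Code} {m : ℕ} (W : Set (Word m)) :
    ∃ c : ℝ, ∀ (M : ℕ) (y : ℕ → Bool), Built P M y → ∀ s N : ℕ,
      s + N ≤ M * (2 ^ P.e * P.n) →
      |(∑ t ∈ range N, W.indicator (fun _ => (1 : ℝ)) fun i => y (s + t + i)) - c * N| ≤
        2 * ((M : ℝ) * (2 ^ P.e * m) + 2 ^ P.e * P.n) := by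
  classical
  set o : Fin (2 ^ P.e) → ℝ := fun j => ∑ t ∈ range P.n,
    if t + m ≤ P.n then W.indicator (fun _ => (1 : ℝ)) (fun i => P.word j (t + i)) else 0 with ho
  set G : ℕ := 2 ^ P.e * P.n with hG
  have hGpos : 0 < G := Nat.mul_pos (Nat.two_pow_pos _) P.n_pos
  set c : ℝ := (∑ j, o j) / G with hc
  have hind : ∀ u : Word m, 0 ≤ W.indicator (fun _ => (1 : ℝ)) u ∧
      W.indicator (fun _ => (1 : ℝ)) u ≤ 1 := fun u => by
    by_cases hu : u ∈ W <;> simp [hu]
  have ho01 : ∀ j, 0 ≤ o j ∧ o j ≤ P.n := fun j => by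
    refine ⟨sum_nonneg fun t _ => ?_, ?_⟩
    · split_ifs
      exacts [(hind _).1, le_rfl]
    · calc o j ≤ ∑ t ∈ range P.n, (1 : ℝ) := sum_le_sum fun t _ => by
            split_ifs
            exacts [(hind _).2, zero_le_one]
        _ = P.n := by simp
  have hc0 : 0 ≤ c := div_nonneg (sum_nonneg fun j _ => (ho01 j).1) (Nat.cast_nonneg _)
  have hc1 : c ≤ 1 := by
    rw [hc, div_le_one (by exact_mod_cast hGpos)]
    calc (∑ j, o j) ≤ ∑ _j : Fin (2 ^ P.e), (P.n : ℝ) := sum_le_sum fun j _ => (ho01 j).2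
      _ = G := by simp [hG]
  refine ⟨c, fun M y ⟨φ, hφ, hy⟩ => ?_⟩
  set g : ℕ → ℝ := fun t => W.indicator (fun _ => (1 : ℝ)) fun i => y (t + i) with hg
  set F : ℕ → ℝ := fun T => ∑ t ∈ range T, (g t - c) with hF
  have hblock : ∀ b < M * 2 ^ P.e,
      0 ≤ (∑ t ∈ range P.n, g (b * P.n + t)) - o (φ b) ∧
      (∑ t ∈ range P.n, g (b * P.n + t)) - o (φ b) ≤ m := by
    intro b hb
    rw [ho, ← sum_sub_distrib]
    have key : ∀ t ∈ range P.n, (g (b * P.n + t) -
        if t + m ≤ P.n then W.indicator (fun _ => (1 : ℝ)) (fun i => P.word (φ b) (t + i)) else 0) =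
        if t + m ≤ P.n then 0 else g (b * P.n + t) := by
      intro t _
      split_ifs with htm
      · have : (fun i : Fin m => y (b * P.n + t + i)) = fun i : Fin m => P.word (φ b) (t + i) := by
          funext i
          rw [add_assoc, hy b hb (t + i) (by omega)]
        simp only [hg, this, sub_self]
      · simp
    rw [sum_congr rfl key]
    refine ⟨sum_nonneg fun t _ => ?_, ?_⟩
    · split_ifs
      exacts [le_rfl, (hind _).1]
    · calc (∑ t ∈ range P.n, if t + m ≤ P.n then 0 else g (b * P.n + t))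
          ≤ ∑ t ∈ range P.n, if P.n < t + m then (1 : ℝ) else 0 := sum_le_sum fun t _ => by
            split_ifs with h1 h2 <;> first | exact le_rfl | exact (hind _).2 | omega
        _ = (((range P.n).filter fun t => P.n < t + m).card : ℝ) := by rw [sum_boole]
        _ ≤ m := by
          have : ((range P.n).filter fun t => P.n < t + m) ⊆ Ico (P.n - m) P.n := fun t ht => by
            simp only [mem_filter, mem_range] at ht
            simp only [mem_Ico]
            omega
          have := card_le_card this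
          rw [Nat.card_Ico] at this
          exact_mod_cast le_trans this (by omega : P.n - (P.n - m) ≤ m)
  have hround : ∀ R < M, 0 ≤ F ((R + 1) * G) - F (R * G) ∧
      F ((R + 1) * G) - F (R * G) ≤ 2 ^ P.e * m := by
    intro R hR
    have hflat : ∀ (E : ℕ) (f : ℕ → ℝ),
        ∑ t ∈ range (E * P.n), f t = ∑ b ∈ range E, ∑ t ∈ range P.n, f (b * P.n + t) := by
      intro E f
      induction E with
      | zero => simp
      | succ E ih => rw [sum_range_succ, ← ih, Nat.succ_mul, sum_range_add]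
    have h1 : F ((R + 1) * G) - F (R * G) =
        ∑ j : Fin (2 ^ P.e),
          ((∑ t ∈ range P.n, g ((R * 2 ^ P.e + j) * P.n + t)) - o (φ (R * 2 ^ P.e + j))) := by
      simp only [hF]
      rw [show (R + 1) * G = R * G + G by ring, sum_range_add, add_sub_cancel_left,
        sum_sub_distrib, sum_sub_distrib,
        (hφ R hR).sum_comp (fun j => o j), hG, hflat (2 ^ P.e) (fun t => g (R * G + t)),
        ← Fin.sum_univ_eq_sum_range (fun b => ∑ t ∈ range P.n, g (R * G + (b * P.n + t)))]
      congr 1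
      · refine sum_congr rfl fun j _ => sum_congr rfl fun t _ => ?_
        congr 1
        rw [hG]
        ring
      · rw [sum_const, card_range, nsmul_eq_mul, hc, ← hG]
        field_simp
    have hb : ∀ j : Fin (2 ^ P.e), R * 2 ^ P.e + j < M * 2 ^ P.e := fun j =>
      calc R * 2 ^ P.e + j < R * 2 ^ P.e + 2 ^ P.e := Nat.add_lt_add_left j.isLt _
        _ = (R + 1) * 2 ^ P.e := by ring
        _ ≤ M * 2 ^ P.e := Nat.mul_le_mul_right _ hR
    rw [h1]
    refine ⟨sum_nonneg fun j _ => (hblock _ (hb j)).1, ?_⟩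
    calc (∑ j : Fin (2 ^ P.e), ((∑ t ∈ range P.n, g ((R * 2 ^ P.e + j) * P.n + t)) -
          o (φ (R * 2 ^ P.e + j)))) ≤ ∑ _j : Fin (2 ^ P.e), (m : ℝ) :=
          sum_le_sum fun j _ => (hblock _ (hb j)).2
      _ = 2 ^ P.e * m := by simp
  have hmult : ∀ R ≤ M, 0 ≤ F (R * G) ∧ F (R * G) ≤ R * (2 ^ P.e * m) := by
    intro R
    induction R with
    | zero => simp [hF]
    | succ R ih =>
      intro hR
      obtain ⟨a, b⟩ := hround R hR
      obtain ⟨a', b'⟩ := ih (by omega)
      push_cast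
      exact ⟨by linarith, by linarith⟩
  have hFT : ∀ T ≤ M * G, |F T| ≤ (M : ℝ) * (2 ^ P.e * m) + G := by
    intro T hT
    have hR : T / G ≤ M := Nat.div_le_of_le_mul (by rwa [mul_comm])
    have hsplit : F T = F (T / G * G) + ∑ t ∈ range (T % G), (g (T / G * G + t) - c) := by
      simp only [hF]
      rw [← sum_range_add, Nat.div_add_mod']
    obtain ⟨a, b⟩ := hmult _ hR
    have hrest : |∑ t ∈ range (T % G), (g (T / G * G + t) - c)| ≤ G := by
      refine (abs_sum_le_sum_abs _ _).trans ((sum_le_sum (g := fun _ => (1 : ℝ)) fun t _ => ?_).trans ?_)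
      · obtain ⟨a1, a2⟩ := hind fun i => y (T / G * G + t + i)
        rw [abs_le]
        constructor <;> simp only [hg] <;> linarith
      · simp only [sum_const, card_range, nsmul_eq_mul, mul_one]
        exact_mod_cast (Nat.mod_lt _ hGpos).le
    rw [hsplit]
    refine (abs_add_le _ _).trans (add_le_add ?_ hrest)
    rw [abs_of_nonneg a]
    refine b.trans (mul_le_mul_of_nonneg_right (by exact_mod_cast hR) (by positivity))
  intro s N hsN
  have h1 : (∑ t ∈ range N, W.indicator (fun _ => (1 : ℝ)) fun i => y (s + t + i)) - c * N =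
      F (s + N) - F s := by
    simp only [hF, sum_range_add, sum_sub_distrib, sum_const, card_range, nsmul_eq_mul, hg]
    push_cast
    ring
  rw [h1]
  have hGc : (G : ℝ) = 2 ^ P.e * P.n := by simp [hG]
  rw [← hGc]
  have := abs_sub (F (s + N)) (F s)
  linarith [hFT (s + N) hsN, hFT s (by omega)]

end Vale.Agent.P109
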