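import Vale.Agent.P109.Spec

/-!
P109: a chain of codes, each chosen by counting among concatenations of the previous one, whose
laws of windows avoid a small catalogue.
-/

namespace Vale.Agent.P109

open Finset Filter Topology

/-! ## Disagreement -/

theorem disagree_eq_sum (n : ℕ) (u v : ℕ → Bool) :
    disagree n u v = ∑ t ∈ range n, if u t ≠ v t then 1 else 0 := card_filter _ _

theorem disagree_congr {n : ℕ} {u u' v v' : ℕ → Bool} (hu : ∀ t < n, u t = u' t)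
    (hv : ∀ t < n, v t = v' t) : disagree n u v = disagree n u' v' := by
  simp only [disagree_eq_sum]
  exact sum_congr rfl fun t ht => by rw [hu t (mem_range.1 ht), hv t (mem_range.1 ht)]

theorem disagree_triangle (n : ℕ) (u v w : ℕ → Bool) :
    disagree n u v ≤ disagree n u w + disagree n v w := by
  simp only [disagree_eq_sum, ← sum_add_distrib]
  refine sum_le_sum fun t _ => ?_
  cases u t <;> cases v t <;> cases w t <;> simp

theorem disagree_mul (n : ℕ) (u v : ℕ → Bool) (m : ℕ) :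
    disagree (m * n) u v =
      ∑ b ∈ range m, disagree n (fun t => u (b * n + t)) (fun t => v (b * n + t)) := by
  simp only [disagree_eq_sum]
  induction m with
  | zero => simp
  | succ m ih => rw [Nat.succ_mul, sum_range_add, sum_range_succ, ih]

/-! ## Candidates -/

/-- Candidates: rounds, each an arrangement of all the words. -/
abbrev Cand (P : Code) (q : ℕ) := Fin q → Equiv.Perm (Fin (2 ^ P.e))

/-- The word of a candidate. -/
def cword (P : Code) {q : ℕ} (c : Cand P q) (p : ℕ) : Bool :=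
  if h : p / P.n / 2 ^ P.e < q then
    P.word (c ⟨_, h⟩ ⟨p / P.n % 2 ^ P.e, Nat.mod_lt _ (Nat.two_pow_pos _)⟩) (p % P.n)
  else false

theorem cword_apply (P : Code) {q : ℕ} (c : Cand P q) (r : Fin q) (j : Fin (2 ^ P.e)) (t : ℕ)
    (ht : t < P.n) :
    cword P c (((r : ℕ) * 2 ^ P.e + (j : ℕ)) * P.n + t) = P.word (c r j) t := by
  have h1 : (((r : ℕ) * 2 ^ P.e + (j : ℕ)) * P.n + t) / P.n = (r : ℕ) * 2 ^ P.e + (j : ℕ) := by
    rw [Nat.mul_comm, Nat.mul_add_div P.n_pos, Nat.div_eq_of_lt ht, Nat.add_zero]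
  have h2 : (((r : ℕ) * 2 ^ P.e + (j : ℕ)) * P.n + t) % P.n = t := by
    rw [Nat.mul_comm, Nat.mul_add_mod, Nat.mod_eq_of_lt ht]
  have h3 : ((r : ℕ) * 2 ^ P.e + (j : ℕ)) / 2 ^ P.e = r := by
    rw [Nat.mul_comm, Nat.mul_add_div (Nat.two_pow_pos _), Nat.div_eq_of_lt j.isLt,
      Nat.add_zero]
  have h4 : ((r : ℕ) * 2 ^ P.e + (j : ℕ)) % 2 ^ P.e = j := by
    rw [Nat.mul_comm, Nat.mul_add_mod, Nat.mod_eq_of_lt j.isLt]
  simp [cword, h1, h2, h3, h4, r.isLt]

theorem disagree_cword (P : Code) {q : ℕ} (c : Cand P q) (v : ℕ → Bool) :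
    disagree (q * 2 ^ P.e * P.n) (cword P c) v =
      ∑ p : Fin q × Fin (2 ^ P.e), disagree P.n (P.word (c p.1 p.2))
        (fun t => v (((p.1 : ℕ) * 2 ^ P.e + (p.2 : ℕ)) * P.n + t)) := by
  rw [disagree_mul, ← Fin.sum_univ_eq_sum_range, ← finProdFinEquiv.sum_comp]
  refine sum_congr rfl fun p _ => ?_
  rw [show ((finProdFinEquiv p : Fin (q * 2 ^ P.e)) : ℕ) = (p.1 : ℕ) * 2 ^ P.e + (p.2 : ℕ) by
    simp [finProdFinEquiv]; ring]
  exact disagree_congr (fun t ht => cword_apply P c p.1 p.2 t ht) fun t _ => rfl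

/-- Number of blocks in which a candidate follows a prescribed choice. -/
def agree {P : Code} {q : ℕ} (c : Cand P q) (f : Fin q × Fin (2 ^ P.e) → Fin (2 ^ P.e)) : ℕ :=
  (univ.filter fun p : Fin q × Fin (2 ^ P.e) => c p.1 p.2 = f p).card

theorem card_agree_le (P : Code) (q a : ℕ) (f : Fin q × Fin (2 ^ P.e) → Fin (2 ^ P.e)) :
    (univ.filter fun c : Cand P q => a ≤ agree c f).card
      ≤ 2 ^ (q * 2 ^ P.e) * (2 ^ P.e) ^ (q * 2 ^ P.e - a) := by
  classical
  set A : Finset (Finset (Fin q × Fin (2 ^ P.e))) :=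
    univ.filter fun s => a ≤ s.card with hA
  set G : Finset (Fin q × Fin (2 ^ P.e) → Fin (2 ^ P.e)) :=
    A.biUnion fun s => Fintype.piFinset fun p => if p ∈ s then {f p} else univ with hG
  have h1 : (univ.filter fun c : Cand P q => a ≤ agree c f).card ≤ G.card := by
    refine card_le_card_of_injOn (fun c p => c p.1 p.2) (fun c hc => ?_) ?_
    · simp only [hG, hA, coe_filter, mem_univ, true_and, Set.mem_setOf_eq] at hc ⊢
      rw [mem_coe, mem_biUnion]
      refine ⟨univ.filter fun p => c p.1 p.2 = f p, mem_filter.2 ⟨mem_univ _, hc⟩,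
        Fintype.mem_piFinset.2 fun p => ?_⟩
      split_ifs with h
      · exact mem_singleton.2 (mem_filter.1 h).2
      · exact mem_univ _
    · intro c _ c' _ h
      funext r
      exact Equiv.ext fun j => congrFun h (r, j)
  refine h1.trans (card_biUnion_le.trans
    ((sum_le_card_nsmul A _ ((2 ^ P.e) ^ (q * 2 ^ P.e - a)) fun s hs => ?_).trans ?_))
  · rw [Fintype.card_piFinset]
    simp only [apply_ite Finset.card, card_singleton, card_univ, Fintype.card_fin, prod_ite,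
      prod_const, one_pow, one_mul]
    refine Nat.pow_le_pow_right (Nat.two_pow_pos _) ?_
    rw [filter_not, filter_mem_eq_inter, univ_inter, card_univ_diff, Fintype.card_prod,
      Fintype.card_fin, Fintype.card_fin]
    exact Nat.sub_le_sub_left (mem_filter.1 hs).2 _
  · rw [smul_eq_mul]
    refine Nat.mul_le_mul_right _ ?_
    refine (card_le_univ _).trans (le_of_eq ?_)
    simp [Fintype.card_finset]

theorem pow_self_le (e : ℕ) : (2 ^ e) ^ (2 ^ e) ≤ 4 ^ (2 ^ e) * (2 ^ e).factorial := by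
  induction e with
  | zero => simp
  | succ e ih =>
    set n := 2 ^ e with hn
    have h2 : 2 ^ (e + 1) = n + n := by rw [pow_succ, ← hn]; ring
    rw [h2]
    have h3 : n.factorial * n ^ n ≤ (n + n).factorial :=
      le_trans (Nat.mul_le_mul_left _ (Nat.pow_le_pow_left n.le_succ _))
        Nat.factorial_mul_pow_le_factorial
    calc (n + n) ^ (n + n) = 4 ^ n * (n ^ n * n ^ n) := by
          rw [show n + n = 2 * n by ring, mul_pow, pow_mul, two_mul n, pow_add]; norm_num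
      _ ≤ 4 ^ n * (4 ^ n * n.factorial * n ^ n) := by gcongr
      _ = 4 ^ (n + n) * (n.factorial * n ^ n) := by ring
      _ ≤ 4 ^ (n + n) * (n + n).factorial := by gcongr

theorem card_cand_ge (P : Code) (q : ℕ) :
    2 ^ (P.e * (q * 2 ^ P.e)) ≤ 4 ^ (q * 2 ^ P.e) * Fintype.card (Cand P q) := by
  have h := Nat.pow_le_pow_left (pow_self_le P.e) q
  rw [mul_pow, ← pow_mul, ← pow_mul, ← pow_mul] at h
  simpa [Fintype.card_perm, mul_comm, mul_left_comm, mul_assoc] using h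

theorem card_near_le (P : Code) (q b R : ℕ) (hR : 2 * R < (b + 1) * P.D) (v : ℕ → Bool) :
    (univ.filter fun c : Cand P q => disagree (q * 2 ^ P.e * P.n) (cword P c) v ≤ R).card
      ≤ 2 ^ (q * 2 ^ P.e) * (2 ^ P.e) ^ b := by
  classical
  set seg : Fin q × Fin (2 ^ P.e) → ℕ → Bool :=
    fun p t => v (((p.1 : ℕ) * 2 ^ P.e + (p.2 : ℕ)) * P.n + t)
  set f : Fin q × Fin (2 ^ P.e) → Fin (2 ^ P.e) := fun p =>
    if h : ∃ j, 2 * disagree P.n (P.word j) (seg p) < P.D then h.choose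
    else ⟨0, Nat.two_pow_pos _⟩ with hf
  have hcard : Fintype.card (Fin q × Fin (2 ^ P.e)) = q * 2 ^ P.e := by simp
  have hpow : (2 ^ P.e) ^ (q * 2 ^ P.e - (q * 2 ^ P.e - b)) ≤ (2 ^ P.e) ^ b :=
    Nat.pow_le_pow_right (Nat.two_pow_pos _) (by omega)
  refine le_trans ?_ (le_trans (card_agree_le P q (q * 2 ^ P.e - b) f)
    (Nat.mul_le_mul_left _ hpow))
  refine card_le_card fun c hc => ?_
  simp only [mem_filter, mem_univ, true_and] at hc ⊢
  rw [disagree_cword] at hc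
  set bad := univ.filter fun p : Fin q × Fin (2 ^ P.e) => ¬ c p.1 p.2 = f p
  have hbad : ∀ p ∈ bad, P.D ≤ 2 * disagree P.n (P.word (c p.1 p.2)) (seg p) := by
    intro p hp
    by_contra hlt
    rw [not_le] at hlt
    have hex : ∃ j, 2 * disagree P.n (P.word j) (seg p) < P.D := ⟨_, hlt⟩
    have hne := (mem_filter.1 hp).2
    simp only [hf, dif_pos hex] at hne
    have h1 := hex.choose_spec
    have h2 := P.sep _ _ hne
    have h3 := disagree_triangle P.n (P.word (c p.1 p.2)) (P.word hex.choose) (seg p)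
    omega
  have h1 : bad.card * P.D ≤ 2 * R := by
    have h0 := (card_nsmul_le_sum bad _ _ hbad).trans
      (sum_le_sum_of_subset (subset_univ bad))
    rw [smul_eq_mul, ← mul_sum] at h0
    exact h0.trans (Nat.mul_le_mul_left 2 hc)
  have h2 : bad.card ≤ b := by
    by_contra hlt
    have : (b + 1) * P.D ≤ bad.card * P.D := Nat.mul_le_mul_right _ (by omega)
    omega
  have h3 := card_filter_add_card_filter_not (s := (univ : Finset (Fin q × Fin (2 ^ P.e))))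
    (fun p => c p.1 p.2 = f p)
  rw [card_univ, hcard] at h3
  show _ ≤ (univ.filter fun p => c p.1 p.2 = f p).card
  have h4 : (univ.filter fun p => ¬ c p.1 p.2 = f p).card ≤ b := h2
  omega

theorem sep_cword (P : Code) {q a : ℕ} (c c' : Cand P q)
    (h : agree c (fun p => c' p.1 p.2) < a) :
    (q * 2 ^ P.e - a) * P.D ≤ disagree (q * 2 ^ P.e * P.n) (cword P c) (cword P c') := by
  rw [disagree_cword]
  set bad := univ.filter fun p : Fin q × Fin (2 ^ P.e) => ¬ c p.1 p.2 = c' p.1 p.2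
  have h3 := card_filter_add_card_filter_not (s := (univ : Finset (Fin q × Fin (2 ^ P.e))))
    (fun p => c p.1 p.2 = c' p.1 p.2)
  simp only [card_univ, Fintype.card_prod, Fintype.card_fin] at h3
  simp only [agree] at h
  have h4 : q * 2 ^ P.e - a ≤ bad.card := by
    show _ ≤ (univ.filter fun p : Fin q × Fin (2 ^ P.e) => ¬ c p.1 p.2 = c' p.1 p.2).card
    omega
  calc (q * 2 ^ P.e - a) * P.D ≤ bad.card * P.D := Nat.mul_le_mul_right _ h4
    _ ≤ ∑ p ∈ bad, disagree P.n (P.word (c p.1 p.2)) (fun t =>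
        cword P c' (((p.1 : ℕ) * 2 ^ P.e + (p.2 : ℕ)) * P.n + t)) := by
      rw [← smul_eq_mul]
      refine card_nsmul_le_sum bad _ _ fun p hp => ?_
      rw [disagree_congr (fun t _ => rfl) fun t ht => cword_apply P c' p.1 p.2 t ht]
      exact P.sep _ _ (mem_filter.1 hp).2
    _ ≤ _ := sum_le_sum_of_subset (subset_univ _)

/-! ## Laws far from a catalogue law -/

/-- A window as a sequence. -/
def ext0 {N : ℕ} (w : Word N) (p : ℕ) : Bool := if h : p < N then w ⟨p, h⟩ else false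

/-- The name has a segment near `v`. -/
def Reaches (n R : ℕ) (v : ℕ → Bool) (w : Word (2 * n)) : Prop :=
  ∃ o ∈ range (n + 1), disagree n v (fun t => ext0 w (o + t)) ≤ R

open Classical in
/-- Mass of the names having a segment near `v`. -/
noncomputable def reach (n R : ℕ) (c : Word (2 * n) → ℝ) (v : ℕ → Bool) : ℝ :=
  ∑ w : Word (2 * n), if Reaches n R v w then |c w| else 0

theorem reach_nonneg (n R : ℕ) (c : Word (2 * n) → ℝ) (v : ℕ → Bool) : 0 ≤ reach n R c v :=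
  sum_nonneg fun w _ => by split_ifs <;> simp

theorem disagree_seg_le (Q : Code) (s : Fin Q.n) (i j l : Fin (2 ^ Q.e)) (w : Word (2 * Q.n)) :
    disagree Q.n (Q.word j) (fun t => ext0 w (Q.n - s + t))
      ≤ hammingDist (Q.seg s i j l) w := by
  have hs := s.isLt
  refine card_le_card_of_injOn
    (fun t => if h : Q.n - s + t < 2 * Q.n then (⟨Q.n - s + t, h⟩ : Fin (2 * Q.n))
      else ⟨0, by omega⟩) (fun t ht => ?_) ?_
  · simp only [coe_filter, Set.mem_setOf_eq, mem_range] at ht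
    obtain ⟨ht, hne⟩ := ht
    have h : Q.n - s + t < 2 * Q.n := by omega
    simp only [coe_filter, mem_univ, true_and, Set.mem_setOf_eq, dif_pos h]
    intro he
    apply hne
    simp only [Code.seg] at he
    rw [if_neg (by omega), if_pos (by omega), show (s : ℕ) + (Q.n - s + t) - Q.n = t by omega]
      at he
    rw [ext0, dif_pos h]
    exact he
  · intro t ht t' ht' he
    simp only [coe_filter, Set.mem_setOf_eq, mem_range] at ht ht'
    simp only [dif_pos (show Q.n - s + t < 2 * Q.n by omega),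
      dif_pos (show Q.n - s + t' < 2 * Q.n by omega), Fin.mk.injEq] at he
    omega

theorem lift_plan {X V : Type*} [Fintype X] [Fintype V] [DecidableEq V] (sg : X → V) (wt : X → ℝ)
    (hwt : ∀ x, 0 ≤ wt x) (π : V → V → ℝ) (hπ : ∀ v w, 0 ≤ π v w) (law : V → ℝ)
    (hlaw : ∀ v, law v = ∑ x ∈ univ.filter (fun x => sg x = v), wt x)
    (hrow : ∀ v, ∑ w, π v w = law v) :
    ∃ ρ : X → V → ℝ, (∀ x w, 0 ≤ ρ x w) ∧ (∀ x, ∑ w, ρ x w = wt x) ∧
      ∀ (g : V → ℝ) (w : V), ∑ x, ρ x w * g (sg x) = ∑ v, π v w * g v := by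
  classical
  have hlaw0 : ∀ v, 0 ≤ law v := fun v => by rw [hlaw]; exact sum_nonneg fun y _ => hwt y
  refine ⟨fun x w => wt x * π (sg x) w / law (sg x),
    fun x w => div_nonneg (mul_nonneg (hwt x) (hπ _ _)) (hlaw0 _), fun x => ?_, fun g w => ?_⟩
  · rw [← sum_div, ← mul_sum, hrow]
    by_cases h : law (sg x) = 0
    · have h' := h
      rw [hlaw] at h'
      have := (sum_eq_zero_iff_of_nonneg fun y _ => hwt y).1 h' x
        (mem_filter.2 ⟨mem_univ _, rfl⟩)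
      simp [this]
    · field_simp
  · rw [← sum_fiberwise univ sg (fun x => wt x * π (sg x) w / law (sg x) * g (sg x))]
    refine sum_congr rfl fun v _ => ?_
    rw [sum_congr rfl fun x hx => show wt x * π (sg x) w / law (sg x) * g (sg x)
        = wt x * (π v w * g v / law v) by rw [(mem_filter.1 hx).2]; ring, ← sum_mul, ← hlaw]
    by_cases h : law v = 0
    · have := (sum_eq_zero_iff_of_nonneg fun y _ => hπ v y).1 ((hrow v).trans h) w (mem_univ _)
      simp [h, this]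
    · field_simp

/-- A plan with small cost keeps most of its mass on near pairs. -/
theorem far_small {X V : Type*} [Fintype X] [Fintype V] (ρ : X → V → ℝ)
    (hρ : ∀ x w, 0 ≤ ρ x w) (dist : X → V → ℕ) (n R : ℕ) (hR : n < 2 ^ 12 * (R + 1))
    (hcost : ∑ x, ∑ w, ρ x w * dist x w ≤ 1 / 2 ^ 17 * (2 * n : ℕ)) :
    ∑ x, ∑ w, (if R < dist x w then ρ x w else 0) ≤ 1 / 16 := by
  have h1 : (∑ x, ∑ w, (if R < dist x w then ρ x w else 0)) * ((R : ℝ) + 1)
      ≤ ∑ x, ∑ w, ρ x w * dist x w := by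
    rw [sum_mul]
    refine sum_le_sum fun x _ => ?_
    rw [sum_mul]
    refine sum_le_sum fun w _ => ?_
    split_ifs with h
    · exact mul_le_mul_of_nonneg_left (by exact_mod_cast h) (hρ x w)
    · simpa using mul_nonneg (hρ x w) (Nat.cast_nonneg _)
  have h2 : (n : ℝ) ≤ 2 ^ 12 * ((R : ℝ) + 1) := by exact_mod_cast hR.le
  have h3 := h1.trans hcost
  rw [Nat.cast_mul, Nat.cast_ofNat] at h3
  by_contra hlt
  have h4 : 1 / 16 * ((R : ℝ) + 1)
      < (∑ x, ∑ w, (if R < dist x w then ρ x w else 0)) * ((R : ℝ) + 1) :=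
    mul_lt_mul_of_pos_right (not_le.1 hlt) (by positivity)
  linarith

/-- Cutting the columns of a plan down to a second law loses little. -/
theorem cut_columns {X V : Type*} [Fintype X] [Fintype V] (ρ : X → V → ℝ)
    (hρ : ∀ x w, 0 ≤ ρ x w) (c : V → ℝ) {δ : ℝ} (h : ∑ w, |(∑ x, ρ x w) - c w| ≤ δ) :
    ∃ τ : V → ℝ, (∀ w, 0 ≤ τ w) ∧ (∀ w, τ w ≤ 1) ∧ (∀ w, ∑ x, ρ x w * τ w ≤ |c w|) ∧
      ∑ x, ∑ w, ρ x w * (1 - τ w) ≤ δ := by
  have hq : ∀ w, 0 ≤ ∑ x, ρ x w := fun w => sum_nonneg fun x _ => hρ x w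
  refine ⟨fun w => min (∑ x, ρ x w) |c w| / ∑ x, ρ x w,
    fun w => div_nonneg (le_min (hq w) (abs_nonneg _)) (hq w),
    fun w => div_le_one_of_le₀ (min_le_left _ _) (hq w), fun w => ?_, ?_⟩
  · rw [← sum_mul]
    by_cases h0 : ∑ x, ρ x w = 0
    · simp [h0]
    · rw [mul_div_cancel₀ _ h0]; exact min_le_right _ _
  · rw [sum_comm]
    refine le_trans (sum_le_sum fun w _ => ?_) h
    rw [← sum_mul]
    by_cases h0 : ∑ x, ρ x w = 0
    · simp [h0]
    · rw [mul_sub, mul_one, mul_div_cancel₀ _ h0]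
      rcases min_cases (∑ x, ρ x w) |c w| with ⟨h1, -⟩ | ⟨h1, -⟩ <;> rw [h1]
      · simp
      · linarith [le_abs_self (∑ x, ρ x w - c w), le_abs_self (c w)]

/-- A plan of small cost cannot send uniformly distributed middle words into few near names. -/
theorem plan_false {X V J : Type*} [Fintype X] [Fintype V] [Fintype J] [DecidableEq J]
    (mid : X → J) (ρ : X → V → ℝ) (hρ : ∀ x w, 0 ≤ ρ x w) (β : ℝ)
    (hmarg : ∀ j, ∑ x ∈ univ.filter (fun x => mid x = j), ∑ w, ρ x w = β)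
    (htotal : ∑ x, ∑ w, ρ x w = 1) (dist : X → V → ℕ) (R : ℕ)
    (hfar : ∑ x, ∑ w, (if R < dist x w then ρ x w else 0) ≤ 1 / 16)
    (c : V → ℝ) (hcol : ∑ w, |(∑ x, ρ x w) - c w| ≤ 1 / 2 ^ 17)
    (r : J → V → Prop) [∀ j w, Decidable (r j w)]
    (hr : ∀ x w, dist x w ≤ R → r (mid x) w)
    (hZ : ∑ j, min β (∑ w, if r j w then |c w| else 0) ≤ 1 / 4) : False := by
  obtain ⟨τ, hτ0, hτ1, hτc, hloss⟩ := cut_columns ρ hρ c hcol
  have hclose : ∑ x, ∑ w, (if R < dist x w then 0 else ρ x w * τ w) ≤ 1 / 4 := by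
    rw [← sum_fiberwise univ mid]
    refine le_trans (sum_le_sum fun j _ => le_min ?_ ?_) hZ
    · refine le_trans (sum_le_sum fun x _ => sum_le_sum fun w _ => ?_) (hmarg j).le
      split_ifs
      · exact hρ x w
      · exact mul_le_of_le_one_right (hρ x w) (hτ1 w)
    · rw [sum_comm]
      refine sum_le_sum fun w _ => ?_
      by_cases hex : r j w
      · rw [if_pos hex]
        refine le_trans (sum_le_sum_of_subset_of_nonneg (subset_univ _) fun x _ _ => ?_)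
          (le_trans (sum_le_sum fun x _ => ?_) (hτc w))
        · split_ifs
          · exact le_rfl
          · exact mul_nonneg (hρ x w) (hτ0 w)
        · split_ifs
          · exact mul_nonneg (hρ x w) (hτ0 w)
          · exact le_rfl
      · rw [if_neg hex]
        refine sum_nonpos fun x hx => ?_
        rw [if_pos]
        by_contra hf
        obtain rfl := (mem_filter.1 hx).2
        exact hex (hr x w (not_lt.1 hf))
  have hsplit : ∑ x, ∑ w, ρ x w ≤ ∑ x, ∑ w, (if R < dist x w then ρ x w else 0)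
      + (∑ x, ∑ w, (if R < dist x w then 0 else ρ x w * τ w)
        + ∑ x, ∑ w, ρ x w * (1 - τ w)) := by
    simp only [← sum_add_distrib]
    refine sum_le_sum fun x _ => sum_le_sum fun w _ => ?_
    have h1 := mul_le_of_le_one_right (hρ x w) (hτ1 w)
    rw [mul_sub, mul_one]
    split_ifs <;> linarith
  rw [htotal] at hsplit
  linarith [show (1 : ℝ) / 2 ^ 17 ≤ 1 / 4 by norm_num]

/-- Weights of the decomposition, as one function. -/
def triple (Q : Code) (W : Fin Q.n → Fin (2 ^ Q.e) → Fin (2 ^ Q.e) → Fin (2 ^ Q.e) → ℝ)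
    (x : Fin Q.n × Fin (2 ^ Q.e) × Fin (2 ^ Q.e) × Fin (2 ^ Q.e)) : ℝ :=
  W x.1 x.2.1 x.2.2.1 x.2.2.2

theorem triple_marg (Q : Code) (W : Fin Q.n → Fin (2 ^ Q.e) → Fin (2 ^ Q.e) → Fin (2 ^ Q.e) → ℝ)
    (j : Fin (2 ^ Q.e)) :
    ∑ x ∈ univ.filter (fun x : Fin Q.n × Fin (2 ^ Q.e) × Fin (2 ^ Q.e) × Fin (2 ^ Q.e) =>
        x.2.2.1 = j), triple Q W x = ∑ s, ∑ i, ∑ l, W s i j l := by
  rw [sum_filter, Fintype.sum_prod_type]
  refine sum_congr rfl fun s _ => ?_
  rw [Fintype.sum_prod_type]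
  refine sum_congr rfl fun i _ => ?_
  rw [Fintype.sum_prod_type, sum_comm]
  simp [triple]

theorem sum_four {A B C D : Type*} [Fintype A] [Fintype B] [Fintype C] [Fintype D]
    (F : A → B → C → D → ℝ) :
    ∑ a, ∑ b, ∑ c, ∑ d, F a b c d = ∑ x : A × B × C × D, F x.1 x.2.1 x.2.2.1 x.2.2.2 := by
  simp only [Fintype.sum_prod_type]

theorem triple_law (Q : Code) (W : Fin Q.n → Fin (2 ^ Q.e) → Fin (2 ^ Q.e) → Fin (2 ^ Q.e) → ℝ)
    (v : Word (2 * Q.n)) :
    (∑ s, ∑ i, ∑ j, ∑ l, if Q.seg s i j l = v then W s i j l else 0) =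
      ∑ x ∈ univ.filter (fun x : Fin Q.n × Fin (2 ^ Q.e) × Fin (2 ^ Q.e) × Fin (2 ^ Q.e) =>
        Q.seg x.1 x.2.1 x.2.2.1 x.2.2.2 = v), triple Q W x :=
  (sum_four fun s i j l => if Q.seg s i j l = v then W s i j l else 0).trans
    (sum_filter (fun x : Fin Q.n × Fin (2 ^ Q.e) × Fin (2 ^ Q.e) × Fin (2 ^ Q.e) =>
        Q.seg x.1 x.2.1 x.2.2.1 x.2.2.2 = v) (triple Q W)).symm

theorem not_near (Q : Code) (R : ℕ) (hR : Q.n < 2 ^ 12 * (R + 1))
    (c : Word (2 * Q.n) → ℝ)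
    (hZ : ∑ j, min ((2 : ℝ) ^ Q.e)⁻¹ (reach Q.n R c (Q.word j)) ≤ 1 / 4)
    (law : Word (2 * Q.n) → ℝ) (hd : Decomp Q law) : ¬ Near (1 / 2 ^ 17 : ℝ) law c := by
  rintro ⟨π, hπ, hrow, hcol, hcost⟩
  obtain ⟨W, hW, hmid, hlaw⟩ := hd
  obtain ⟨ρ, hρ, hρrow, hfib⟩ := lift_plan
    (fun x : Fin Q.n × Fin (2 ^ Q.e) × Fin (2 ^ Q.e) × Fin (2 ^ Q.e) =>
      Q.seg x.1 x.2.1 x.2.2.1 x.2.2.2) (triple Q W) (fun x => hW _ _ _ _) π hπ law
    (fun v => (hlaw v).trans (triple_law Q W v)) hrow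
  have hmarg : ∀ j, ∑ x ∈ univ.filter (fun x : Fin Q.n × Fin (2 ^ Q.e) × Fin (2 ^ Q.e) ×
      Fin (2 ^ Q.e) => x.2.2.1 = j), ∑ w, ρ x w = ((2 : ℝ) ^ Q.e)⁻¹ := fun j =>
    (sum_congr rfl fun x _ => hρrow x).trans ((triple_marg Q W j).trans (hmid j))
  have hcol' : ∑ w, |(∑ x, ρ x w) - c w| ≤ 1 / 2 ^ 17 := by
    refine le_trans (le_of_eq (sum_congr rfl fun w _ => ?_)) hcol
    have h := hfib (fun _ => 1) w
    simp only [mul_one] at h
    rw [h]
  have hcost' : ∑ x : Fin Q.n × Fin (2 ^ Q.e) × Fin (2 ^ Q.e) × Fin (2 ^ Q.e), ∑ w,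
      ρ x w * hammingDist (Q.seg x.1 x.2.1 x.2.2.1 x.2.2.2) w
        ≤ 1 / 2 ^ 17 * (2 * Q.n : ℕ) := by
    rw [sum_comm, sum_congr rfl fun w _ => hfib (fun v => (hammingDist v w : ℝ)) w, sum_comm]
    exact hcost
  classical
  refine plan_false (fun x : Fin Q.n × Fin (2 ^ Q.e) × Fin (2 ^ Q.e) × Fin (2 ^ Q.e) => x.2.2.1)
    ρ hρ _ hmarg ?_ _ R (far_small ρ hρ _ Q.n R hR hcost') c hcol'
    (fun j w => Reaches Q.n R (Q.word j) w) (fun x w h => ⟨Q.n - x.1, by simp,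
      (disagree_seg_le Q x.1 x.2.1 x.2.2.1 x.2.2.2 w).trans h⟩) hZ
  rw [← sum_fiberwise univ (fun x : Fin Q.n × Fin (2 ^ Q.e) × Fin (2 ^ Q.e) × Fin (2 ^ Q.e) =>
    x.2.2.1), sum_congr rfl fun j _ => hmarg j, sum_const, card_univ, Fintype.card_fin,
    nsmul_eq_mul, Nat.cast_pow, Nat.cast_ofNat, mul_inv_cancel₀ (by positivity)]

/-! ## One step -/

/-- The conditions kept along the chain. -/
structure Good (k : ℕ) (P : Code) : Prop where
  e_large : 2 ^ (k + 7) ≤ P.e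
  D_large : P.n * (2 ^ k + 1) ≤ P.D * 512 * 2 ^ k
  e_small : P.e * 32 ^ k ≤ P.n
  n_small : k * P.n ≤ 2 ^ P.e

theorem exp_le_one_add_two {y : ℝ} (h0 : 0 ≤ y) (h1 : y ≤ 1) : Real.exp y ≤ 1 + 2 * y := by
  have h := Real.exp_bound' h0 h1 (n := 2) (by norm_num)
  norm_num [sum_range_succ] at h
  nlinarith [mul_le_mul_of_nonneg_left h1 h0]

theorem sq_le_two_pow {K : ℕ} (hK : 4 ≤ K) : K ^ 2 ≤ 2 ^ K := by
  induction K, hK using Nat.le_induction with
  | base => norm_num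
  | succ K hK ih => rw [pow_succ 2 K]; nlinarith

theorem card_pair_le {α β : Type*} [Fintype α] [Fintype β] [DecidableEq β]
    (r : α → α → Prop) [DecidableRel r] {i j : β} (hij : i ≠ j) {s : ℕ}
    (hs : ∀ b, (univ.filter fun a => r a b).card ≤ s) :
    (univ.filter fun f : β → α => r (f i) (f j)).card * Fintype.card α
      ≤ s * Fintype.card (β → α) := by
  classical
  let e := Equiv.funSplitAt i α
  have h1 : (univ.filter fun f : β → α => r (f i) (f j)).card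
      ≤ (univ.filter fun x : α × ({b // b ≠ i} → α) => r x.1 (x.2 ⟨j, hij.symm⟩)).card := by
    refine card_le_card_of_injOn e (fun f hf => ?_) e.injective.injOn
    simpa [e, Equiv.funSplitAt] using hf
  have h2 : (univ.filter fun x : α × ({b // b ≠ i} → α) => r x.1 (x.2 ⟨j, hij.symm⟩)).card
      ≤ s * Fintype.card ({b // b ≠ i} → α) := by
    rw [card_filter, Fintype.sum_prod_type, sum_comm]
    refine le_trans (sum_le_sum fun g _ => le_of_eq_of_le ?_ (hs (g ⟨j, hij.symm⟩))) ?_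
    · rw [card_filter]
    · simp [mul_comm]
  rw [Fintype.card_congr e, Fintype.card_prod]
  calc _ ≤ s * Fintype.card ({b // b ≠ i} → α) * Fintype.card α :=
        Nat.mul_le_mul_right _ (h1.trans h2)
    _ = _ := by ring

theorem card_tail_le {α : Type*} [Fintype α] (N : ℕ) (Y : α → ℝ) (h0 : ∀ a, 0 ≤ Y a)
    (h1 : ∀ a, Y a ≤ 1) (hmean : ∑ a, Y a ≤ (Fintype.card α : ℝ) / 32) :
    ((univ.filter fun f : Fin N → α => (N : ℝ) / 4 < ∑ i, Y (f i)).card : ℝ)
      ≤ (Fintype.card (Fin N → α) : ℝ) * Real.exp (-(3 * N / 16)) := by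
  classical
  set S := univ.filter fun f : Fin N → α => (N : ℝ) / 4 < ∑ i, Y (f i)
  have h2 : (S.card : ℝ) * Real.exp (N / 4) ≤ ∑ f : Fin N → α, Real.exp (∑ i, Y (f i)) := by
    rw [← nsmul_eq_mul]
    refine le_trans (card_nsmul_le_sum S (fun f => Real.exp (∑ i, Y (f i))) _ fun f hf =>
      Real.exp_le_exp.2 (mem_filter.1 hf).2.le) ?_
    exact sum_le_sum_of_subset_of_nonneg (subset_univ _) fun f _ _ => (Real.exp_pos _).le
  have h3 : ∑ f : Fin N → α, Real.exp (∑ i, Y (f i)) = (∑ a, Real.exp (Y a)) ^ N := by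
    rw [Fintype.sum_pow]
    exact sum_congr rfl fun f _ => Real.exp_sum _ _
  have h4 : ∑ a, Real.exp (Y a) ≤ (Fintype.card α : ℝ) * Real.exp (1 / 16) := by
    calc ∑ a, Real.exp (Y a) ≤ ∑ a, (1 + 2 * Y a) :=
          sum_le_sum fun a _ => exp_le_one_add_two (h0 a) (h1 a)
      _ = (Fintype.card α : ℝ) + 2 * ∑ a, Y a := by simp [sum_add_distrib, mul_sum]
      _ ≤ (Fintype.card α : ℝ) * (1 + 1 / 16) := by linarith
      _ ≤ _ := by gcongr; linarith [Real.add_one_le_exp (1 / 16 : ℝ)]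
  have h5 := h2.trans (h3.le.trans (pow_le_pow_left₀ (sum_nonneg fun a _ => (Real.exp_pos _).le)
    h4 N))
  rw [mul_pow, ← Real.exp_nat_mul] at h5
  have h6 : Real.exp ((N : ℝ) * (1 / 16))
      = Real.exp (-(3 * N / 16)) * Real.exp ((N : ℝ) / 4) := by
    rw [← Real.exp_add]; ring_nf
  rw [h6, ← mul_assoc] at h5
  simpa using le_of_mul_le_mul_right h5 (Real.exp_pos _)

theorem sum_reach_le (P : Code) (q b R N : ℕ) (hN : N = q * 2 ^ P.e * P.n)
    (hR : 2 * R < (b + 1) * P.D) (c : Word (2 * N) → ℝ) (hc : ∑ w, |c w| ≤ 2) :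
    ∑ x : Cand P q, reach N R c (cword P x)
      ≤ 2 * (((N + 1) * (2 ^ (q * 2 ^ P.e) * (2 ^ P.e) ^ b) : ℕ) : ℝ) := by
  classical
  have h : ∀ w : Word (2 * N), (univ.filter fun x : Cand P q => Reaches N R (cword P x) w).card
        ≤ (N + 1) * (2 ^ (q * 2 ^ P.e) * (2 ^ P.e) ^ b) := by
    intro w
    refine le_trans (card_le_card fun x hx => ?_) (le_trans card_biUnion_le
      ((sum_le_card_nsmul (range (N + 1)) (fun o => (univ.filter fun x : Cand P q =>
        disagree N (cword P x) (fun t => ext0 w (o + t)) ≤ R).card) _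
        fun o _ => hN ▸ card_near_le P q b R hR _).trans (by simp)))
    obtain ⟨o, ho, hle⟩ := (mem_filter.1 hx).2
    exact mem_biUnion.2 ⟨o, ho, mem_filter.2 ⟨mem_univ _, hle⟩⟩
  unfold reach
  rw [sum_comm]
  refine le_trans (sum_le_sum fun w _ => ?_) (le_trans (le_of_eq (sum_mul _ _ _).symm)
    (mul_le_mul_of_nonneg_right hc (Nat.cast_nonneg _)))
  rw [← sum_filter, sum_const, nsmul_eq_mul, mul_comm]
  refine mul_le_mul_of_nonneg_left (Nat.cast_le.2 ?_) (abs_nonneg _)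
  convert h w using 3

theorem abs_sum_le_two {N : ℕ} {δ : ℝ} (hδ : δ ≤ 1) {P c : Word N → ℝ}
    (hP : ∑ v, P v ≤ 1) (h : Near δ P c) : ∑ w, |c w| ≤ 2 := by
  obtain ⟨π, hπ, hrow, hcol, -⟩ := h
  calc ∑ w, |c w| ≤ ∑ w, ((∑ v, π v w) + |(∑ v, π v w) - c w|) := sum_le_sum fun w _ => by
        have h0 : 0 ≤ ∑ v, π v w := sum_nonneg fun v _ => hπ v w
        calc |c w| = |(∑ v, π v w) - ((∑ v, π v w) - c w)| := by ring_nf
          _ ≤ |∑ v, π v w| + |(∑ v, π v w) - c w| := abs_sub _ _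
          _ = _ := by rw [abs_of_nonneg h0]
    _ ≤ 1 + 1 := by
        rw [sum_add_distrib]
        refine add_le_add ?_ (hcol.trans hδ)
        rw [sum_comm, sum_congr rfl fun v _ => hrow v]
        exact hP
    _ = 2 := by norm_num

theorem decomp_sum (Q : Code) (law : Word (2 * Q.n) → ℝ) (h : Decomp Q law) :
    ∑ v, law v = 1 := by
  obtain ⟨W, -, hmid, hlaw⟩ := h
  simp only [hlaw]
  rw [sum_comm]
  calc ∑ s, ∑ v, ∑ i, ∑ j, ∑ l, (if Q.seg s i j l = v then W s i j l else 0)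
      = ∑ s, ∑ i, ∑ j, ∑ l, W s i j l := sum_congr rfl fun s _ => by
        rw [sum_comm]
        refine sum_congr rfl fun i _ => ?_
        rw [sum_comm]
        refine sum_congr rfl fun j _ => ?_
        rw [sum_comm]
        simp
    _ = 1 := by
        rw [sum_congr rfl fun s _ => sum_comm, sum_comm, sum_congr rfl fun j _ => hmid j]
        simp

theorem window_bound {k e n K Q₀ : ℕ} (he : 1 ≤ e) (hK : 4 ≤ K) (hQ : Q₀ ≤ K)
    (hQ₀ : (k + 1) * (32 * 2 ^ k * n + 1) ≤ Q₀) :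
    (k + 1) * (32 * 2 ^ k * K * n + 1) ≤ 2 ^ (e * K) := by
  have h1 : (k + 1) * (32 * 2 ^ k * K * n + 1) ≤ (k + 1) * (32 * 2 ^ k * n + 1) * K := by
    have h0 : 32 * 2 ^ k * K * n + 1 ≤ (32 * 2 ^ k * n + 1) * K := by
      rw [Nat.add_mul, one_mul, mul_right_comm (32 * 2 ^ k) n K]
      omega
    exact le_trans (Nat.mul_le_mul_left _ h0) (le_of_eq (mul_assoc _ _ _).symm)
  calc _ ≤ K * K := h1.trans (Nat.mul_le_mul_right _ (hQ₀.trans hQ))
    _ = K ^ 2 := (sq K).symm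
    _ ≤ 2 ^ K := sq_le_two_pow hK
    _ ≤ 2 ^ (e * K) := Nat.pow_le_pow_right two_pos (Nat.le_mul_of_pos_left _ he)

theorem radius_bound {k n D K : ℕ} (hn : 0 < n) (h : n * (2 ^ k + 1) ≤ D * 512 * 2 ^ k) :
    2 * (32 * 2 ^ k * K * n / 2 ^ 12) < (8 * 2 ^ k * K + 1) * D := by
  have hnD : n ≤ D * 512 := Nat.le_of_mul_le_mul_right
    (le_trans (Nat.mul_le_mul_left _ (Nat.le_succ _)) h) (Nat.two_pow_pos k)
  have h0 := Nat.div_mul_le_self (32 * 2 ^ k * K * n) (2 ^ 12)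
  have h1 : 32 * 2 ^ k * K * n = 4 * (8 * 2 ^ k * K * n) := by ring
  have h2 : 8 * 2 ^ k * K * n ≤ 8 * 2 ^ k * K * D * 512 := by
    rw [mul_assoc (8 * 2 ^ k * K) D]; exact Nat.mul_le_mul_left _ hnD
  rw [Nat.add_mul, one_mul]
  omega

theorem exponent_bounds {k e K : ℕ} (he : 128 * 2 ^ k ≤ e) (hK : 1 ≤ K) :
    2 + 2 * (e * K) + 3 * (32 * 2 ^ k * K) ≤ e * (4 * K) ∧
      6 + 2 * (e * K) + 3 * (32 * 2 ^ k * K) + e * (8 * 2 ^ k * K)
        ≤ e * (32 * 2 ^ k * K) ∧ 8 ≤ e * K := by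
  have h1 : 128 * 2 ^ k * K ≤ e * K := Nat.mul_le_mul_right _ he
  have h2 : e * K ≤ 2 ^ k * (e * K) := Nat.le_mul_of_pos_left _ (Nat.two_pow_pos k)
  have h3 : 1 ≤ 2 ^ k * K := Nat.mul_pos (Nat.two_pow_pos k) hK
  rw [mul_assoc 128] at h1
  rw [mul_assoc 32, mul_assoc 8, show e * (4 * K) = 4 * (e * K) by ring,
    show e * (8 * (2 ^ k * K)) = 8 * (2 ^ k * (e * K)) by ring,
    show e * (32 * (2 ^ k * K)) = 32 * (2 ^ k * (e * K)) by ring]
  omega

theorem sep_bound {k n D K : ℕ} (h : n * (2 ^ k + 1) ≤ D * 512 * 2 ^ k) :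
    32 * 2 ^ k * K * n * (2 ^ (k + 1) + 1)
      ≤ (32 * 2 ^ k * K - 4 * K) * D * 512 * 2 ^ (k + 1) := by
  have hk : 1 ≤ 2 ^ k := Nat.one_le_two_pow
  rw [pow_succ]
  generalize 2 ^ k = p at h hk ⊢
  obtain ⟨x, rfl⟩ := Nat.exists_eq_add_of_le hk
  have hsub : 32 * (1 + x) * K - 4 * K = (28 + 32 * x) * K := by
    rw [← Nat.sub_mul]; congr 1; omega
  have hc : 32 * (1 + x) * ((1 + x) * 2 + 1) ≤ (28 + 32 * x) * (2 * (1 + x + 1)) := by nlinarith
  rw [hsub]
  calc 32 * (1 + x) * K * n * ((1 + x) * 2 + 1)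
      = 32 * (1 + x) * ((1 + x) * 2 + 1) * (K * n) := by ring
    _ ≤ (28 + 32 * x) * (2 * (1 + x + 1)) * (K * n) := Nat.mul_le_mul_right _ hc
    _ = (28 + 32 * x) * K * 2 * (n * (1 + x + 1)) := by ring
    _ ≤ (28 + 32 * x) * K * 2 * (D * 512 * (1 + x)) := Nat.mul_le_mul_left _ h
    _ = _ := by ring

theorem card_bad_pairs (P : Code) (q a N : ℕ)
    (hcount : 4 * (N * N * (2 ^ (q * 2 ^ P.e) * (2 ^ P.e) ^ (q * 2 ^ P.e - a)))
      ≤ Fintype.card (Cand P q)) :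
    4 * (univ.filter fun f : Fin N → Cand P q =>
        ∃ i j, i ≠ j ∧ a ≤ agree (f i) (fun p => f j p.1 p.2)).card
      ≤ Fintype.card (Fin N → Cand P q) := by
  classical
  set s := 2 ^ (q * 2 ^ P.e) * (2 ^ P.e) ^ (q * 2 ^ P.e - a)
  set T := Fintype.card (Cand P q)
  set Tot := Fintype.card (Fin N → Cand P q)
  set bad := univ.filter fun f : Fin N → Cand P q =>
    ∃ i j, i ≠ j ∧ a ≤ agree (f i) (fun p => f j p.1 p.2)
  let pair : Fin N × Fin N → Finset (Fin N → Cand P q) := fun p =>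
    univ.filter fun f => a ≤ agree (f p.1) (fun b => f p.2 b.1 b.2)
  have h2 : bad.card ≤ ∑ p ∈ univ.filter (fun p : Fin N × Fin N => p.1 ≠ p.2), (pair p).card := by
    refine le_trans (card_le_card fun f hf => ?_) card_biUnion_le
    obtain ⟨i, j, hij, hc⟩ := (mem_filter.1 hf).2
    exact mem_biUnion.2 ⟨(i, j), mem_filter.2 ⟨mem_univ _, hij⟩,
      mem_filter.2 ⟨mem_univ _, hc⟩⟩
  have h1 : bad.card * T ≤ N * N * (s * Tot) := by
    refine le_trans (Nat.mul_le_mul_right T h2) ?_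
    rw [sum_mul]
    refine le_trans (sum_le_card_nsmul _ _ (s * Tot) fun p hp =>
      card_pair_le (fun x y : Cand P q => a ≤ agree x (fun b => y b.1 b.2)) (mem_filter.1 hp).2
        fun y => card_agree_le P q a _) ?_
    rw [smul_eq_mul]
    refine Nat.mul_le_mul_right _ ((card_le_univ _).trans ?_)
    simp
  refine Nat.le_of_mul_le_mul_right ?_ (Fintype.card_pos : 0 < T)
  calc 4 * bad.card * T = 4 * (bad.card * T) := mul_assoc _ _ _
    _ ≤ 4 * (N * N * (s * Tot)) := Nat.mul_le_mul_left _ h1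
    _ = 4 * (N * N * s) * Tot := by ring
    _ ≤ T * Tot := Nat.mul_le_mul_right _ hcount
    _ = Tot * T := mul_comm _ _

theorem catalogue_tail {x : ℕ} {e' : ℕ} (he : 8 ≤ e')
    (hx : (x : ℝ) ≤ (2 : ℝ) ^ ((2 : ℝ) ^ ((e' : ℝ) / 2))) :
    (x : ℝ) * Real.exp (-(3 * ((2 ^ e' : ℕ) : ℝ) / 16)) ≤ 1 / 4 := by
  set y := (2 : ℝ) ^ ((e' : ℝ) / 2) with hy
  have hyy : y * y = ((2 ^ e' : ℕ) : ℝ) := by
    rw [hy, ← Real.rpow_add two_pos, Nat.cast_pow, Nat.cast_ofNat, add_halves,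
      Real.rpow_natCast]
  have hy16 : 16 ≤ y := by
    have h8 : (8 : ℝ) ≤ e' := by exact_mod_cast he
    calc (16 : ℝ) = (2 : ℝ) ^ ((4 : ℕ) : ℝ) := by rw [Real.rpow_natCast]; norm_num
      _ ≤ y := Real.rpow_le_rpow_of_exponent_le one_le_two (by push_cast; linarith)
  calc (x : ℝ) * Real.exp (-(3 * ((2 ^ e' : ℕ) : ℝ) / 16))
      ≤ Real.exp (Real.log 2 * y) * Real.exp (-(3 * ((2 ^ e' : ℕ) : ℝ) / 16)) := by
        rw [← Real.rpow_def_of_pos two_pos]; gcongr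
    _ = Real.exp (Real.log 2 * y - 3 * ((2 ^ e' : ℕ) : ℝ) / 16) := by
        rw [← Real.exp_add]; ring_nf
    _ ≤ Real.exp (-2) := by
        refine Real.exp_le_exp.2 ?_
        rw [← hyy]
        have := Real.log_two_lt_d9
        nlinarith
    _ ≤ 1 / 4 := by
        rw [Real.exp_neg, one_div]
        refine inv_anti₀ (by norm_num) ?_
        have := Real.add_one_le_exp (1 : ℝ)
        rw [show (2 : ℝ) = 1 + 1 by norm_num, Real.exp_add]
        nlinarith

theorem exists_sample (P : Code) (q a b R N e' : ℕ) (hN : N = q * 2 ^ P.e * P.n)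
    (hR : 2 * R < (b + 1) * P.D) (hn : N + 1 ≤ 2 ^ e') (ha : a ≤ q * 2 ^ P.e) (he' : 8 ≤ e')
    (h1 : 2 + 2 * e' + 3 * (q * 2 ^ P.e) ≤ P.e * a)
    (h2 : 6 + 2 * e' + 3 * (q * 2 ^ P.e) + P.e * b ≤ P.e * (q * 2 ^ P.e))
    (Cat : Finset (Word (2 * N) → ℝ)) (hCat : ∀ c ∈ Cat, ∑ w, |c w| ≤ 2)
    (hcard : (Cat.card : ℝ) ≤ (2 : ℝ) ^ ((2 : ℝ) ^ ((e' : ℝ) / 2))) :
    ∃ f : Fin (2 ^ e') → Cand P q,
      (∀ i j, i ≠ j → agree (f i) (fun p => f j p.1 p.2) < a) ∧
      ∀ c ∈ Cat, ∑ i, min ((2 : ℝ) ^ e')⁻¹ (reach N R c (cword P (f i))) ≤ 1 / 4 := by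
  classical
  set m := q * 2 ^ P.e with hm
  have hge : 2 ^ (P.e * m) ≤ 2 ^ (2 * m) * Fintype.card (Cand P q) := by
    have h := card_cand_ge P q
    rw [← hm, show (4 : ℕ) = 2 ^ 2 by norm_num, ← pow_mul] at h
    exact h
  have hpairs := card_bad_pairs P q a (2 ^ e') (by
    refine Nat.le_of_mul_le_mul_left (le_trans ?_ hge) (Nat.two_pow_pos (2 * m))
    rw [← hm, ← pow_mul 2 P.e, ← pow_add, ← pow_add, ← pow_add, show (4 : ℕ) = 2 ^ 2 by norm_num,
      ← pow_add, ← pow_add]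
    refine Nat.pow_le_pow_right two_pos ?_
    have : P.e * (m - a) + P.e * a = P.e * m := by rw [← Nat.mul_add, Nat.sub_add_cancel ha]
    omega)
  set badP := univ.filter fun f : Fin (2 ^ e') → Cand P q =>
    ∃ i j, i ≠ j ∧ a ≤ agree (f i) (fun p => f j p.1 p.2) with hbadP
  let Y : (Word (2 * N) → ℝ) → Cand P q → ℝ := fun c x =>
    min 1 (((2 ^ e' : ℕ) : ℝ) * reach N R c (cword P x))
  let badC : (Word (2 * N) → ℝ) → Finset (Fin (2 ^ e') → Cand P q) := fun c =>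
    univ.filter fun f => ((2 ^ e' : ℕ) : ℝ) / 4 < ∑ i, Y c (f i)
  set Tot := Fintype.card (Fin (2 ^ e') → Cand P q) with hTot
  have hmean : ∀ c ∈ Cat, ∑ x, Y c x ≤ (Fintype.card (Cand P q) : ℝ) / 32 := by
    intro c hc
    calc ∑ x, Y c x ≤ ((2 ^ e' : ℕ) : ℝ) * ∑ x : Cand P q, reach N R c (cword P x) := by
          rw [mul_sum]; exact sum_le_sum fun x _ => min_le_right _ _
      _ ≤ ((2 ^ e' : ℕ) : ℝ) * (2 * (((N + 1) * (2 ^ m * (2 ^ P.e) ^ b) : ℕ) : ℝ)) :=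
          mul_le_mul_of_nonneg_left (sum_reach_le P q b R N hN hR c (hCat c hc))
            (Nat.cast_nonneg _)
      _ ≤ _ := by
          rw [le_div_iff₀ (by norm_num)]
          have h : 2 ^ e' * (2 * ((N + 1) * (2 ^ m * (2 ^ P.e) ^ b))) * 32
              ≤ Fintype.card (Cand P q) := by
            refine Nat.le_of_mul_le_mul_left (le_trans ?_ hge) (Nat.two_pow_pos (2 * m))
            calc 2 ^ (2 * m) * (2 ^ e' * (2 * ((N + 1) * (2 ^ m * (2 ^ P.e) ^ b))) * 32)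
                ≤ 2 ^ (2 * m) * (2 ^ e' * (2 * (2 ^ e' * (2 ^ m * (2 ^ P.e) ^ b))) * 32) := by
                  gcongr
              _ = 2 ^ (6 + 2 * e' + 3 * m + P.e * b) := by ring
              _ ≤ _ := Nat.pow_le_pow_right two_pos h2
          exact_mod_cast h
  have htail : ∀ c ∈ Cat, ((badC c).card : ℝ)
      ≤ (Tot : ℝ) * Real.exp (-(3 * ((2 ^ e' : ℕ) : ℝ) / 16)) := fun c hc =>
    card_tail_le _ (Y c) (fun x => le_min zero_le_one
      (mul_nonneg (Nat.cast_nonneg _) (reach_nonneg _ _ _ _))) (fun x => min_le_left _ _)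
      (hmean c hc)
  have hsum : ∑ c ∈ Cat, ((badC c).card : ℝ) ≤ (Tot : ℝ) / 4 := by
    refine le_trans (sum_le_card_nsmul _ _ _ htail) ?_
    rw [nsmul_eq_mul, mul_left_comm, div_eq_mul_one_div (Tot : ℝ)]
    exact mul_le_mul_of_nonneg_left (catalogue_tail he' hcard) (Nat.cast_nonneg _)
  obtain ⟨f, hf⟩ : ∃ f, f ∉ badP ∪ Cat.biUnion badC := by
    by_contra h
    push Not at h
    have h3 : Tot ≤ badP.card + ∑ c ∈ Cat, (badC c).card := by
      refine le_trans (le_of_eq ?_)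
        ((card_union_le _ _).trans (Nat.add_le_add_left card_biUnion_le _))
      rw [eq_univ_of_forall h]; simp [hTot]
    have h4 : (Tot : ℝ) ≤ (badP.card : ℝ) + ∑ c ∈ Cat, ((badC c).card : ℝ) := by
      exact_mod_cast h3
    have h5 : 4 * (badP.card : ℝ) ≤ Tot := by exact_mod_cast hpairs
    have h6 : (0 : ℝ) < Tot := Nat.cast_pos.2 Fintype.card_pos
    linarith
  rw [mem_union, not_or] at hf
  refine ⟨f, fun i j hij => not_le.1 fun h => hf.1 (mem_filter.2 ⟨mem_univ _, i, j, hij, h⟩),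
    fun c hc => ?_⟩
  have hY : ∑ i, Y c (f i) ≤ ((2 ^ e' : ℕ) : ℝ) / 4 :=
    not_lt.1 fun h => hf.2 (mem_biUnion.2 ⟨c, hc, mem_filter.2 ⟨mem_univ _, h⟩⟩)
  have hpos : (0 : ℝ) < ((2 ^ e' : ℕ) : ℝ) := Nat.cast_pos.2 (Nat.two_pow_pos _)
  rw [show ((2 : ℝ) ^ e') = ((2 ^ e' : ℕ) : ℝ) by norm_num]
  refine le_of_mul_le_mul_left ?_ hpos
  rw [mul_sum]
  refine le_trans (sum_le_sum fun i _ => le_of_eq ?_) (hY.trans (le_of_eq (by ring)))
  rw [mul_min_of_nonneg _ _ hpos.le, mul_inv_cancel₀ hpos.ne']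

theorem step (C : ∀ n, Finset (Word n → ℝ)) (hC : Small C) {k : ℕ} {P : Code} (hP : Good k P) :
    ∃ Q : Code, Good (k + 1) Q ∧ Composite P Q ∧ P.n < Q.n ∧
      ∀ law : Word (2 * Q.n) → ℝ, Decomp Q law →
        ∀ c ∈ C (2 * Q.n), ¬ Near (1 / 2 ^ 17 : ℝ) law c := by
  classical
  have he : 128 * 2 ^ k ≤ P.e := le_trans (le_of_eq (by ring)) hP.e_large
  have hk1 : 1 ≤ 2 ^ k := Nat.one_le_two_pow
  have hnpos := P.n_pos
  have hepos : 1 ≤ P.e := by omega
  obtain ⟨N₀, hN₀⟩ := eventually_atTop.1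
    (hC ((P.e : ℝ) / (2 ^ k * 128 * P.n)) (div_pos (Nat.cast_pos.2 hepos) (by positivity)))
  obtain ⟨Q₀, hQ₀, hQN, hQ4⟩ : ∃ Q₀, (k + 1) * (32 * 2 ^ k * P.n + 1) ≤ Q₀ ∧ N₀ ≤ Q₀ ∧ 4 ≤ Q₀ :=
    ⟨(k + 1) * (32 * 2 ^ k * P.n + 1) + N₀ + 4, by omega, by omega, by omega⟩
  have hQK : Q₀ ≤ Q₀ * 2 ^ P.e := Nat.le_mul_of_pos_right _ (Nat.two_pow_pos _)
  obtain ⟨K, hK⟩ : ∃ K, K = Q₀ * 2 ^ P.e := ⟨_, rfl⟩
  obtain ⟨q, hq⟩ : ∃ q, q = 32 * 2 ^ k * Q₀ := ⟨_, rfl⟩
  have hm : q * 2 ^ P.e = 32 * 2 ^ k * K := by rw [hq, hK]; ring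
  rw [← hK] at hQK
  obtain ⟨n', hn'⟩ : ∃ n', n' = q * 2 ^ P.e * P.n := ⟨_, rfl⟩
  have hn'K : n' = 32 * 2 ^ k * K * P.n := by rw [hn', hm]
  obtain ⟨hexp1, hexp2, he8⟩ := exponent_bounds he (by omega : 1 ≤ K)
  have hwin := window_bound (k := k) (n := P.n) hepos (by omega : 4 ≤ K) hQK hQ₀
  rw [← hn'K] at hwin
  have hn1 : n' + 1 ≤ 2 ^ (P.e * K) :=
    le_trans (Nat.le_mul_of_pos_left _ k.succ_pos) hwin
  have hKn : K ≤ n' := by
    rw [hn'K]
    calc K = 1 * K * 1 := by ring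
      _ ≤ 32 * 2 ^ k * K * P.n := Nat.mul_le_mul (Nat.mul_le_mul_right _ (by omega)) hnpos
  have hcard : (((C (2 * n')).filter fun c => ∑ w, |c w| ≤ 2).card : ℝ)
      ≤ (2 : ℝ) ^ ((2 : ℝ) ^ (((P.e * K : ℕ) : ℝ) / 2)) := by
    refine le_trans (Nat.cast_le.2 (card_filter_le _ _))
      (le_trans (hN₀ _ (by omega)) (le_of_eq ?_))
    congr 2
    have : (0 : ℝ) < P.n := Nat.cast_pos.2 hnpos
    rw [hn'K]
    push_cast
    field_simp
    ring
  obtain ⟨f, hsep, hZ⟩ := exists_sample P q (4 * K) (8 * 2 ^ k * K) (n' / 2 ^ 12) n' (P.e * K)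
    hn' (hn'K ▸ radius_bound hnpos hP.D_large) hn1
    (by rw [hm]; exact Nat.mul_le_mul_right _ (by omega)) he8 (hm ▸ hexp1) (hm ▸ hexp2) _
    (fun c hc => (mem_filter.1 hc).2) hcard
  have hn'pos : 0 < n' := by omega
  refine ⟨⟨n', P.e * K, (q * 2 ^ P.e - 4 * K) * P.D, fun i => cword P (f i), hn'pos,
      fun i j hij => hn' ▸ sep_cword P _ _ (hsep i j hij)⟩, ⟨?_, ?_, ?_, ?_⟩,
    ⟨q, hn', fun i => f i, fun i r j t ht => cword_apply P (f i) r j t ht⟩, ?_,
    fun law hlaw c hc hnear => ?_⟩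
  · show 2 ^ (k + 1 + 7) ≤ P.e * K
    rw [show 2 ^ (k + 1 + 7) = 128 * 2 ^ k * 2 by ring]
    exact Nat.mul_le_mul he (by omega)
  · show n' * (2 ^ (k + 1) + 1) ≤ (q * 2 ^ P.e - 4 * K) * P.D * 512 * 2 ^ (k + 1)
    rw [hn'K, hm]
    exact sep_bound hP.D_large
  · show P.e * K * 32 ^ (k + 1) ≤ n'
    rw [hn'K]
    calc P.e * K * 32 ^ (k + 1) = 32 * K * (P.e * 32 ^ k) := by ring
      _ ≤ 32 * K * P.n := Nat.mul_le_mul_left _ hP.e_small
      _ ≤ 32 * 2 ^ k * K * P.n :=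
        Nat.mul_le_mul_right _ (Nat.mul_le_mul_right _ (by omega))
  · show (k + 1) * n' ≤ 2 ^ (P.e * K)
    exact le_trans (Nat.mul_le_mul_left _ n'.le_succ) hwin
  · show P.n < n'
    rw [hn'K]
    calc P.n = 1 * P.n := (one_mul _).symm
      _ < 32 * 2 ^ k * K * P.n :=
        Nat.mul_lt_mul_of_pos_right (lt_of_lt_of_le (by omega : 1 < 32 * 2 ^ k)
          (Nat.le_mul_of_pos_right _ (by omega))) hnpos
  · have hsum := abs_sum_le_two (by norm_num) (decomp_sum _ law hlaw).le hnear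
    exact not_near _ (n' / 2 ^ 12) (Nat.lt_mul_div_succ n' (by norm_num)) c
      (hZ c (mem_filter.2 ⟨hc, hsum⟩)) law hlaw hnear

/-! ## The chain -/

/-- All words of length `256`. -/
def base : Code where
  n := 256
  e := 256
  D := 1
  word i t := (i : ℕ).testBit t
  n_pos := by norm_num
  sep i j hij := by
    refine card_pos.2 ?_
    by_contra h
    rw [not_nonempty_iff_eq_empty, filter_eq_empty_iff] at h
    refine hij (Fin.ext (Nat.eq_of_testBit_eq fun t => ?_))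
    by_cases ht : t < 256
    · exact not_not.1 (h (mem_range.2 ht))
    · rw [Nat.testBit_lt_two_pow (lt_of_lt_of_le i.isLt (Nat.pow_le_pow_right two_pos (by omega))),
        Nat.testBit_lt_two_pow (lt_of_lt_of_le j.isLt (Nat.pow_le_pow_right two_pos (by omega)))]

theorem chain : ChainSpec := by
  intro C hC
  have hbase : Good 0 base := ⟨by norm_num [base], by norm_num [base], by norm_num [base],
    by norm_num⟩
  let F : ∀ k : ℕ, {P : Code // Good k P} := fun k =>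
    Nat.rec (motive := fun k => {P : Code // Good k P}) ⟨base, hbase⟩
      (fun _ P => ⟨(step C hC P.2).choose, (step C hC P.2).choose_spec.1⟩) k
  let P : ℕ → Code := fun k => (F k).1
  have hs : ∀ k, Composite (P k) (P (k + 1)) ∧ (P k).n < (P (k + 1)).n ∧
      ∀ law : Word (2 * (P (k + 1)).n) → ℝ, Decomp (P (k + 1)) law →
        ∀ c ∈ C (2 * (P (k + 1)).n), ¬ Near (1 / 2 ^ 17 : ℝ) law c :=
    fun k => (step C hC (F k).2).choose_spec.2
  refine ⟨1 / 2 ^ 17, by norm_num, P, fun k => (hs k).1,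
    strictMono_nat_of_lt_succ fun k => (hs k).2.1, fun k => ?_, ?_, ?_, fun k hk => ?_⟩
  · have h := (F k).2.D_large
    have := (P k).n_pos
    by_contra h0
    rw [not_lt, Nat.le_zero] at h0
    simp only [P] at h0 this
    rw [h0] at h
    simp at h
    omega
  · refine squeeze_zero' (Eventually.of_forall fun k => by positivity) ?_
      (tendsto_const_div_atTop_nhds_zero_nat 1)
    filter_upwards [eventually_ge_atTop 1] with k hk
    have h : ((k : ℝ) * (P k).n) ≤ (2 : ℝ) ^ (P k).e := by exact_mod_cast (F k).2.n_small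
    rw [div_le_div_iff₀ (by positivity) (by exact_mod_cast hk)]
    linarith
  · refine squeeze_zero' (Eventually.of_forall fun k => by positivity) ?_
      (tendsto_pow_atTop_nhds_zero_of_lt_one (by norm_num : (0 : ℝ) ≤ 1 / 32) (by norm_num))
    refine Eventually.of_forall fun k => ?_
    have h : ((P k).e : ℝ) * 32 ^ k ≤ (P k).n := by exact_mod_cast (F k).2.e_small
    have hn : (0 : ℝ) < (P k).n := Nat.cast_pos.2 (P k).n_pos
    rw [div_le_iff₀ hn, div_pow, one_pow, div_mul_eq_mul_div, one_mul, le_div_iff₀ (by positivity)]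
    exact h
  · obtain ⟨k, rfl⟩ := Nat.exists_eq_add_of_le' hk
    exact (hs k).2.2

end Vale.Agent.P109
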