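import Vale.Agent.P109.Spec

/-!
P109: analytic maps of compact manifolds have polynomial descriptions on finitely many balls.
-/

namespace Vale.Agent.P109

open MeasureTheory Filter Topology Finset
open scoped ContDiff NNReal ENNReal

universe u v

/-- Abbreviation for the Euclidean space of dimension `d`. -/
abbrev Euc (d : ℕ) := EuclideanSpace ℝ (Fin d)

/-! ### Elementary estimates -/

lemma abs_prod_le_one {n : ℕ} (x : Fin n → ℝ) (hx : ∀ k, |x k| ≤ 1) : |∏ k, x k| ≤ 1 := by
  rw [Finset.abs_prod]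
  exact Finset.prod_le_one (fun k _ => abs_nonneg _) (fun k _ => hx k)

lemma abs_prod_sub_prod_le {δ : ℝ} :
    ∀ {n : ℕ} (x y : Fin n → ℝ), (∀ k, |x k| ≤ 1) → (∀ k, |y k| ≤ 1) →
      (∀ k, |x k - y k| ≤ δ) → |∏ k, x k - ∏ k, y k| ≤ n * δ := by
  intro n
  induction n with
  | zero => intro x y _ _ _; simp
  | succ n ih =>
    intro x y hx hy hd
    rw [Fin.prod_univ_succ, Fin.prod_univ_succ]
    have h0 := hd 0
    have ht := ih (fun k => x k.succ) (fun k => y k.succ) (fun k => hx _) (fun k => hy _)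
      (fun k => hd _)
    have hp := abs_prod_le_one (fun k => x k.succ) (fun k => hx _)
    have hy0 := hy 0
    set A := ∏ k : Fin n, x k.succ
    set B := ∏ k : Fin n, y k.succ
    have e : x 0 * A - y 0 * B = (x 0 - y 0) * A + y 0 * (A - B) := by ring
    rw [e]
    calc |(x 0 - y 0) * A + y 0 * (A - B)|
        ≤ |x 0 - y 0| * |A| + |y 0| * |A - B| := by
          refine (abs_add_le _ _).trans ?_
          rw [abs_mul, abs_mul]
      _ ≤ δ * 1 + 1 * (n * δ) :=
          add_le_add (mul_le_mul h0 hp (abs_nonneg _) ((abs_nonneg _).trans h0))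
            (mul_le_mul hy0 ht (abs_nonneg _) zero_le_one)
      _ = ((n + 1 : ℕ) : ℝ) * δ := by push_cast; ring

lemma sum_quarter_pow_le (r : ℕ) : ∑ n : Fin r, (1 / 4 : ℝ) ^ (n : ℕ) ≤ 2 := by
  rw [Fin.sum_univ_eq_sum_range fun n => (1 / 4 : ℝ) ^ n]
  calc ∑ n ∈ range r, (1 / 4 : ℝ) ^ n ≤ ∑ n ∈ range r, (1 / 2 : ℝ) ^ n :=
        Finset.sum_le_sum fun n _ => pow_le_pow_left₀ (by norm_num) (by norm_num) n
    _ ≤ 2 := sum_geometric_two_le r

lemma sum_mul_quarter_pow_le (r : ℕ) : ∑ n : Fin r, (n : ℕ) * (1 / 4 : ℝ) ^ (n : ℕ) ≤ 2 := by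
  rw [Fin.sum_univ_eq_sum_range fun n => (n : ℝ) * (1 / 4 : ℝ) ^ n]
  calc ∑ n ∈ range r, (n : ℝ) * (1 / 4 : ℝ) ^ n ≤ ∑ n ∈ range r, (1 / 2 : ℝ) ^ n := by
        refine Finset.sum_le_sum fun n _ => ?_
        have h1 : (n : ℝ) ≤ 2 ^ n := by exact_mod_cast Nat.lt_two_pow_self.le
        calc (n : ℝ) * (1 / 4 : ℝ) ^ n ≤ 2 ^ n * (1 / 4 : ℝ) ^ n := by gcongr
          _ = (1 / 2 : ℝ) ^ n := by rw [← mul_pow]; norm_num
    _ ≤ 2 := sum_geometric_two_le r

lemma norm_ofLp_le {d : ℕ} (x : Euc d) : ‖WithLp.ofLp x‖ ≤ ‖x‖ :=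
  (pi_norm_le_iff_of_nonneg (norm_nonneg x)).mpr fun i => PiLp.norm_apply_le x i

lemma toLp_eq_sum {d : ℕ} (v : Fin d → ℝ) :
    (WithLp.toLp 2 v : Euc d) = ∑ i, v i • EuclideanSpace.single i (1 : ℝ) := by
  ext j
  simp [Pi.single_apply]

lemma norm_toLp_le {d : ℕ} (v : Fin d → ℝ) : ‖(WithLp.toLp 2 v : Euc d)‖ ≤ d * ‖v‖ := by
  rw [toLp_eq_sum]
  refine (norm_sum_le _ _).trans ?_
  refine (Finset.sum_le_sum (g := fun _ => ‖v‖) fun i _ => ?_).trans (le_of_eq (by simp))
  rw [norm_smul, PiLp.norm_single]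
  simpa using norm_le_pi_norm v i

/-! ### Truncated power series as polynomials in the coordinates -/

/-- The multi-index of a tuple of coordinates. -/
def multiIndex {d r : ℕ} (n : Fin r) (f : Fin (n : ℕ) → Fin d) (i : Fin d) : Fin r :=
  ⟨#({k | f k = i} : Finset (Fin (n : ℕ))),
    lt_of_le_of_lt ((card_le_univ _).trans_eq (Fintype.card_fin _)) n.isLt⟩

lemma prod_comp_eq_pow {d r : ℕ} (n : Fin r) (f : Fin (n : ℕ) → Fin d) (v : Fin d → ℝ) :
    ∏ k, v (f k) = ∏ i, v i ^ (multiIndex n f i : ℕ) := by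
  rw [← Finset.prod_fiberwise univ f fun k => v (f k)]
  refine Finset.prod_congr rfl fun i _ => ?_
  rw [Finset.prod_congr rfl (fun k hk => by rw [(Finset.mem_filter.mp hk).2]), Finset.prod_const]
  rfl

variable {d r : ℕ}

/-- The coefficient of a multilinear term at a tuple of basis vectors. -/
noncomputable def termCoef (q : FormalMultilinearSeries ℝ (Euc d) (Euc d)) (s : ℝ) (n : ℕ)
    (f : Fin n → Fin d) : Fin d → ℝ :=
  s ^ n • WithLp.ofLp (q n fun k => EuclideanSpace.single (f k) (1 : ℝ))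

/-- The coefficients of the truncation of a power series in scaled coordinates. -/
noncomputable def boxCoef (q : FormalMultilinearSeries ℝ (Euc d) (Euc d)) (s : ℝ)
    (α : Fin d → Fin r) : Fin d → ℝ :=
  ∑ n : Fin r, ∑ f ∈ univ.filter (fun f => multiIndex n f = α), termCoef q s n f

lemma peval_boxCoef (q : FormalMultilinearSeries ℝ (Euc d) (Euc d)) (s : ℝ) (v : Fin d → ℝ) :
    peval (boxCoef (r := r) q s) v =
      ∑ n : Fin r, ∑ f, (∏ k, v (f k)) • termCoef q s n f := by
  unfold peval boxCoef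
  simp only [Finset.smul_sum]
  rw [Finset.sum_comm]
  refine Finset.sum_congr rfl fun n _ => ?_
  rw [← Finset.sum_fiberwise univ (multiIndex n)
    fun f : Fin (n : ℕ) → Fin d => (∏ k, v (f k)) • termCoef q s n f]
  refine Finset.sum_congr rfl fun α _ => Finset.sum_congr rfl fun f hf => ?_
  rw [prod_comp_eq_pow n f v, (Finset.mem_filter.mp hf).2]

lemma sum_termCoef (q : FormalMultilinearSeries ℝ (Euc d) (Euc d)) (s : ℝ) (v : Fin d → ℝ)
    (n : ℕ) :
    ∑ f, (∏ k, v (f k)) • termCoef q s n f =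
      WithLp.ofLp (q n fun _ => s • (WithLp.toLp 2 v : Euc d)) := by
  have h : (q n fun _ : Fin n => s • (WithLp.toLp 2 v : Euc d)) =
      ∑ f : Fin n → Fin d,
        (∏ k, v (f k)) • s ^ n • q n fun k => EuclideanSpace.single (f k) (1 : ℝ) := by
    rw [toLp_eq_sum, Finset.smul_sum, ContinuousMultilinearMap.map_sum]
    refine Finset.sum_congr rfl fun f _ => ?_
    simp only [smul_smul]
    rw [ContinuousMultilinearMap.map_smul_univ, Finset.prod_mul_distrib, Finset.prod_const,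
      Finset.card_univ, Fintype.card_fin, mul_comm]
  rw [h, WithLp.ofLp_sum]
  refine Finset.sum_congr rfl fun f _ => ?_
  rw [WithLp.ofLp_smul, WithLp.ofLp_smul]
  rfl

lemma peval_boxCoef_eq (q : FormalMultilinearSeries ℝ (Euc d) (Euc d)) (s : ℝ) (v : Fin d → ℝ) :
    peval (boxCoef (r := r) q s) v =
      WithLp.ofLp (q.partialSum r (s • (WithLp.toLp 2 v : Euc d))) := by
  rw [peval_boxCoef, FormalMultilinearSeries.partialSum, WithLp.ofLp_sum,
    Finset.sum_congr rfl fun (n : Fin r) _ => sum_termCoef q s v n]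
  exact Fin.sum_univ_eq_sum_range (fun n => WithLp.ofLp
    (q n fun _ => s • (WithLp.toLp 2 v : Euc d))) r

lemma norm_termCoef_le (q : FormalMultilinearSeries ℝ (Euc d) (Euc d)) {s : ℝ} (hs : 0 ≤ s)
    (n : ℕ) (f : Fin n → Fin d) : ‖termCoef q s n f‖ ≤ s ^ n * ‖q n‖ := by
  rw [termCoef, norm_smul, norm_pow, Real.norm_of_nonneg hs]
  refine mul_le_mul_of_nonneg_left ((norm_ofLp_le _).trans ?_) (pow_nonneg hs n)
  refine ((q n).le_opNorm _).trans (le_of_eq ?_)
  simp

lemma sum_norm_termCoef_le (q : FormalMultilinearSeries ℝ (Euc d) (Euc d)) {s : ℝ} (hs : 0 ≤ s)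
    {B : ℝ} (hB : ∀ n, (d * s) ^ n * ‖q n‖ ≤ B * (1 / 4) ^ n) (n : ℕ) :
    ∑ f, ‖termCoef q s n f‖ ≤ B * (1 / 4) ^ n := by
  refine (Finset.sum_le_sum fun f _ => norm_termCoef_le q hs n f).trans (le_trans ?_ (hB n))
  simp [mul_pow, mul_assoc]

lemma boxCoef_bound (q : FormalMultilinearSeries ℝ (Euc d) (Euc d)) {s : ℝ} (hs : 0 ≤ s)
    {B : ℝ} (hB : ∀ n, (d * s) ^ n * ‖q n‖ ≤ B * (1 / 4) ^ n) (α : Fin d → Fin r) :
    ‖boxCoef q s α‖ ≤ 2 * B := by
  have hB0 : 0 ≤ B := by simpa using (norm_nonneg (q 0)).trans (by simpa using hB 0)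
  calc ‖boxCoef q s α‖
      ≤ ∑ n : Fin r, ∑ f ∈ univ.filter (fun f => multiIndex n f = α), ‖termCoef q s n f‖ :=
        (norm_sum_le _ _).trans (Finset.sum_le_sum fun n _ => norm_sum_le _ _)
    _ ≤ ∑ n : Fin r, ∑ f, ‖termCoef q s n f‖ :=
        Finset.sum_le_sum fun n _ =>
          Finset.sum_le_univ_sum_of_nonneg fun f => norm_nonneg _
    _ ≤ ∑ n : Fin r, B * (1 / 4) ^ (n : ℕ) :=
        Finset.sum_le_sum fun n _ => sum_norm_termCoef_le q hs hB n
    _ ≤ 2 * B := by
        rw [← Finset.mul_sum, mul_comm 2 B]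
        exact mul_le_mul_of_nonneg_left (sum_quarter_pow_le r) hB0

lemma peval_boxCoef_lipschitz (q : FormalMultilinearSeries ℝ (Euc d) (Euc d)) {s : ℝ}
    (hs : 0 ≤ s) {B : ℝ} (hB : ∀ n, (d * s) ^ n * ‖q n‖ ≤ B * (1 / 4) ^ n)
    (v w : Fin d → ℝ) (hv : ‖v‖ ≤ 1) (hw : ‖w‖ ≤ 1) :
    ‖peval (boxCoef (r := r) q s) v - peval (boxCoef (r := r) q s) w‖ ≤ 2 * B * ‖v - w‖ := by
  have hB0 : 0 ≤ B := by simpa using (norm_nonneg (q 0)).trans (by simpa using hB 0)
  have key : ∀ n : Fin r, ‖∑ f, ((∏ k, v (f k)) - ∏ k, w (f k)) • termCoef q s n f‖ ≤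
      (B * ‖v - w‖) * ((n : ℕ) * (1 / 4) ^ (n : ℕ)) := by
    intro n
    refine (norm_sum_le _ _).trans ?_
    calc ∑ f, ‖((∏ k, v (f k)) - ∏ k, w (f k)) • termCoef q s (n : ℕ) f‖
        ≤ ∑ f, ((n : ℕ) * ‖v - w‖) * ‖termCoef q s (n : ℕ) f‖ := by
          refine Finset.sum_le_sum fun f _ => ?_
          rw [norm_smul]
          refine mul_le_mul_of_nonneg_right ?_ (norm_nonneg _)
          exact abs_prod_sub_prod_le (fun k => v (f k)) (fun k => w (f k))
            (fun k => (norm_le_pi_norm v (f k)).trans hv)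
            (fun k => (norm_le_pi_norm w (f k)).trans hw)
            (fun k => norm_le_pi_norm (v - w) (f k))
      _ ≤ ((n : ℕ) * ‖v - w‖) * (B * (1 / 4) ^ (n : ℕ)) := by
          rw [← Finset.mul_sum]
          exact mul_le_mul_of_nonneg_left (sum_norm_termCoef_le q hs hB n) (by positivity)
      _ = (B * ‖v - w‖) * ((n : ℕ) * (1 / 4) ^ (n : ℕ)) := by ring
  rw [peval_boxCoef, peval_boxCoef, ← Finset.sum_sub_distrib]
  simp only [← Finset.sum_sub_distrib, ← sub_smul]
  refine (norm_sum_le _ _).trans ((Finset.sum_le_sum fun n _ => key n).trans ?_)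
  rw [← Finset.mul_sum]
  calc B * ‖v - w‖ * ∑ n : Fin r, ((n : ℕ) : ℝ) * (1 / 4) ^ (n : ℕ)
      ≤ B * ‖v - w‖ * 2 := mul_le_mul_of_nonneg_left (sum_mul_quarter_pow_le r) (by positivity)
    _ = 2 * B * ‖v - w‖ := by ring

/-! ### Charts -/

section Charts

variable {H : Type v} [TopologicalSpace H] (I : ModelWithCorners ℝ (Euc d) H)
  {M : Type u} [TopologicalSpace M] [ChartedSpace H M]

open scoped Classical in
/-- Coordinates of the extended chart, extended by zero. -/
noncomputable def coord (p : M) : M → Fin d → ℝ :=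
  (extChartAt I p).source.piecewise (fun x => WithLp.ofLp (extChartAt I p x)) 0

open scoped Classical in
lemma coord_eq {p x : M} (hx : x ∈ (extChartAt I p).source) :
    coord I p x = WithLp.ofLp (extChartAt I p x) :=
  Set.piecewise_eq_of_mem _ _ _ hx

lemma continuousOn_coord (p : M) : ContinuousOn (coord I p) (extChartAt I p).source :=
  ((PiLp.continuous_ofLp 2 _).comp_continuousOn (continuousOn_extChartAt p)).congr
    fun _ hx => coord_eq I hx

lemma measurable_coord [MeasurableSpace M] [BorelSpace M] (p : M) : Measurable (coord I p) := by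
  classical
  unfold coord
  exact ContinuousOn.measurable_piecewise
    ((PiLp.continuous_ofLp 2 _).comp_continuousOn (continuousOn_extChartAt p))
    continuousOn_const (isOpen_extChartAt_source p).measurableSet

lemma coord_ac [MeasurableSpace M] [BorelSpace M] (ν : Measure M) (p : M) {U : Set M}
    (hU : U ⊆ (extChartAt I p).source)
    (h : (ν.restrict (extChartAt I p).source).map (extChartAt I p) ≪ volume) :
    (ν.restrict U).map (coord I p) ≪ volume := by
  have hae : AEMeasurable (extChartAt I p) (ν.restrict (extChartAt I p).source) :=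
    (continuousOn_extChartAt p).aemeasurable (isOpen_extChartAt_source p).measurableSet
  have heq : coord I p =ᵐ[ν.restrict (extChartAt I p).source]
      fun x => WithLp.ofLp (extChartAt I p x) :=
    (ae_restrict_mem (isOpen_extChartAt_source p).measurableSet).mono fun x hx => coord_eq I hx
  refine ((Measure.absolutelyContinuous_of_le (Measure.restrict_mono hU le_rfl)).map
    (measurable_coord I p)).trans ?_
  rw [Measure.map_congr heq]
  have h2 := h.map (WithLp.measurable_ofLp 2 (Fin d → ℝ))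
  rw [AEMeasurable.map_map_of_aemeasurable (WithLp.measurable_ofLp 2 _).aemeasurable hae,
    (PiLp.volume_preserving_ofLp (Fin d)).map_eq] at h2
  exact h2

lemma coord_pull [MeasurableSpace M] [BorelSpace M] (p : M) {A : Set M} (hA : MeasurableSet A) :
    ∃ B : Set (Fin d → ℝ), MeasurableSet B ∧
      ∀ x ∈ (extChartAt I p).source, coord I p x ∈ B ↔ x ∈ A := by
  classical
  set T := (extChartAt I p).target
  have hT : MeasurableSet T := by
    rw [show T = I.symm ⁻¹' (chartAt H p).target ∩ Set.range I from extChartAt_target I p]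
    exact ((chartAt H p).open_target.preimage I.continuous_symm).measurableSet.inter
      I.isClosed_range.measurableSet
  have hm : Measurable (T.piecewise (extChartAt I p).symm fun _ => p) :=
    ContinuousOn.measurable_piecewise (continuousOn_extChartAt_symm p) continuousOn_const hT
  refine ⟨WithLp.toLp 2 ⁻¹' (T ∩ T.piecewise (extChartAt I p).symm (fun _ => p) ⁻¹' A),
    (WithLp.measurable_toLp 2 _) (hT.inter (hm hA)), fun x hx => ?_⟩
  have hxT : extChartAt I p x ∈ T := (extChartAt I p).map_source hx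
  rw [coord_eq I hx, Set.mem_preimage, WithLp.toLp_ofLp, Set.mem_inter_iff, Set.mem_preimage,
    Set.piecewise_eq_of_mem _ _ _ hxT, (extChartAt I p).left_inv hx]
  exact and_iff_right hxT

/-- Near a point, an analytic map is read in charts as a power series with geometric bounds. -/
lemma local_data [IsManifold I ω M] {S : M → M} (hS : ContMDiff I I ω S) {p q x₀ : M}
    {V : Set M} (hV : IsOpen V) (hVs : V ⊆ (extChartAt I q).source)
    (hx₀ : x₀ ∈ (extChartAt I p).source) (hSx₀ : S x₀ ∈ V) :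
    ∃ s : ℝ, 0 < s ∧ ∃ K : ℝ, 0 ≤ K ∧
      (∀ x ∈ (extChartAt I p).source, ‖coord I p x - coord I p x₀‖ < 3 * s → S x ∈ V) ∧
      ∀ r : ℕ, ∃ c : (Fin d → Fin r) → (Fin d → ℝ), (∀ α, ‖c α‖ ≤ K) ∧
        (∀ v w : Fin d → ℝ, ‖v‖ ≤ 1 → ‖w‖ ≤ 1 → ‖peval c v - peval c w‖ ≤ K * ‖v - w‖) ∧
        ∀ x ∈ (extChartAt I p).source, ‖coord I p x - coord I p x₀‖ < 3 * s →
          ‖coord I q (S x) - peval c (rel (coord I p x₀) s (coord I p x))‖ ≤ K * (1 / 4) ^ r := by
  set e := extChartAt I p with he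
  set F := extChartAt I q ∘ S ∘ e.symm with hF
  set y₀ := e x₀ with hy₀
  have han : AnalyticWithinAt ℝ F (Set.range I) y₀ := by
    have h := (contMDiffAt_iff_of_mem_source (by rwa [← extChartAt_source I])
      (by rw [← extChartAt_source I]; exact hVs hSx₀)).mp (hS x₀)
    exact h.2.analyticWithinAt
  obtain ⟨ser, ρ, hser⟩ := han
  obtain ⟨r', hr'0, hr'⟩ := ENNReal.lt_iff_exists_nnreal_btwn.mp hser.r_pos
  obtain ⟨a, ha, C₂, hC₂, happ⟩ := hser.uniform_geometric_approx' hr'
  obtain ⟨C₁, hC₁, hbd⟩ := ser.norm_mul_pow_le_of_lt_radius (hr'.trans_le hser.r_le)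
  have hr'pos : (0 : ℝ) < r' := by exact_mod_cast hr'0
  have hcont : ∀ᶠ y in 𝓝[e.target] y₀, S (e.symm y) ∈ V := by
    have h1 : ContinuousWithinAt e.symm e.target y₀ :=
      continuousOn_extChartAt_symm p y₀ (e.map_source hx₀)
    have h2 : S ⁻¹' V ∈ 𝓝 (e.symm y₀) := by
      rw [e.left_inv hx₀]
      exact (hV.preimage hS.continuous).mem_nhds hSx₀
    exact h1 h2
  obtain ⟨η, hη, hball⟩ := Metric.mem_nhdsWithin_iff.mp hcont
  -- the scale
  set s : ℝ := min (r' : ℝ) η / (16 * (d + 1)) with hs_def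
  have hspos : 0 < s := div_pos (lt_min hr'pos hη) (by positivity)
  have h4d : (d : ℝ) * (4 * s) ≤ min (r' : ℝ) η / 4 := by
    have h1 : 4 * s * (d + 1) = min (r' : ℝ) η / 4 := by rw [hs_def]; field_simp; ring
    nlinarith [hspos, h1]
  -- points of the ball
  have hpt : ∀ x ∈ e.source, ‖coord I p x - coord I p x₀‖ < 3 * s →
      ‖e x - y₀‖ < r' ∧ ‖e x - y₀‖ < η ∧ ‖e x - y₀‖ / r' ≤ 1 / 4 := by
    intro x hx hlt
    have h1 : ‖e x - y₀‖ ≤ d * ‖coord I p x - coord I p x₀‖ := by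
      have h := norm_toLp_le (WithLp.ofLp (e x - y₀))
      rw [WithLp.toLp_ofLp, WithLp.ofLp_sub] at h
      rw [coord_eq I hx, coord_eq I hx₀]
      exact h
    have h2 : ‖e x - y₀‖ ≤ min (r' : ℝ) η / 4 :=
      h1.trans ((mul_le_mul_of_nonneg_left (by linarith) (Nat.cast_nonneg d)).trans h4d)
    refine ⟨?_, ?_, ?_⟩
    · linarith [min_le_left (r' : ℝ) η, lt_min hr'pos hη]
    · linarith [min_le_right (r' : ℝ) η, lt_min hr'pos hη]
    · rw [div_le_iff₀ hr'pos]
      linarith [min_le_left (r' : ℝ) η]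
  refine ⟨s, hspos, 2 * C₁ + C₂, by positivity, fun x hx hlt => ?_, fun r => ?_⟩
  · have hd : dist (e x) y₀ < η := by rw [dist_eq_norm]; exact (hpt x hx hlt).2.1
    have : S (e.symm (e x)) ∈ V := hball ⟨hd, e.map_source hx⟩
    rwa [e.left_inv hx] at this
  have hB : ∀ n, ((d : ℝ) * (4 * s)) ^ n * ‖ser n‖ ≤ C₁ * (1 / 4) ^ n := by
    intro n
    have h1 : ((d : ℝ) * (4 * s)) ^ n ≤ ((r' : ℝ) * (1 / 4)) ^ n :=
      pow_le_pow_left₀ (by positivity) (h4d.trans (by linarith [min_le_left (r' : ℝ) η])) n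
    calc ((d : ℝ) * (4 * s)) ^ n * ‖ser n‖
        ≤ ((r' : ℝ) * (1 / 4)) ^ n * ‖ser n‖ := mul_le_mul_of_nonneg_right h1 (norm_nonneg _)
      _ = (‖ser n‖ * (r' : ℝ) ^ n) * (1 / 4) ^ n := by rw [mul_pow]; ring
      _ ≤ C₁ * (1 / 4) ^ n := mul_le_mul_of_nonneg_right (hbd n) (by positivity)
  refine ⟨boxCoef ser (4 * s), fun α => ?_, fun v w hv hw => ?_, fun x hx hlt => ?_⟩
  · linarith [boxCoef_bound ser (by positivity) hB α]
  · refine (peval_boxCoef_lipschitz ser (by positivity) hB v w hv hw).trans ?_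
    exact mul_le_mul_of_nonneg_right (by linarith) (norm_nonneg _)
  obtain ⟨hlt1, hlt2, hlt3⟩ := hpt x hx hlt
  have hSV : S x ∈ V := by
    have : S (e.symm (e x)) ∈ V :=
      hball ⟨by rw [Metric.mem_ball, dist_eq_norm]; exact hlt2, e.map_source hx⟩
    rwa [e.left_inv hx] at this
  have hrel : (4 * s) • (WithLp.toLp 2 (rel (coord I p x₀) s (coord I p x)) : Euc d) =
      e x - y₀ := by
    rw [rel, WithLp.toLp_smul, smul_smul, mul_inv_cancel₀ (by positivity), one_smul,
      coord_eq I hx, coord_eq I hx₀, WithLp.toLp_sub]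
  have hmem : y₀ + (e x - y₀) ∈ insert y₀ (Set.range I) := by
    rw [add_sub_cancel]
    exact Or.inr (extChartAt_target_subset_range p (e.map_source hx))
  have herr := happ (e x - y₀) (by rw [mem_ball_zero_iff]; exact hlt1) r hmem
  rw [add_sub_cancel] at herr
  have hFx : F (e x) = extChartAt I q (S x) := by
    simp only [hF, Function.comp_apply, e.left_inv hx]
  rw [peval_boxCoef_eq, hrel, coord_eq I (hVs hSV), ← WithLp.ofLp_sub, ← hFx]
  refine (norm_ofLp_le _).trans (herr.trans ?_)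
  refine (mul_le_mul (le_add_of_nonneg_left (by positivity)) (pow_le_pow_left₀ ?_ ?_ r)
    ?_ (by positivity))
  · exact mul_nonneg ha.1.le (by positivity)
  · exact (mul_le_mul ha.2.le hlt3 (by positivity) zero_le_one).trans (le_of_eq (one_mul _))
  · exact pow_nonneg (mul_nonneg ha.1.le (by positivity)) r

/-- The polynomial system of an analytic map. -/
theorem polySystem_of_analytic [IsManifold I ω M] [CompactSpace M] [T2Space M]
    [MeasurableSpace M] [BorelSpace M] (ν : Measure M)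
    (hν : ∀ x : M, (ν.restrict (extChartAt I x).source).map (extChartAt I x) ≪ volume)
    {S : M → M} (hS : ContMDiff I I ω S) : Nonempty (PolySystem d ν S) := by
  classical
  have hnb : ∀ p : M, ∃ K ∈ 𝓝 p, IsCompact K ∧ K ⊆ (extChartAt I p).source := fun p => by
    obtain ⟨K, hK, hKs, hKc⟩ :=
      local_compact_nhds ((isOpen_extChartAt_source p).mem_nhds (mem_extChartAt_source (I := I) p))
    exact ⟨K, hK, hKc, hKs⟩
  choose K hKn hKc hKs using hnb
  obtain ⟨t, -, ht⟩ := isCompact_univ.elim_nhds_subcover (fun p : M => interior (K p))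
    fun p _ => interior_mem_nhds.mpr (hKn p)
  have hcov : ∀ x : M, ∃ i : t, x ∈ interior (K i) := fun x => by
    obtain ⟨p, hp, hx⟩ := Set.mem_iUnion₂.mp (ht (Set.mem_univ x))
    exact ⟨⟨p, hp⟩, hx⟩
  choose tg htg using hcov
  have hdata : ∀ (i : t) (x : K (i : M)),
      ∃ s : ℝ, 0 < s ∧ ∃ C : ℝ, 0 ≤ C ∧
        (∀ y ∈ (extChartAt I (i : M)).source, ‖coord I (i : M) y - coord I (i : M) x‖ < 3 * s →
          S y ∈ interior (K (tg (S x) : M))) ∧
        ∀ r : ℕ, ∃ c : (Fin d → Fin r) → (Fin d → ℝ), (∀ α, ‖c α‖ ≤ C) ∧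
          (∀ v w : Fin d → ℝ, ‖v‖ ≤ 1 → ‖w‖ ≤ 1 → ‖peval c v - peval c w‖ ≤ C * ‖v - w‖) ∧
          ∀ y ∈ (extChartAt I (i : M)).source, ‖coord I (i : M) y - coord I (i : M) x‖ < 3 * s →
            ‖coord I (tg (S x) : M) (S y) -
              peval c (rel (coord I (i : M) x) s (coord I (i : M) y))‖ ≤ C * (1 / 4) ^ r :=
    fun i x => local_data I hS isOpen_interior (interior_subset.trans (hKs _)) (hKs _ x.2)
      (htg (S x))
  choose s hs Cst hC hmap hpol using hdata
  -- finitely many balls in each chart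
  have hsub : ∀ i : t, ∃ F : Finset (K (i : M)), ∀ x : K (i : M),
      ∃ c ∈ F, ‖coord I (i : M) x - coord I (i : M) c‖ < s i c := by
    intro i
    have : CompactSpace (K (i : M)) := isCompact_iff_compactSpace.mp (hKc _)
    have hct : Continuous fun x : K (i : M) => coord I (i : M) x :=
      (continuousOn_coord I (i : M)).comp_continuous continuous_subtype_val fun x => hKs _ x.2
    obtain ⟨F, -, hF⟩ := isCompact_univ.elim_nhds_subcover
      (fun c : K (i : M) => {x : K (i : M) | ‖coord I (i : M) x - coord I (i : M) c‖ < s i c})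
      fun c _ => (isOpen_lt (by fun_prop) continuous_const).mem_nhds (by simpa using hs i c)
    refine ⟨F, fun x => ?_⟩
    obtain ⟨c, hc, hx⟩ := Set.mem_iUnion₂.mp (hF (Set.mem_univ x))
    exact ⟨c, hc, hx⟩
  choose Fs hFs using hsub
  let ι := Σ i : t, Fs i
  let N := Fintype.card t
  let eN : Fin N ≃ t := (Fintype.equivFin t).symm
  let eB : Fin (Fintype.card ι) ≃ ι := (Fintype.equivFin ι).symm
  let base : ∀ i : t, K (i : M) := fun i => ⟨i, mem_of_mem_nhds (hKn i)⟩
  let cen : ∀ i : t, Fin (Fintype.card ι) → K (i : M) := fun i b =>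
    if h : (eB b).1 = i then h ▸ ((eB b).2 : K ((eB b).1 : M)) else base i
  have hcen : ∀ (i : t) (x : K (i : M)),
      ∃ b, ‖coord I (i : M) x - coord I (i : M) (cen i b)‖ < s i (cen i b) := by
    intro i x
    obtain ⟨c, hc, hx⟩ := hFs i x
    refine ⟨eB.symm ⟨i, ⟨c, hc⟩⟩, ?_⟩
    have : cen i (eB.symm ⟨i, ⟨c, hc⟩⟩) = c := by
      have key : ∀ (g : ι), g = (⟨i, ⟨c, hc⟩⟩ : ι) → ∀ h : g.1 = i,
          (h ▸ ((g.2 : K (g.1 : M))) : K (i : M)) = c := by
        rintro g rfl h
        rfl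
      simp only [cen]
      rw [dif_pos (by rw [Equiv.apply_symm_apply])]
      exact key _ (Equiv.apply_symm_apply _ _) _
    rw [this]
    exact hx
  let Ctot : ℝ := 1 + ∑ j : Fin N × Fin (Fintype.card ι), Cst (eN j.1) (cen (eN j.1) j.2)
  have hCtot : 1 ≤ Ctot := le_add_of_nonneg_right (Finset.sum_nonneg fun j _ => hC _ _)
  have hCle : ∀ i b, Cst (eN i) (cen (eN i) b) ≤ Ctot := fun i b =>
    (Finset.single_le_sum (f := fun j : Fin N × Fin (Fintype.card ι) =>
      Cst (eN j.1) (cen (eN j.1) j.2)) (fun j _ => hC _ _) (Finset.mem_univ (i, b))).trans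
        (le_add_of_nonneg_left zero_le_one)
  have hsrc : ∀ i, interior (K (eN i : M)) ⊆ (extChartAt I (eN i : M)).source := fun i =>
    interior_subset.trans (hKs _)
  refine ⟨{
    N := N
    Nb := Fintype.card ι
    U := fun i => interior (K (eN i : M))
    z := fun i => coord I (eN i : M)
    meas_U := fun i => isOpen_interior.measurableSet
    meas_z := fun i => measurable_coord I _
    cover := fun x => ⟨eN.symm (tg x), by rw [Equiv.apply_symm_apply]; exact htg x⟩
    ac := fun i => coord_ac I ν _ (hsrc i) (hν _)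
    pull := fun i A hA => ?_
    ctr := fun i b => coord I (eN i : M) (cen (eN i) b)
    rad := fun i b => s (eN i) (cen (eN i) b)
    target := fun i b => eN.symm (tg (S (cen (eN i) b)))
    rad_pos := fun i b => hs _ _
    ball_cover := fun i x hx => hcen (eN i) ⟨x, interior_subset hx⟩
    ball_map := fun i b x hx hlt => ?_
    L := Ctot
    C := Ctot
    a := 1 / 4
    a_nonneg := by norm_num
    a_lt_one := by norm_num
    poly := fun r i b => ?_ }⟩
  · obtain ⟨B, hB, hBA⟩ := coord_pull I (eN i : M) hA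
    exact ⟨B, hB, fun x hx => hBA x (hsrc i hx)⟩
  · rw [Equiv.apply_symm_apply]
    exact hmap _ _ x (hsrc i hx) hlt
  · obtain ⟨c, hc, hlip, herr⟩ := hpol (eN i) (cen (eN i) b) r
    refine ⟨c, fun α => (hc α).trans ((hCle i b).trans ?_), fun v w hv hw => ?_,
      fun x hx hlt => ?_⟩
    · exact le_self_pow₀ hCtot (Nat.succ_ne_zero r)
    · exact (hlip v w hv hw).trans (mul_le_mul_of_nonneg_right (hCle i b) (norm_nonneg _))
    · rw [Equiv.apply_symm_apply]
      exact (herr x (hsrc i hx) hlt).trans (mul_le_mul_of_nonneg_right (hCle i b) (by positivity))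

end Charts

/-- Analytic maps of compact manifolds with boundary have polynomial descriptions. -/
theorem chart : ChartSpec.{u, v} := by
  intro d H _ I M _ _ _ _ _ _ _ ν _ hν S hS
  exact polySystem_of_analytic I ν hν hS

end Vale.Agent.P109
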