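import Vale.Agent.P109.Defs

/-!
P109: block codes, concatenation and the laws they allow.
-/

namespace Vale.Agent.P109

open Finset

/-- Number of disagreements among the first `n` places. -/
def disagree (n : ℕ) (u v : ℕ → Bool) : ℕ := ((range n).filter fun t => u t ≠ v t).card

/-- A code: `2 ^ e` words of length `n`, pairwise at distance at least `D`. -/
structure Code where
  n : ℕ
  e : ℕ
  D : ℕ
  word : Fin (2 ^ e) → ℕ → Bool
  n_pos : 0 < n
  sep : ∀ i j, i ≠ j → D ≤ disagree n (word i) (word j)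

/-- `Q` consists of concatenations of `q` rounds, each round using every word of `P` once. -/
def Composite (P Q : Code) : Prop :=
  ∃ q : ℕ, Q.n = q * 2 ^ P.e * P.n ∧
    ∃ idx : Fin (2 ^ Q.e) → Fin q → Equiv.Perm (Fin (2 ^ P.e)),
      ∀ (i : Fin (2 ^ Q.e)) (r : Fin q) (j : Fin (2 ^ P.e)) (t : ℕ), t < P.n →
        Q.word i (((r : ℕ) * 2 ^ P.e + (j : ℕ)) * P.n + t) = P.word (idx i r j) t

/-- The window of length `2 n` cut at phase `s` from three consecutive words. -/
def Code.seg (P : Code) (s : Fin P.n) (i j l : Fin (2 ^ P.e)) : Word (2 * P.n) := fun t =>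
  if (s : ℕ) + t < P.n then P.word i (s + t)
  else if (s : ℕ) + t < 2 * P.n then P.word j (s + t - P.n)
  else P.word l (s + t - 2 * P.n)

/-- A law of windows made of three consecutive words, the middle one uniformly distributed. -/
def Decomp (P : Code) (law : Word (2 * P.n) → ℝ) : Prop :=
  ∃ w : Fin P.n → Fin (2 ^ P.e) → Fin (2 ^ P.e) → Fin (2 ^ P.e) → ℝ,
    (∀ s i j l, 0 ≤ w s i j l) ∧
    (∀ j, ∑ s, ∑ i, ∑ l, w s i j l = ((2 : ℝ) ^ P.e)⁻¹) ∧
    ∀ v, law v = ∑ s, ∑ i, ∑ j, ∑ l, if P.seg s i j l = v then w s i j l else 0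

end Vale.Agent.P109
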