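import Vale.Agent.P109.Spec
import Vale.Agent.P109.Count.Law

/-!
P109: systems with polynomial descriptions have names in one small catalogue.
-/

namespace Vale.Agent.P109

open MeasureTheory Filter Topology
open scoped symmDiff

universe u

section Fibres

variable {M β γ : Type*} [MeasurableSpace M] (ν : Measure M) [IsFiniteMeasure ν]
  [Fintype β] [MeasurableSpace β] [MeasurableSingletonClass β]
  [Fintype γ] [MeasurableSpace γ] [MeasurableSingletonClass γ]

lemma sum_inter_fibre {Φ : M → β} (hΦ : Measurable Φ) (A : Set M) :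
    ∑ w, ν.real (A ∩ Φ ⁻¹' {w}) = ν.real A := by
  have h := sum_measureReal_preimage_singleton (μ := ν.restrict A) (Finset.univ : Finset β)
    (f := Φ) (fun y _ => hΦ (measurableSet_singleton y))
  simpa [measureReal_restrict_apply, hΦ (measurableSet_singleton _), Set.inter_comm] using h

open Classical in
lemma sum_pairs_fibre {G : M → β} {Φ : M → γ} (hG : Measurable G) (hΦ : Measurable Φ)
    (R : β → γ → Prop) :
    ∑ v, ∑ w, (if R v w then ν.real (G ⁻¹' {v} ∩ Φ ⁻¹' {w}) else 0) =
      ν.real {x | R (G x) (Φ x)} := by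
  have h := sum_measureReal_preimage_singleton (μ := ν)
    (Finset.univ.filter fun p : β × γ => R p.1 p.2) (f := fun x => (G x, Φ x))
    (fun y _ => (hG.prodMk hΦ) (measurableSet_singleton y))
  rw [Finset.sum_filter, Fintype.sum_prod_type] at h
  convert h using 1
  · refine Finset.sum_congr rfl fun v _ => Finset.sum_congr rfl fun w _ => ?_
    congr 2
    ext x
    simp
  · congr 1
    ext x
    simp

end Fibres

/-- Systems with polynomial descriptions have names in one small catalogue. -/
theorem count : CountSpec.{u} := by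
  classical
  refine ⟨catalogue, small_catalogue, ?_⟩
  rintro d M _ ν _ S hS ⟨D⟩ g hg δ hδ
  -- a chart for each point
  have hne : ∀ x, (Finset.univ.filter fun i => x ∈ D.U i).Nonempty := fun x => by
    obtain ⟨i, hi⟩ := D.cover x
    exact ⟨i, by simpa using hi⟩
  set ι : M → Fin D.N := fun x => (Finset.univ.filter fun i => x ∈ D.U i).min' (hne x) with hι
  have hιU : ∀ x, x ∈ D.U (ι x) := fun x =>
    (Finset.mem_filter.1 (Finset.min'_mem _ (hne x))).2
  have hιm : Measurable ι := by
    refine measurable_to_countable' fun i => ?_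
    have e : ι ⁻¹' {i} = D.U i \ ⋃ j, ⋃ (_ : j < i), D.U j := by
      ext x
      simp only [hι, Set.mem_preimage, Set.mem_singleton_iff, Finset.min'_eq_iff,
        Finset.mem_filter, Finset.mem_univ, true_and, Set.mem_sdiff, Set.mem_iUnion,
        exists_prop, not_exists, not_and]
      exact and_congr_right fun _ =>
        forall_congr' fun j => ⟨fun h hj hx => hj.not_ge (h hx), fun h hx => not_lt.1 (h · hx)⟩
    rw [e]
    exact (D.meas_U i).diff (MeasurableSet.iUnion fun j => MeasurableSet.iUnion fun _ => D.meas_U j)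
  -- the division and the densities in the charts
  choose B hB hBg using fun i => D.pull i (g ⁻¹' {true}) (hg (measurableSet_singleton true))
  set ε := δ / (2 * ((D.N : ℝ) + 1)) with hεdef
  have hε : 0 < ε := by positivity
  have hNε : 2 * ((D.N : ℝ) * ε) ≤ δ := by
    have e : 2 * ((D.N : ℝ) + 1) * ε = δ := by rw [hεdef]; field_simp
    nlinarith
  choose s hs hsB using fun i =>
    exists_ballUnion_approx ((ν.restrict (D.U i)).map (D.z i)) (hB i) hε
  have hac : ∀ i, (ν.restrict (ι ⁻¹' {i})).map (D.z i) ≪ volume := fun i =>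
    (Measure.absolutelyContinuous_of_le (Measure.map_mono
      (Measure.restrict_mono (fun x (hx : ι x = i) => hx ▸ hιU x) le_rfl) (D.meas_z i))).trans
      (D.ac i)
  set f : Fin D.N → (Fin d → ℝ) → ℝ := fun i y =>
    (((ν.restrict (ι ⁻¹' {i})).map (D.z i)).rnDeriv volume y).toReal
  have hf : ∀ i, Integrable (f i) := fun i => Measure.integrable_toReal_rnDeriv
  choose k hk using fun i => exists_density (hf i) hε
  -- constants
  obtain ⟨ρ₀, hρ, hρpos⟩ : ∃ ρ, (∀ i b, ρ ≤ D.rad i b) ∧ 0 < ρ :=
    ((eventually_all.2 fun i => eventually_all.2 fun b =>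
      eventually_nhdsWithin_of_eventually_nhds (eventually_le_nhds (D.rad_pos i b))).and
      (self_mem_nhdsWithin (s := Set.Ioi (0 : ℝ)))).exists
  obtain ⟨η, ⟨hcol, hηρ⟩, hη0⟩ : ∃ η, ((∀ i,
      ((ν.restrict (D.U i)).map (D.z i)).real (collar (s i) η) ≤ ε) ∧ η ≤ ρ₀ / 2) ∧ 0 < η :=
    (((eventually_all.2 fun i => exists_collar_small _ (D.ac i) (hs i) hε).and
      (eventually_nhdsWithin_of_eventually_nhds (eventually_le_nhds (half_pos hρpos)))).and
      (self_mem_nhdsWithin (s := Set.Ioi (0 : ℝ)))).exists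
  set Λ := 2 + ∑ i, ∑ b, |D.L| / (4 * D.rad i b) with hΛdef
  have hΛnn : ∀ i b, 0 ≤ |D.L| / (4 * D.rad i b) := fun i b => by
    have := D.rad_pos i b
    positivity
  have hΛ2 : 2 ≤ Λ :=
    le_add_of_nonneg_right (Finset.sum_nonneg fun i _ => Finset.sum_nonneg fun b _ => hΛnn i b)
  have hΛ : ∀ i b, |D.L| / (4 * D.rad i b) ≤ Λ := fun i b => by
    have h1 := Finset.single_le_sum (fun b _ => hΛnn i b) (Finset.mem_univ b)
    have h2 := Finset.single_le_sum (f := fun i => ∑ b, |D.L| / (4 * D.rad i b))
      (fun i _ => Finset.sum_nonneg fun b _ => hΛnn i b) (Finset.mem_univ i)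
    linarith
  obtain ⟨K, hKC, hKc, hKa, hK2⟩ : ∃ K : ℕ, |D.C| ≤ (2 : ℝ) ^ K ∧
      (∀ i b, ‖D.ctr i b‖ ≤ (2 : ℝ) ^ K ∧ D.rad i b ≤ (2 : ℝ) ^ K) ∧
      Λ * D.a ^ K < 1 ∧ Λ * (2⁻¹ : ℝ) ^ K < 1 := by
    have hbig : ∀ x : ℝ, ∀ᶠ K : ℕ in atTop, x ≤ (2 : ℝ) ^ K := fun x =>
      (tendsto_pow_atTop_atTop_of_one_lt one_lt_two).eventually_ge_atTop x
    have hgeo : ∀ a : ℝ, 0 ≤ a → a < 1 → ∀ᶠ K : ℕ in atTop, Λ * a ^ K < 1 := fun a h0 h1 => by
      have h := (tendsto_pow_atTop_nhds_zero_of_lt_one h0 h1).const_mul Λ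
      rw [mul_zero] at h
      exact h.eventually (gt_mem_nhds one_pos)
    exact ((hbig _).and ((eventually_all.2 fun i => eventually_all.2 fun b =>
      (hbig _).and (hbig _)).and ((hgeo _ D.a_nonneg D.a_lt_one).and
      (hgeo _ (by norm_num) (by norm_num))))).exists
  obtain ⟨j, hj⟩ := shape_surjective ⟨d, D.N, D.Nb, K, fun i => (s i, k i)⟩
  filter_upwards [eventually_ge_atTop j, eventually_card_table_le d D.N D.Nb K,
    (tendsto_error (Λ := Λ) (a := D.a) (C := |D.C|) (d := d) (by linarith) D.a_nonneg hKa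
      hK2).eventually (gt_mem_nhds hη0)] with n hjn hcard herr
  -- the table
  obtain ⟨T, hT⟩ := D.exists_approx (p := K * n) (r := K * n) (Q := gridBound K n)
    (B := (2 : ℝ) ^ (K * (K * n + 1) + K))
    (fun i b => (hKc i b).1.trans (pow_le_pow_right₀ one_le_two (Nat.le_add_left _ _)))
    (fun i b => (hKc i b).2.trans (pow_le_pow_right₀ one_le_two (Nat.le_add_left _ _)))
    ((pow_le_pow_left₀ (abs_nonneg _) hKC _).trans (by
      rw [← pow_mul]; exact pow_le_pow_right₀ one_le_two (Nat.le_add_right _ _)))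
    (le_of_eq (by simp only [gridBound]; push_cast; ring))
  set q := (2⁻¹ : ℝ) ^ (K * n) with hqdef
  set X := ((K * n : ℕ) : ℝ) ^ d with hXdef
  have hq : 0 ≤ q := by positivity
  have hX : 0 ≤ X := by positivity
  have hΛn : 1 ≤ Λ ^ n := one_le_pow₀ (by linarith)
  have haC : 0 ≤ |D.C| * D.a ^ (K * n) := by have := D.a_nonneg; positivity
  have hmain : Λ ^ n * (3 * Λ * q + X * q + |D.C| * D.a ^ (K * n)) + 3 * (Λ ^ n * q) < η := by
    linarith [show Λ ^ n * (3 * Λ + X + 3) * q + |D.C| * (Λ ^ n * D.a ^ (K * n)) =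
      Λ ^ n * (3 * Λ * q + X * q + |D.C| * D.a ^ (K * n)) + 3 * (Λ ^ n * q) by ring]
  have hqn : q ≤ Λ ^ n * q := le_mul_of_one_le_left hq hΛn
  have h0 : 0 ≤ Λ ^ n * (3 * Λ * q + X * q + |D.C| * D.a ^ (K * n)) :=
    mul_nonneg (by linarith) (by positivity)
  set G : M → Word n := fun x t => g (S^[(t : ℕ)] x)
  set Φ : M → Word n := fun x => T.name (K * n) s n (ι x, D.z (ι x) x)
  have hG : Measurable G := measurable_pi_lambda _ fun t => hg.comp (hS.measurable.iterate _)
  have hchart : Measurable fun x => D.z (ι x) x := by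
    have h : Measurable fun p : Fin D.N × M => D.z p.1 p.2 :=
      measurable_from_prod_countable_right fun i => D.meas_z i
    exact h.comp (hιm.prodMk measurable_id)
  have hΦ : Measurable Φ := (T.measurable_name _ s n).comp (hιm.prodMk hchart)
  refine ⟨T.law (K * n) s k n, Finset.mem_biUnion.2 ⟨j, Finset.mem_range.2 (by omega), ?_⟩,
    fun v w => ν.real (G ⁻¹' {v} ∩ Φ ⁻¹' {w}), fun v w => measureReal_nonneg, fun v => ?_, ?_, ?_⟩
  · rw [hj]
    simp only [Shape.laws, if_pos hcard]
    exact Finset.mem_image.2 ⟨T, Finset.mem_univ _, rfl⟩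
  · rw [sum_inter_fibre ν hΦ, procLaw]
    congr 1
    ext x
    simp [G, funext_iff]
  · -- the marginal
    set A : Fin D.N → Word n → Set (Fin d → ℝ) := fun i w =>
      {y | T.name (K * n) s n (i, y) = w}
    have hA : ∀ i w, MeasurableSet (A i w) := fun i w =>
      ((T.measurable_name _ s n).comp measurable_prodMk_left) (measurableSet_singleton w)
    have hmarg : ∀ w, ∑ v, ν.real (G ⁻¹' {v} ∩ Φ ⁻¹' {w}) = ∑ i, ∫ y in A i w, f i y := by
      intro w
      rw [Finset.sum_congr rfl fun v _ => by rw [Set.inter_comm (G ⁻¹' {v})],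
        sum_inter_fibre ν hG, ← sum_inter_fibre ν hιm]
      refine Finset.sum_congr rfl fun i _ => ?_
      rw [Measure.setIntegral_toReal_rnDeriv (hac i), map_measureReal_apply (D.meas_z i) (hA i w),
        measureReal_restrict_apply (D.meas_z i (hA i w))]
      congr 1
      ext x
      simp only [Set.mem_inter_iff, Set.mem_preimage, Set.mem_singleton_iff, A, Φ,
        Set.mem_ofPred_eq]
      exact and_congr_left fun h => by rw [h]
    have hcover : ∀ i, ⋃ w, A i w = Set.univ := fun i => by ext y; simp [A]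
    have hdisj : ∀ i, Pairwise (Function.onFun Disjoint (A i)) := fun i a b hab =>
      Set.disjoint_left.2 fun y (h1 : _ = a) (h2 : _ = b) => hab (h1.symm.trans h2)
    calc ∑ w, |(∑ v, ν.real (G ⁻¹' {v} ∩ Φ ⁻¹' {w})) - T.law (K * n) s k n w|
        ≤ ∑ w, ∑ i, ∫ y in A i w, |f i y - density d (k i) y| := by
          refine Finset.sum_le_sum fun w _ => ?_
          rw [hmarg w, Table.law, ← Finset.sum_sub_distrib]
          refine (Finset.abs_sum_le_sum_abs _ _).trans (Finset.sum_le_sum fun i _ => ?_)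
          rw [← integral_sub (hf i).integrableOn (integrable_density d (k i)).integrableOn]
          exact abs_integral_le_integral_abs
      _ = ∑ i, ∫ y, |f i y - density d (k i) y| := by
          rw [Finset.sum_comm]
          refine Finset.sum_congr rfl fun i _ => ?_
          rw [← integral_iUnion_fintype (f := fun y => |f i y - density d (k i) y|) (hA i) (hdisj i)
            fun w => (((hf i).sub (integrable_density d (k i))).abs).integrableOn, hcover,
            setIntegral_univ]
      _ ≤ ∑ _i : Fin D.N, ε := Finset.sum_le_sum fun i _ => hk i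
      _ ≤ δ := by
          simp only [Finset.sum_const, Finset.card_univ, Fintype.card_fin, nsmul_eq_mul]
          nlinarith [(Nat.cast_nonneg D.N : (0 : ℝ) ≤ D.N)]
  · -- the cost
    set E : Set M := ⋃ i, D.U i ∩ D.z i ⁻¹' (B i ∆ ballUnion (s i) ∪ collar (s i) η) with hEdef
    have hEm : MeasurableSet E := MeasurableSet.iUnion fun i => (D.meas_U i).inter
      (D.meas_z i (((hB i).symmDiff (measurableSet_ballUnion _)).union (measurableSet_collar _ _)))
    have hE : ν.real E ≤ δ := by
      refine (measureReal_iUnion_fintype_le _).trans (le_trans ?_ hNε)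
      calc ∑ i, ν.real (D.U i ∩ D.z i ⁻¹' (B i ∆ ballUnion (s i) ∪ collar (s i) η))
          ≤ ∑ _i : Fin D.N, 2 * ε := by
            refine Finset.sum_le_sum fun i _ => ?_
            have hm : MeasurableSet (B i ∆ ballUnion (s i) ∪ collar (s i) η) :=
              ((hB i).symmDiff (measurableSet_ballUnion _)).union (measurableSet_collar _ _)
            rw [Set.inter_comm, ← measureReal_restrict_apply (D.meas_z i hm),
              ← map_measureReal_apply (D.meas_z i) hm]
            exact (measureReal_union_le _ _).trans (by linarith [hsB i, hcol i])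
        _ = _ := by simp; ring
    have hwrong : ∀ t : Fin n, {x | G x t ≠ Φ x t} ⊆ S^[(t : ℕ)] ⁻¹' E := by
      intro t x hx
      by_contra hxE
      apply hx
      obtain ⟨hmem, hclose⟩ := D.iterate_le hT hq hρ hΛ hΛ2 (η := η) (n := n)
        (by linarith) (by linarith) (hιU x) t t.2.le
      set st := (T.step (K * n))^[(t : ℕ)] (ι x, D.z (ι x) x) with hst
      simp only [hEdef, Set.mem_preimage, Set.mem_iUnion, Set.mem_inter_iff, not_exists,
        not_and, Set.mem_union, not_or, Set.mem_symmDiff] at hxE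
      obtain ⟨⟨h1, h2⟩, h3⟩ := hxE st.1 hmem
      have h4 := mem_ballUnion_iff_of_close h3 hclose
      have h5 := hBg st.1 _ hmem
      rw [Set.mem_preimage, Set.mem_singleton_iff] at h5
      have h6 := (ballUnion (s st.1)).mem_iff_boolIndicator st.2
      show g (S^[(t : ℕ)] x) = (ballUnion (s st.1)).boolIndicator st.2
      rw [Bool.eq_iff_iff, ← h5, ← h6, ← h4]
      tauto
    calc ∑ v, ∑ w, ν.real (G ⁻¹' {v} ∩ Φ ⁻¹' {w}) * (hammingDist v w : ℝ)
        = ∑ t : Fin n, ν.real {x | G x t ≠ Φ x t} := by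
          simp only [hammingDist, Finset.card_filter, Nat.cast_sum, Nat.cast_ite, Nat.cast_one,
            Nat.cast_zero, Finset.mul_sum, mul_ite, mul_one, mul_zero]
          rw [Finset.sum_congr rfl fun v _ => Finset.sum_comm, Finset.sum_comm]
          refine Finset.sum_congr rfl fun t _ => ?_
          rw [← sum_pairs_fibre ν hG hΦ (fun v w => v t ≠ w t)]
          exact Finset.sum_congr rfl fun v _ => Finset.sum_congr rfl fun w _ => by congr
      _ ≤ ∑ _t : Fin n, δ := by
          refine Finset.sum_le_sum fun t _ => (measureReal_mono (hwrong t)).trans ?_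
          rw [measureReal_def, (hS.iterate _).measure_preimage hEm.nullMeasurableSet]
          exact hE
      _ = δ * n := by simp [mul_comm]

end Vale.Agent.P109
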