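import Vale.Agent.P109.Count
import Vale.Agent.P109.Count.GenLaw

/-!
P109: systems with tables of subexponential size have names in one small catalogue.
-/

namespace Vale.Agent.P109

open MeasureTheory Filter Topology
open scoped symmDiff

universe u

/-- Systems with tables of a given subexponential size have names in one small catalogue. -/
theorem countGen : CountGenSpec.{u} := by
  classical
  intro f hf
  refine ⟨genCatalogue f, small_genCatalogue hf, ?_⟩
  rintro d M _ ν _ S hS ⟨D⟩ g hg δ hδ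
  -- a chart for each point
  have hne : ∀ x, (Finset.univ.filter fun i => x ∈ D.U i).Nonempty := fun x => by
    obtain ⟨i, hi⟩ := D.cover x
    exact ⟨i, by simpa using hi⟩
  set ι : M → Fin D.N := fun x => (Finset.univ.filter fun i => x ∈ D.U i).min' (hne x) with hι
  have hιU : ∀ x, x ∈ D.U (ι x) := fun x =>
    (Finset.mem_filter.1 (Finset.min'_mem _ (hne x))).2
  have hιm : Measurable ι := by
    refine measurable_to_countable' fun i => ?_
    have e : ι ⁻¹' {i} = D.U i \ ⋃ j, ⋃ (_ : j < i), D.U j := by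
      ext x
      simp only [hι, Set.mem_preimage, Set.mem_singleton_iff, Finset.min'_eq_iff,
        Finset.mem_filter, Finset.mem_univ, true_and, Set.mem_sdiff, Set.mem_iUnion,
        exists_prop, not_exists, not_and]
      exact and_congr_right fun _ =>
        forall_congr' fun j => ⟨fun h hj hx => hj.not_ge (h hx), fun h hx => not_lt.1 (h · hx)⟩
    rw [e]
    exact (D.meas_U i).diff (MeasurableSet.iUnion fun j => MeasurableSet.iUnion fun _ => D.meas_U j)
  -- the division and the densities in the charts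
  choose B hB hBg using fun i => D.pull i (g ⁻¹' {true}) (hg (measurableSet_singleton true))
  set ε := δ / (2 * ((D.N : ℝ) + 1)) with hεdef
  have hε : 0 < ε := by positivity
  have hNε : 2 * ((D.N : ℝ) * ε) ≤ δ := by
    have e : 2 * ((D.N : ℝ) + 1) * ε = δ := by rw [hεdef]; field_simp
    nlinarith
  choose s hs hsB using fun i =>
    exists_ballUnion_approx ((ν.restrict (D.U i)).map (D.z i)) (hB i) hε
  have hac : ∀ i, (ν.restrict (ι ⁻¹' {i})).map (D.z i) ≪ volume := fun i =>
    (Measure.absolutelyContinuous_of_le (Measure.map_mono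
      (Measure.restrict_mono (fun x (hx : ι x = i) => hx ▸ hιU x) le_rfl) (D.meas_z i))).trans
      (D.ac i)
  set φ : Fin D.N → (Fin d → ℝ) → ℝ := fun i y =>
    (((ν.restrict (ι ⁻¹' {i})).map (D.z i)).rnDeriv volume y).toReal
  have hφ : ∀ i, Integrable (φ i) := fun i => Measure.integrable_toReal_rnDeriv
  choose k hk using fun i => exists_density (hφ i) hε
  -- constants
  obtain ⟨η, hcol, hη0⟩ : ∃ η, (∀ i,
      ((ν.restrict (D.U i)).map (D.z i)).real (collar (s i) η) ≤ ε) ∧ 0 < η :=
    ((eventually_all.2 fun i => exists_collar_small _ (D.ac i) (hs i) hε).and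
      (self_mem_nhdsWithin (s := Set.Ioi (0 : ℝ)))).exists
  set Λ := max D.Λ 2 with hΛdef
  have hΛ2 : 2 ≤ Λ := le_max_right _ _
  obtain ⟨a, ha⟩ : ∃ a : ℕ, Λ ≤ (2 : ℝ) ^ a :=
    ((tendsto_pow_atTop_atTop_of_one_lt one_lt_two).eventually_ge_atTop Λ).exists
  set K := a + 4 with hK
  obtain ⟨j, hj⟩ := genShape_surjective ⟨d, D.N, K, fun i => (s i, k i)⟩
  filter_upwards [eventually_ge_atTop j, eventually_card_genTable_le f d D.N K, D.scheme K,
    eventually_le_mul hf one_pos,
    (tendsto_pow_atTop_nhds_zero_of_lt_one (r := (2⁻¹ : ℝ)) (by norm_num) (by norm_num)).eventually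
      (gt_mem_nhds hη0),
    (tendsto_pow_atTop_atTop_of_one_lt (one_lt_two (α := ℝ))).eventually_ge_atTop (3 * Λ),
    eventually_ge_atTop 4] with n hjn hcard hscheme hfn hηn hΛn hn4
  obtain ⟨Nb, r₀, ctr, rad, target, hsz, hnum, hcov, hmap, hcoef⟩ := hscheme
  obtain ⟨r, hr_le, hr_pow, hr_eval⟩ := exists_degree (d := d) r₀
  have h2n : (2 : ℝ) ^ n ≤ (2 : ℝ) ^ (n ^ 2) :=
    pow_le_pow_right₀ one_le_two (Nat.le_self_pow two_ne_zero n)
  obtain ⟨T, hT⟩ := exists_fits (U := D.U) (z := D.z) (S := S) (p := K * n)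
    (Q := genGrid K n) (r := r) (Λ := Λ) (β := (2⁻¹ : ℝ) ^ (K * n)) (B := (2 : ℝ) ^ (n ^ 2))
    (fun i b => (hnum i b).1) (by positivity) (fun i b => (hnum i b).2.2.trans h2n)
    (fun i b => (hnum i b).2.1.trans h2n)
    (le_of_eq (by simp only [genGrid]; push_cast; ring)) hcov hmap (fun i b => by
      obtain ⟨c, hc1, hc2, hc3⟩ := hcoef i b
      obtain ⟨c', hc', hev⟩ := hr_eval c
      refine ⟨c', fun α' => ?_, fun v w hv hw => ?_, fun x hx hn => ?_⟩
      · obtain ⟨α, hα⟩ := hc' α'
        rw [hα]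
        exact hc1 α
      · rw [hev, hev]
        refine (hc2 v w hv hw).trans (mul_le_mul_of_nonneg_right
          (mul_le_mul_of_nonneg_right (le_max_left _ _) ?_) (norm_nonneg _))
        have : (0 : ℝ) ≤ rad i b :=
          (show (0 : ℝ) ≤ (2⁻¹ : ℝ) ^ n by positivity).trans (hnum i b).1
        linarith
      · rw [hev]
        exact hc3 x hx hn)
  have hNb : Nb ≤ genRange f n ∧ r ≤ genRange f n := by
    have hmin : Nb * (r₀ ^ d + 1) + 1 ≤ genRange f n :=
      (Nat.le_floor hsz).trans (Nat.le_succ _)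
    obtain ⟨x⟩ : Nonempty M := nonempty_of_isProbabilityMeasure ν
    obtain ⟨i, hi⟩ := D.cover x
    obtain ⟨b, -⟩ := hcov i x hi
    have h1 : 1 * (r₀ ^ d + 1) ≤ Nb * (r₀ ^ d + 1) := Nat.mul_le_mul_right _ b.pos
    have h2 : Nb * 1 ≤ Nb * (r₀ ^ d + 1) := Nat.mul_le_mul_left _ (Nat.succ_pos _)
    omega
  have hsz' : ((Nb * (r ^ d + 1) + 1 : ℕ) : ℝ) ≤ (2 : ℝ) ^ f n := by rwa [hr_pow]
  -- the errors
  set q := (2⁻¹ : ℝ) ^ (K * n) with hqdef
  set e := (2⁻¹ : ℝ) ^ (2 * n) with hedef
  have hq : 0 ≤ q := by positivity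
  have hrd : (r : ℝ) ^ d ≤ (2 : ℝ) ^ n := by
    have h1 : ((r ^ d : ℕ) : ℝ) ≤ ((Nb * (r ^ d + 1) + 1 : ℕ) : ℝ) := by
      obtain ⟨x⟩ : Nonempty M := nonempty_of_isProbabilityMeasure ν
      obtain ⟨i, hi⟩ := D.cover x
      obtain ⟨b, -⟩ := hcov i x hi
      have : 1 * (r ^ d + 1) ≤ Nb * (r ^ d + 1) := Nat.mul_le_mul_right _ b.pos
      exact_mod_cast (show r ^ d ≤ Nb * (r ^ d + 1) + 1 by omega)
    rw [Nat.cast_pow] at h1
    refine h1.trans (hsz'.trans ?_)
    rw [← Real.rpow_natCast 2 n]
    exact Real.rpow_le_rpow_of_exponent_le one_le_two (by linarith)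
  have hpow : ∀ {u v : ℕ}, u ≤ v → (2⁻¹ : ℝ) ^ v ≤ (2⁻¹ : ℝ) ^ u := fun h =>
    pow_le_pow_of_le_one (by norm_num) (by norm_num) h
  have hsmall : e + 3 * q < (2⁻¹ : ℝ) ^ n := by
    have h1 : e ≤ (2⁻¹ : ℝ) ^ (n + 3) := hpow (by omega)
    have h2 : q ≤ (2⁻¹ : ℝ) ^ (n + 3) := hpow (by rw [hK, Nat.add_mul]; omega)
    have h3 : (0 : ℝ) < (2⁻¹ : ℝ) ^ n := by positivity
    rw [pow_add] at h1 h2
    linarith [show (2⁻¹ : ℝ) ^ 3 = 1 / 8 by norm_num,
      show e + 3 * q ≤ 4 * ((2⁻¹ : ℝ) ^ n * (1 / 8)) by norm_num at h1 h2 ⊢; linarith]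
  have hshadow : Λ ^ n * (3 * Λ * q + (r : ℝ) ^ d * q + q) ≤ e := by
    calc Λ ^ n * (3 * Λ * q + (r : ℝ) ^ d * q + q)
        = Λ ^ n * ((3 * Λ + (r : ℝ) ^ d + 1) * q) := by ring
      _ ≤ ((2 : ℝ) ^ a) ^ n * ((4 * (2 : ℝ) ^ n) * q) := by
          have h1 : (1 : ℝ) ≤ (2 : ℝ) ^ n := one_le_pow₀ one_le_two
          gcongr
          linarith
      _ = 4 * (2⁻¹ : ℝ) ^ (3 * n) := by
          rw [hqdef, hK, ← pow_mul, inv_pow, inv_pow]
          field_simp
          ring
      _ ≤ e := by
          have h1 : (2⁻¹ : ℝ) ^ (3 * n) ≤ (2⁻¹ : ℝ) ^ (2 * n + 2) := hpow (by omega)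
          rw [pow_add] at h1
          norm_num at h1 ⊢
          linarith [hedef]
  have hej : e ≤ η := (hpow (by omega : n ≤ 2 * n)).trans hηn.le
  set G : M → Word n := fun x t => g (S^[(t : ℕ)] x)
  set Φ : M → Word n := fun x => T.name (K * n) s n (ι x, D.z (ι x) x)
  have hG : Measurable G := measurable_pi_lambda _ fun t => hg.comp (hS.measurable.iterate _)
  have hchart : Measurable fun x => D.z (ι x) x := by
    have h : Measurable fun p : Fin D.N × M => D.z p.1 p.2 :=
      measurable_from_prod_countable_right fun i => D.meas_z i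
    exact h.comp (hιm.prodMk measurable_id)
  have hΦ : Measurable Φ := (T.measurable_name _ s n).comp (hιm.prodMk hchart)
  refine ⟨T.law (K * n) s k n, mem_genCatalogue hj hjn hNb.1 hNb.2 ?_,
    fun v w => ν.real (G ⁻¹' {v} ∩ Φ ⁻¹' {w}), fun v w => measureReal_nonneg, fun v => ?_, ?_, ?_⟩
  · simp only [sizeLaws, if_pos (hcard Nb r hsz')]
    exact Finset.mem_image.2 ⟨T, Finset.mem_univ _, rfl⟩
  · rw [sum_inter_fibre ν hΦ, procLaw]
    congr 1
    ext x
    simp [G, funext_iff]
  · -- the marginal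
    set A : Fin D.N → Word n → Set (Fin d → ℝ) := fun i w =>
      {y | T.name (K * n) s n (i, y) = w}
    have hA : ∀ i w, MeasurableSet (A i w) := fun i w =>
      ((T.measurable_name _ s n).comp measurable_prodMk_left) (measurableSet_singleton w)
    have hmarg : ∀ w, ∑ v, ν.real (G ⁻¹' {v} ∩ Φ ⁻¹' {w}) = ∑ i, ∫ y in A i w, φ i y := by
      intro w
      rw [Finset.sum_congr rfl fun v _ => by rw [Set.inter_comm (G ⁻¹' {v})],
        sum_inter_fibre ν hG, ← sum_inter_fibre ν hιm]
      refine Finset.sum_congr rfl fun i _ => ?_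
      rw [Measure.setIntegral_toReal_rnDeriv (hac i), map_measureReal_apply (D.meas_z i) (hA i w),
        measureReal_restrict_apply (D.meas_z i (hA i w))]
      congr 1
      ext x
      simp only [Set.mem_inter_iff, Set.mem_preimage, Set.mem_singleton_iff, A, Φ,
        Set.mem_ofPred_eq]
      exact and_congr_left fun h => by rw [h]
    have hcover : ∀ i, ⋃ w, A i w = Set.univ := fun i => by ext y; simp [A]
    have hdisj : ∀ i, Pairwise (Function.onFun Disjoint (A i)) := fun i a b hab =>
      Set.disjoint_left.2 fun y (h1 : _ = a) (h2 : _ = b) => hab (h1.symm.trans h2)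
    calc ∑ w, |(∑ v, ν.real (G ⁻¹' {v} ∩ Φ ⁻¹' {w})) - T.law (K * n) s k n w|
        ≤ ∑ w, ∑ i, ∫ y in A i w, |φ i y - density d (k i) y| := by
          refine Finset.sum_le_sum fun w _ => ?_
          rw [hmarg w, Table.law, ← Finset.sum_sub_distrib]
          refine (Finset.abs_sum_le_sum_abs _ _).trans (Finset.sum_le_sum fun i _ => ?_)
          rw [← integral_sub (hφ i).integrableOn (integrable_density d (k i)).integrableOn]
          exact abs_integral_le_integral_abs
      _ = ∑ i, ∫ y, |φ i y - density d (k i) y| := by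
          rw [Finset.sum_comm]
          refine Finset.sum_congr rfl fun i _ => ?_
          rw [← integral_iUnion_fintype (f := fun y => |φ i y - density d (k i) y|) (hA i) (hdisj i)
            fun w => (((hφ i).sub (integrable_density d (k i))).abs).integrableOn, hcover,
            setIntegral_univ]
      _ ≤ ∑ _i : Fin D.N, ε := Finset.sum_le_sum fun i _ => hk i
      _ ≤ δ := by
          simp only [Finset.sum_const, Finset.card_univ, Fintype.card_fin, nsmul_eq_mul]
          nlinarith [(Nat.cast_nonneg D.N : (0 : ℝ) ≤ D.N)]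
  · -- the cost
    set E : Set M := ⋃ i, D.U i ∩ D.z i ⁻¹' (B i ∆ ballUnion (s i) ∪ collar (s i) η) with hEdef
    have hEm : MeasurableSet E := MeasurableSet.iUnion fun i => (D.meas_U i).inter
      (D.meas_z i (((hB i).symmDiff (measurableSet_ballUnion _)).union (measurableSet_collar _ _)))
    have hE : ν.real E ≤ δ := by
      refine (measureReal_iUnion_fintype_le _).trans (le_trans ?_ hNε)
      calc ∑ i, ν.real (D.U i ∩ D.z i ⁻¹' (B i ∆ ballUnion (s i) ∪ collar (s i) η))
          ≤ ∑ _i : Fin D.N, 2 * ε := by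
            refine Finset.sum_le_sum fun i _ => ?_
            have hm : MeasurableSet (B i ∆ ballUnion (s i) ∪ collar (s i) η) :=
              ((hB i).symmDiff (measurableSet_ballUnion _)).union (measurableSet_collar _ _)
            rw [Set.inter_comm, ← measureReal_restrict_apply (D.meas_z i hm),
              ← map_measureReal_apply (D.meas_z i) hm]
            exact (measureReal_union_le _ _).trans (by linarith [hsB i, hcol i])
        _ = _ := by simp; ring
    have hwrong : ∀ t : Fin n, {x | G x t ≠ Φ x t} ⊆ S^[(t : ℕ)] ⁻¹' E := by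
      intro t x hx
      by_contra hxE
      apply hx
      obtain ⟨hmem, hclose'⟩ := hT.iterate_le hq hq hΛ2 (η := e) (n := n)
        hshadow hsmall (hιU x) t t.2.le
      have hclose := hclose'.trans hej
      set st := (T.step (K * n))^[(t : ℕ)] (ι x, D.z (ι x) x) with hst
      simp only [hEdef, Set.mem_preimage, Set.mem_iUnion, Set.mem_inter_iff, not_exists,
        not_and, Set.mem_union, not_or, Set.mem_symmDiff] at hxE
      obtain ⟨⟨h1, h2⟩, h3⟩ := hxE st.1 hmem
      have h4 := mem_ballUnion_iff_of_close h3 hclose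
      have h5 := hBg st.1 _ hmem
      rw [Set.mem_preimage, Set.mem_singleton_iff] at h5
      have h6 := (ballUnion (s st.1)).mem_iff_boolIndicator st.2
      show g (S^[(t : ℕ)] x) = (ballUnion (s st.1)).boolIndicator st.2
      rw [Bool.eq_iff_iff, ← h5, ← h6, ← h4]
      tauto
    calc ∑ v, ∑ w, ν.real (G ⁻¹' {v} ∩ Φ ⁻¹' {w}) * (hammingDist v w : ℝ)
        = ∑ t : Fin n, ν.real {x | G x t ≠ Φ x t} := by
          simp only [hammingDist, Finset.card_filter, Nat.cast_sum, Nat.cast_ite, Nat.cast_one,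
            Nat.cast_zero, Finset.mul_sum, mul_ite, mul_one, mul_zero]
          rw [Finset.sum_congr rfl fun v _ => Finset.sum_comm, Finset.sum_comm]
          refine Finset.sum_congr rfl fun t _ => ?_
          rw [← sum_pairs_fibre ν hG hΦ (fun v w => v t ≠ w t)]
          exact Finset.sum_congr rfl fun v _ => Finset.sum_congr rfl fun w _ => by congr
      _ ≤ ∑ _t : Fin n, δ := by
          refine Finset.sum_le_sum fun t _ => (measureReal_mono (hwrong t)).trans ?_
          rw [measureReal_def, (hS.iterate _).measure_preimage hEm.nullMeasurableSet]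
          exact hE
      _ = δ * n := by simp [mul_comm]

end Vale.Agent.P109
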