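import Mathlib

/-!
P109: names, laws of names, closeness of laws, entropy, the two-sided shift.
-/

namespace Vale.Agent.P109

open MeasureTheory Finset

/-- Binary names of length `n`. -/
abbrev Word (n : ℕ) := Fin n → Bool

/-- The two-sided binary shift. -/
def shift (x : ℤ → Bool) : ℤ → Bool := fun i => x (i + 1)

/-- The law of the names at times `0, …, n - 1` of a measure on two-sided sequences. -/
noncomputable def wordLaw (μ : Measure (ℤ → Bool)) (n : ℕ) (v : Word n) : ℝ :=
  μ.real {x | ∀ t : Fin n, x (t : ℕ) = v t}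

/-- The law of the `n`-names of a two-set division under a map. -/
noncomputable def procLaw {M : Type*} [MeasurableSpace M] (ν : Measure M) (S : M → M)
    (g : M → Bool) (n : ℕ) (v : Word n) : ℝ :=
  ν.real {x | ∀ t : Fin n, g (S^[t] x) = v t}

/-- Two laws of names are close: some nonnegative weight on pairs of names has the first law as
marginal, a marginal within `δ` of the second in total variation, and cost at most `δ n`. -/
def Near {n : ℕ} (δ : ℝ) (P c : Word n → ℝ) : Prop :=
  ∃ π : Word n → Word n → ℝ, (∀ v w, 0 ≤ π v w) ∧ (∀ v, ∑ w, π v w = P v) ∧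
    (∑ w, |(∑ v, π v w) - c w|) ≤ δ ∧
    (∑ v, ∑ w, π v w * hammingDist v w) ≤ δ * n

/-- A catalogue of laws of subexponential-exponential size. -/
def Small (C : ∀ n, Finset (Word n → ℝ)) : Prop :=
  ∀ ε : ℝ, 0 < ε → ∀ᶠ n : ℕ in Filter.atTop,
    ((C n).card : ℝ) ≤ (2 : ℝ) ^ ((2 : ℝ) ^ (ε * n))

/-- Shannon entropy of the names of length `n` of a finite-valued function. -/
noncomputable def nameEntropy {X : Type*} [MeasurableSpace X] (μ : Measure X) (T : X → X)
    {k : ℕ} (f : X → Fin k) (n : ℕ) : ℝ :=
  ∑ v : Fin n → Fin k, Real.negMulLog (μ.real {x | ∀ t : Fin n, f (T^[t] x) = v t})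

/-- Kolmogorov-Sinai entropy: supremum over finite measurable divisions of the entropy rate, the
upper limit of the entropy of `n`-names divided by `n`. -/
noncomputable def ksEntropy {X : Type*} [MeasurableSpace X] (μ : Measure X) (T : X → X) :
    ENNReal :=
  ⨆ (k : ℕ) (f : X → Fin k) (_ : Measurable f),
    Filter.limsup (fun n : ℕ => ENNReal.ofReal (nameEntropy μ T f n / n)) Filter.atTop

end Vale.Agent.P109
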