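import Vale.Agent.P109.Spec
import Vale.Agent.P109.Window

/-!
P109: few names force Kolmogorov-Sinai entropy zero.
-/

namespace Vale.Agent.P109

open MeasureTheory Filter Topology Finset

/-- Gibbs inequality against a positive sub-probability vector. -/
theorem sum_negMulLog_le {ι : Type*} [Fintype ι] {p q : ι → ℝ} (hp : ∀ i, 0 ≤ p i)
    (hp1 : ∑ i, p i = 1) (hq : ∀ i, 0 < q i) (hq1 : ∑ i, q i ≤ 1) :
    ∑ i, Real.negMulLog (p i) ≤ ∑ i, p i * (-Real.log (q i)) := by
  have key : ∀ i, Real.negMulLog (p i) ≤ p i * (-Real.log (q i)) + (q i - p i) := fun i => by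
    rcases (hp i).eq_or_lt with h | h
    · simp only [← h, Real.negMulLog_zero, zero_mul, zero_add, sub_zero]
      exact (hq i).le
    · have h1 := mul_le_mul_of_nonneg_left
        (Real.log_le_sub_one_of_pos (div_pos (hq i) h)) (hp i)
      rw [Real.log_div (hq i).ne' h.ne', mul_sub, mul_sub, mul_div_cancel₀ _ h.ne', mul_one] at h1
      rw [Real.negMulLog, neg_mul]
      linarith
  calc ∑ i, Real.negMulLog (p i) ≤ ∑ i, (p i * (-Real.log (q i)) + (q i - p i)) :=
        sum_le_sum fun i _ => key i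
    _ ≤ ∑ i, p i * (-Real.log (q i)) := by
        rw [sum_add_distrib, sum_sub_distrib]; linarith

/-- Names near a set of size at most `exp B` in expectation have small entropy. -/
theorem nameEntropy_le {μ : Measure (ℤ → Bool)} [IsProbabilityMeasure μ] {k n : ℕ}
    {f : (ℤ → Bool) → Fin k} (hf : Measurable f) {S : Finset (Fin n → Fin k)} (hS : S.Nonempty)
    {ζ B η : ℝ} (hζ : 0 < ζ) (hζ1 : ζ < 1) (hB : Real.log S.card ≤ B)
    {d : (ℤ → Bool) → ℝ} (hd : Integrable d μ) (hdη : ∫ x, d x ∂μ ≤ η)
    (hnear : ∀ᵐ x ∂μ, ∃ u ∈ S, ((univ.filter fun t : Fin n => u t ≠ f (shift^[t] x)).card : ℝ) ≤ d x) :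
    nameEntropy μ shift f n ≤ B + n * (-Real.log (1 - ζ)) + η * |Real.log (ζ / k)| := by
  classical
  obtain ⟨u₀, hu₀⟩ := hS
  rcases Nat.eq_zero_or_pos k with hk | hk
  · subst hk
    exact (f fun _ => false).elim0
  set name : (ℤ → Bool) → Fin n → Fin k := fun x t => f (shift^[t] x) with hname
  have hnm : Measurable name :=
    measurable_pi_lambda _ fun t => hf.comp (measurable_shift.iterate _)
  set p : (Fin n → Fin k) → ℝ := fun v => μ.real {x | ∀ t : Fin n, f (shift^[t] x) = v t} with hp
  have hset : ∀ v, {x | ∀ t : Fin n, f (shift^[t] x) = v t} = name ⁻¹' {v} := fun v => by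
    ext x
    simp [hname, funext_iff]
  have hint : ∀ φ : (Fin n → Fin k) → ℝ, ∫ x, φ (name x) ∂μ = ∑ v, p v * φ v := fun φ => by
    rw [← integral_map hnm.aemeasurable (measurable_of_countable φ).aestronglyMeasurable,
      integral_fintype .of_finite]
    refine sum_congr rfl fun v _ => ?_
    rw [map_measureReal_apply hnm (measurableSet_singleton v), smul_eq_mul, hp]
    simp only [hset]
  have hp1 : ∑ v, p v = 1 := by
    have := hint fun _ => 1
    simp only [integral_const, probReal_univ, one_smul, mul_one] at this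
    exact this.symm
  set K : Fin k → Fin k → ℝ := fun a b => if a = b then 1 - ζ else ζ / k with hK
  have hkR : (0 : ℝ) < k := by exact_mod_cast hk
  have hKpos : ∀ a b, 0 < K a b := fun a b => by
    simp only [hK]
    split_ifs
    · linarith
    · positivity
  have hKsum : ∀ a, ∑ b, K a b ≤ 1 := fun a => by
    have : ∀ b, K a b ≤ (if a = b then 1 - ζ else 0) + ζ / k := fun b => by
      simp only [hK]
      split_ifs
      · have : 0 ≤ ζ / k := by positivity
        linarith
      · linarith
    refine (sum_le_sum fun b _ => this b).trans ?_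
    rw [sum_add_distrib]
    simp only [sum_ite_eq, mem_univ, if_true, sum_const, card_univ, Fintype.card_fin, nsmul_eq_mul]
    field_simp
    linarith
  have hScard : (0 : ℝ) < S.card := by exact_mod_cast card_pos.2 ⟨u₀, hu₀⟩
  set q : (Fin n → Fin k) → ℝ := fun v => (∑ u ∈ S, ∏ t, K (u t) (v t)) / S.card with hq
  have hq0 : ∀ v, 0 < q v := fun v => div_pos
    (sum_pos (fun u _ => prod_pos fun t _ => hKpos _ _) ⟨u₀, hu₀⟩) hScard
  have hq1 : ∑ v, q v ≤ 1 := by
    simp only [hq, ← sum_div]
    rw [div_le_one hScard, sum_comm]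
    calc (∑ u ∈ S, ∑ v : Fin n → Fin k, ∏ t, K (u t) (v t)) ≤ ∑ _u ∈ S, (1 : ℝ) := by
          refine sum_le_sum fun u _ => ?_
          rw [← Fintype.prod_sum fun t b => K (u t) b]
          exact prod_le_one (fun t _ => sum_nonneg fun b _ => (hKpos _ _).le)
            fun t _ => hKsum _
      _ = S.card := by simp
  have hbound : ∀ v, ∀ u ∈ S, -Real.log (q v) ≤ B + n * (-Real.log (1 - ζ)) +
      ((univ.filter fun t : Fin n => u t ≠ v t).card : ℝ) * |Real.log (ζ / k)| := by
    intro v u hu
    have h1 : (∏ t, K (u t) (v t)) / S.card ≤ q v :=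
      div_le_div_of_nonneg_right
        (single_le_sum (f := fun u => ∏ t, K (u t) (v t))
          (fun u' _ => prod_nonneg fun t _ => (hKpos _ _).le) hu) hScard.le
    have h2 := Real.log_le_log (div_pos (prod_pos fun t _ => hKpos _ _) hScard) h1
    rw [Real.log_div (prod_pos fun t _ => hKpos _ _).ne' hScard.ne',
      Real.log_prod (fun t _ => (hKpos _ _).ne')] at h2
    have h3 : ∀ t, -Real.log (K (u t) (v t)) ≤
        -Real.log (1 - ζ) + (if u t ≠ v t then |Real.log (ζ / k)| else 0) := fun t => by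
      have : Real.log (1 - ζ) ≤ 0 := Real.log_nonpos (by linarith) (by linarith)
      have := neg_le_abs (Real.log (ζ / k))
      by_cases h : u t = v t
      · simp [hK, h]
      · simp only [hK, if_neg h, ne_eq, h, not_false_iff, if_true]
        linarith
    have h4 := sum_le_sum fun t (_ : t ∈ (univ : Finset (Fin n))) => h3 t
    rw [sum_neg_distrib, sum_add_distrib, sum_const, card_univ, Fintype.card_fin, nsmul_eq_mul,
      ← sum_filter, sum_const, nsmul_eq_mul] at h4
    linarith
  calc nameEntropy μ shift f n = ∑ v, Real.negMulLog (p v) := rfl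
    _ ≤ ∑ v, p v * (-Real.log (q v)) :=
        sum_negMulLog_le (fun v => measureReal_nonneg) hp1 hq0 hq1
    _ = ∫ x, -Real.log (q (name x)) ∂μ := (hint fun v => -Real.log (q v)).symm
    _ ≤ ∫ x, (B + n * (-Real.log (1 - ζ)) + d x * |Real.log (ζ / k)|) ∂μ := by
        refine integral_mono_ae ?_ ((integrable_const _).add (hd.mul_const _)) ?_
        · exact Integrable.comp_measurable
            (f := name) (g := fun v => -Real.log (q v)) .of_finite hnm
        · filter_upwards [hnear] with x ⟨u, hu, hx⟩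
          refine (hbound (name x) u hu).trans ?_
          have := mul_le_mul_of_nonneg_right hx (abs_nonneg (Real.log (ζ / k)))
          simp only [hname] at *
          linarith
    _ ≤ B + n * (-Real.log (1 - ζ)) + η * |Real.log (ζ / k)| := by
        rw [integral_add (integrable_const _) (hd.mul_const _), integral_mul_const, integral_const,
          probReal_univ, one_smul]
        linarith [mul_le_mul_of_nonneg_right hdη (abs_nonneg (Real.log (ζ / k)))]

theorem entropy : EntropySpec := by
  intro μ _ hpres hW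
  classical
  refine le_antisymm (iSup_le fun k => iSup_le fun f => iSup_le fun hf => ?_) bot_le
  rw [nonpos_iff_eq_zero]
  refine le_antisymm (ENNReal.le_of_forall_pos_le_add fun δ hδ _ => ?_) bot_le
  rw [zero_add]
  refine limsup_le_of_le (by isBoundedDefault) ?_
  have hδ' : (0 : ℝ) < δ := hδ
  have hk : 0 < k := (f fun _ => false).pos
  set ζ : ℝ := 1 - Real.exp (-((δ : ℝ) / 4)) with hζdef
  have hexp : Real.exp (-((δ : ℝ) / 4)) < 1 := Real.exp_lt_one_iff.2 (by linarith)
  have hexp0 := Real.exp_pos (-((δ : ℝ) / 4))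
  have hζ : 0 < ζ := by rw [hζdef]; linarith
  have hζ1 : ζ < 1 := by rw [hζdef]; linarith
  have hlog : -Real.log (1 - ζ) = (δ : ℝ) / 4 := by
    rw [hζdef, sub_sub_cancel, Real.log_exp, neg_neg]
  set b : ℝ := |Real.log (ζ / k)| with hbdef
  set η : ℝ := (δ : ℝ) / (4 * (b + 1)) with hηdef
  have hb : 0 ≤ b := abs_nonneg _
  have hη : 0 < η := by positivity
  -- a division seen on finitely many coordinates
  have hfib : ∀ a : Fin k, ∃ (m : ℕ) (W : Set (Word (2 * m + 1))),
      μ.real (symmDiff (f ⁻¹' {a}) (centred m ⁻¹' W)) < η / k :=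
    fun a => approx_of_measurable (hf (measurableSet_singleton a)) _ (by positivity)
  choose ma Wa hWa using hfib
  set m := univ.sup ma with hm
  choose V hV using fun a => centred_mono (le_sup (f := ma) (mem_univ a) : ma a ≤ m) (Wa a)
  set h : Word (2 * m + 1) → Fin k := fun u =>
    if hu : ∃ a, u ∈ V a then hu.choose else ⟨0, hk⟩ with hhdef
  set D : Set (ℤ → Bool) := {x | f x ≠ h (centred m x)} with hDdef
  have hDm : MeasurableSet D :=
    (measurableSet_eq_fun hf ((measurable_of_countable h).comp (measurable_win _ _))).compl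
  have hDsub : D ⊆ ⋃ a, symmDiff (f ⁻¹' {a}) (centred (ma a) ⁻¹' Wa a) := by
    intro x hx
    simp only [Set.mem_iUnion, Set.mem_symmDiff, ← hV, Set.mem_preimage, Set.mem_singleton_iff]
    by_cases hu : ∃ a, centred m x ∈ V a
    · refine ⟨hu.choose, Or.inr ⟨hu.choose_spec, fun e => hx ?_⟩⟩
      simp only [hhdef, dif_pos hu, e]
    · exact ⟨f x, Or.inl ⟨rfl, fun e => hu ⟨_, e⟩⟩⟩
  have hD : μ.real D ≤ η := by
    refine (measureReal_mono hDsub).trans ((measureReal_iUnion_fintype_le _).trans ?_)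
    refine (sum_le_sum fun a _ => (hWa a).le).trans (le_of_eq ?_)
    simp only [sum_const, card_univ, Fintype.card_fin, nsmul_eq_mul]
    field_simp
  obtain ⟨n₀, hn₀, W, hWc, hW1⟩ := hW ((δ : ℝ) / 8) (by linarith)
  have hWne : W.Nonempty := nonempty_of_sum_ne_zero (f := wordLaw μ n₀) (by rw [hW1]; norm_num)
  have hWp : ∀ p : ℤ, ∀ᵐ x ∂μ, win p n₀ x ∈ W := by
    have h0 : ∀ j : ℕ, ∀ p : ℤ, μ (win (p + j) n₀ ⁻¹' (W : Set (Word n₀))) =
        μ (win p n₀ ⁻¹' (W : Set (Word n₀))) := fun j p => by
      rw [← (hpres.iterate j).measure_preimage (measurableSet_win p n₀ _).nullMeasurableSet]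
      congr 1
      ext x
      simp [win_iterate]
    intro p
    have h1 : μ (win p n₀ ⁻¹' (W : Set (Word n₀))) = μ (win 0 n₀ ⁻¹' (W : Set (Word n₀))) := by
      obtain ⟨j, rfl | rfl⟩ := Int.eq_nat_or_neg p
      · simpa using h0 j 0
      · simpa using (h0 j (-(j : ℤ))).symm
    have h2 : μ (win 0 n₀ ⁻¹' (W : Set (Word n₀))) = 1 := by
      rw [← ENNReal.toReal_eq_one_iff, ← measureReal_def, ← real_win_finset, hW1]
    rw [← h1, ← mem_ae_iff_prob_eq_one (measurableSet_win p n₀ _)] at h2
    exact h2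
  filter_upwards [eventually_ge_atTop (2 * m + n₀ + 1)] with n hn
  rw [ENNReal.ofReal_le_iff_le_toReal ENNReal.coe_ne_top, ENNReal.coe_toReal]
  have hnR : (0 : ℝ) < n := by exact_mod_cast (show 0 < n by omega)
  rw [div_le_iff₀ hnR]
  set J := (n + 2 * m) / n₀ + 1 with hJ
  set Ψ : (Fin J → Word n₀) → (Fin n → Fin k) := fun ws t => h fun i =>
    ws ⟨((t : ℕ) + i) / n₀, Nat.lt_succ_of_le (Nat.div_le_div_right (by omega))⟩
      ⟨((t : ℕ) + i) % n₀, Nat.mod_lt _ hn₀⟩ with hΨ
  set S := (Fintype.piFinset fun _ : Fin J => W).image Ψ with hS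
  have hSne : S.Nonempty := (Fintype.piFinset_nonempty.2 fun _ => hWne).image Ψ
  have hScard : Real.log S.card ≤ ((n : ℝ) + 2 * m + n₀) * ((δ : ℝ) / 8) := by
    have h1 : S.card ≤ W.card ^ J :=
      card_image_le.trans (by simp [Fintype.card_piFinset])
    have hWpos : (0 : ℝ) < W.card := by exact_mod_cast card_pos.2 hWne
    have h2 : Real.log S.card ≤ J * Real.log W.card := by
      rw [← Real.log_pow]
      exact Real.log_le_log (by exact_mod_cast card_pos.2 hSne) (by exact_mod_cast h1)
    have h3 : Real.log W.card ≤ (δ : ℝ) / 8 * n₀ := by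
      refine (Real.log_le_log hWpos hWc).trans ?_
      rw [Real.log_rpow two_pos]
      exact mul_le_of_le_one_right (by positivity) (by linarith [Real.log_two_lt_d9])
    have h4 : (J : ℝ) * n₀ ≤ n + 2 * m + n₀ := by
      have : J * n₀ ≤ n + 2 * m + n₀ := by
        rw [hJ, Nat.succ_mul]
        linarith [Nat.div_mul_le_self (n + 2 * m) n₀]
      exact_mod_cast this
    calc Real.log S.card ≤ J * ((δ : ℝ) / 8 * n₀) :=
          h2.trans (mul_le_mul_of_nonneg_left h3 (Nat.cast_nonneg _))
      _ = (J * n₀ : ℝ) * ((δ : ℝ) / 8) := by ring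
      _ ≤ _ := mul_le_mul_of_nonneg_right h4 (by positivity)
  have hnear : ∀ᵐ x ∂μ, ∃ u ∈ S, ((univ.filter fun t : Fin n =>
      u t ≠ f (shift^[t] x)).card : ℝ) ≤
      ∑ t : Fin n, D.indicator (fun _ => (1 : ℝ)) (shift^[t] x) := by
    filter_upwards [ae_all_iff.2 fun j : Fin J => hWp (-(m : ℤ) + ((j : ℕ) * n₀ : ℕ))] with x hx
    refine ⟨Ψ fun j => win (-(m : ℤ) + ((j : ℕ) * n₀ : ℕ)) n₀ x,
      mem_image_of_mem _ (Fintype.mem_piFinset.2 hx), le_of_eq ?_⟩
    have hΨt : ∀ t : Fin n, Ψ (fun j => win (-(m : ℤ) + ((j : ℕ) * n₀ : ℕ)) n₀ x) t =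
        h (centred m (shift^[t] x)) := fun t => by
      simp only [hΨ]
      congr 1
      funext i
      simp only [centred, win, shift_iterate]
      congr 1
      have := congrArg (fun a : ℕ => (a : ℤ)) (Nat.div_add_mod' ((t : ℕ) + i) n₀)
      push_cast at this ⊢
      linarith
    rw [← sum_boole]
    refine sum_congr rfl fun t _ => ?_
    simp only [hΨt, hDdef, Set.indicator_apply, Set.mem_ofPred_eq, ne_comm]
  have hint : ∀ t : Fin n, Integrable
      (fun x => D.indicator (fun _ => (1 : ℝ)) (shift^[t] x)) μ := fun t =>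
    (hpres.iterate t).integrable_comp_of_integrable ((integrable_const (1 : ℝ)).indicator hDm)
  have hdη : ∫ x, (∑ t : Fin n, D.indicator (fun _ => (1 : ℝ)) (shift^[t] x)) ∂μ ≤ n * η := by
    rw [integral_finsetSum _ fun t _ => hint t]
    refine (sum_le_sum (g := fun _ => η) fun t _ => le_of_eq_of_le ?_ hD).trans (by simp)
    rw [← integral_map (hpres.iterate t).measurable.aemeasurable
      ((stronglyMeasurable_const.indicator hDm).aestronglyMeasurable),
      (hpres.iterate t).map_eq, integral_indicator_const _ hDm]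
    simp
  refine (nameEntropy_le hf hSne hζ hζ1 hScard (integrable_finsetSum _ fun t _ => hint t) hdη
    hnear).trans ?_
  rw [hlog, ← hbdef]
  have hηb : η * b ≤ (δ : ℝ) / 4 := by
    rw [hηdef, div_mul_eq_mul_div, div_le_div_iff₀ (by positivity) (by norm_num)]
    nlinarith
  have hnn : (2 : ℝ) * m + n₀ ≤ n := by exact_mod_cast (show 2 * m + n₀ ≤ n by omega)
  nlinarith [mul_le_mul_of_nonneg_left hηb hnR.le, mul_le_mul_of_nonneg_left hnn hδ'.le]

end Vale.Agent.P109
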