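import Vale.Agent.P109.Spec

/-!
P109: maps given, up to every exponential precision, by polynomial tables of subexponential size.
-/

namespace Vale.Agent.P109

open MeasureTheory Filter Topology
open scoped ContDiff

universe u v

/-- Polynomial tables of size `2 ^ f n` describing a map up to every exponential precision. -/
structure GenSystem (f : ℕ → ℝ) (d : ℕ) {M : Type u} [MeasurableSpace M] (ν : Measure M)
    (S : M → M) where
  N : ℕ
  U : Fin N → Set M
  z : Fin N → M → Fin d → ℝ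
  meas_U : ∀ i, MeasurableSet (U i)
  meas_z : ∀ i, Measurable (z i)
  cover : ∀ x, ∃ i, x ∈ U i
  ac : ∀ i, (ν.restrict (U i)).map (z i) ≪ volume
  pull : ∀ (i : Fin N) (A : Set M), MeasurableSet A →
    ∃ B : Set (Fin d → ℝ), MeasurableSet B ∧ ∀ x ∈ U i, z i x ∈ B ↔ x ∈ A
  Λ : ℝ
  scheme : ∀ K : ℕ, ∀ᶠ n : ℕ in atTop,
    ∃ (Nb r : ℕ) (ctr : Fin N → Fin Nb → Fin d → ℝ) (rad : Fin N → Fin Nb → ℝ)
      (target : Fin N → Fin Nb → Fin N),
      ((Nb * (r ^ d + 1) + 1 : ℕ) : ℝ) ≤ (2 : ℝ) ^ f n ∧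
      (∀ i b, (2⁻¹ : ℝ) ^ n ≤ rad i b ∧ rad i b ≤ (2 : ℝ) ^ n ∧ ‖ctr i b‖ ≤ (2 : ℝ) ^ n) ∧
      (∀ i, ∀ x ∈ U i, ∃ b, ‖z i x - ctr i b‖ < rad i b) ∧
      (∀ i b, ∀ x ∈ U i, ‖z i x - ctr i b‖ < 3 * rad i b → S x ∈ U (target i b)) ∧
      ∀ i b, ∃ c : (Fin d → Fin r) → (Fin d → ℝ),
        (∀ α, ‖c α‖ ≤ (2 : ℝ) ^ (n ^ 2)) ∧
        (∀ v w : Fin d → ℝ, ‖v‖ ≤ 1 → ‖w‖ ≤ 1 →
          ‖peval c v - peval c w‖ ≤ Λ * (4 * rad i b) * ‖v - w‖) ∧
        ∀ x ∈ U i, ‖z i x - ctr i b‖ < 3 * rad i b →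
          ‖z (target i b) (S x) - peval c (rel (ctr i b) (rad i b) (z i x))‖
            ≤ (2⁻¹ : ℝ) ^ (K * n)

/-- Such systems have names in one small catalogue for each size function. -/
def CountGenSpec : Prop :=
  ∀ f : ℕ → ℝ, Tendsto (fun n : ℕ => f n / n) atTop (𝓝 0) →
    ∃ C : ∀ n, Finset (Word n → ℝ), Small C ∧
      ∀ (d : ℕ) {M : Type u} [MeasurableSpace M] (ν : Measure M) [IsProbabilityMeasure ν]
        (S : M → M), MeasurePreserving S ν ν → Nonempty (GenSystem f d ν S) →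
        ∀ g : M → Bool, Measurable g → ∀ δ : ℝ, 0 < δ →
          ∀ᶠ n : ℕ in atTop, ∃ c ∈ C n, Near δ (procLaw ν S g n) c

/-- Derivative growth of a map in the charts: near every point, in every pair of the atlas's
charts, the derivatives of order `j` are at most `A ^ (j + 1) * R j` for some local `A`. -/
def GrowthBound (R : ℕ → ℝ) {d : ℕ} {H : Type v} [TopologicalSpace H]
    (I : ModelWithCorners ℝ (EuclideanSpace ℝ (Fin d)) H) {M : Type u} [TopologicalSpace M]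
    [ChartedSpace H M] (S : M → M) : Prop :=
  ∀ x y p : M, p ∈ (extChartAt I x).source → S p ∈ (extChartAt I y).source →
    ∃ A ρ : ℝ, 0 < ρ ∧ ∀ q ∈ Set.range I, dist q (extChartAt I x p) < ρ → ∀ j : ℕ,
      ‖iteratedFDerivWithin ℝ j (fun w => extChartAt I y (S ((extChartAt I x).symm w)))
          (Set.range I) q‖ ≤ A ^ (j + 1) * R j

/-- Bounded derivative growth gives tables of a fixed subexponential size. -/
def SmoothSpec : Prop :=
  ∀ R : ℕ → ℝ, ∃ f : ℕ → ℝ, Tendsto (fun n : ℕ => f n / n) atTop (𝓝 0) ∧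
    (∀ n : ℕ, Real.sqrt n ≤ f n) ∧
    ∀ (d : ℕ) {H : Type v} [TopologicalSpace H]
      (I : ModelWithCorners ℝ (EuclideanSpace ℝ (Fin d)) H)
      {M : Type u} [TopologicalSpace M] [ChartedSpace H M] [IsManifold I ∞ M]
      [CompactSpace M] [T2Space M] [MeasurableSpace M] [BorelSpace M]
      (ν : Measure M) [IsProbabilityMeasure ν],
      (∀ x : M, (ν.restrict (extChartAt I x).source).map (extChartAt I x) ≪ volume) →
      ∀ S : M → M, ContMDiff I I ∞ S → GrowthBound R I S → Nonempty (GenSystem f d ν S)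

/-- A polynomial description gives tables of any size above `2 ^ √n`. -/
def PolyGenSpec : Prop :=
  ∀ f : ℕ → ℝ, (∀ n : ℕ, Real.sqrt n ≤ f n) →
    ∀ (d : ℕ) {M : Type u} [MeasurableSpace M] (ν : Measure M) (S : M → M),
      PolySystem d ν S → Nonempty (GenSystem f d ν S)

end Vale.Agent.P109
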