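import Vale.Agent.P109.Blocks

/-!
P109: a chain of codes carries an ergodic shift-invariant measure.
-/

namespace Vale.Agent.P109

open MeasureTheory Filter Topology Finset Set

open scoped ENNReal

/-- A periodic sequence read from position `s`. -/
def orbit (L : ℕ) (y : ℕ → Bool) (s : ℕ) : ℤ → Bool := fun i => y (((s : ℤ) + i) % (L : ℤ)).toNat

/-- The uniform law on the shifts of a periodic sequence. -/
noncomputable def periodicLaw (L : ℕ) (y : ℕ → Bool) : Measure (ℤ → Bool) :=
  (L : ℝ≥0∞)⁻¹ • ∑ s ∈ Finset.range L, Measure.dirac (orbit L y s)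

theorem periodicLaw_prob {L : ℕ} (hL : 0 < L) (y : ℕ → Bool) :
    IsProbabilityMeasure (periodicLaw L y) := by
  constructor
  simp only [periodicLaw, Measure.smul_apply, Measure.finsetSum_apply, measure_univ,
    Finset.sum_const, Finset.card_range, nsmul_eq_mul, mul_one, smul_eq_mul]
  exact ENNReal.inv_mul_cancel (by exact_mod_cast hL.ne') (ENNReal.natCast_ne_top L)

theorem periodicLaw_real {L : ℕ} (y : ℕ → Bool) {S : Set (ℤ → Bool)}
    (hS : MeasurableSet S) :
    (periodicLaw L y).real S =
      (∑ s ∈ Finset.range L, S.indicator (fun _ => (1 : ℝ)) (orbit L y s)) / L := by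
  classical
  rw [measureReal_def, periodicLaw, Measure.smul_apply, Measure.finsetSum_apply]
  simp only [Measure.dirac_apply' _ hS, smul_eq_mul]
  rw [ENNReal.toReal_mul, ENNReal.toReal_inv, ENNReal.toReal_natCast, inv_mul_eq_div,
    ENNReal.toReal_sum fun s _ => by by_cases h : orbit L y s ∈ S <;> simp [h]]
  congr 1
  refine Finset.sum_congr rfl fun s _ => ?_
  by_cases h : orbit L y s ∈ S <;> simp [h]

theorem shift_orbit (L : ℕ) (y : ℕ → Bool) (s : ℕ) :
    shift (orbit L y s) = orbit L y (s + 1) := by
  funext i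
  simp only [shift, orbit]
  congr 2
  push_cast
  ring_nf

theorem orbit_period (L : ℕ) (y : ℕ → Bool) : orbit L y L = orbit L y 0 := by
  funext i
  simp [orbit]

theorem periodicLaw_map (L : ℕ) (y : ℕ → Bool) :
    (periodicLaw L y).map shift = periodicLaw L y := by
  rw [periodicLaw, Measure.map_smul]
  congr 1
  rw [← Measure.mapₗ_apply_of_measurable measurable_shift, map_sum]
  simp only [Measure.mapₗ_apply_of_measurable measurable_shift,
    Measure.map_dirac' measurable_shift, shift_orbit]
  cases L with
  | zero => simp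
  | succ L =>
    rw [Finset.sum_range_succ' (fun s => Measure.dirac (orbit (L + 1) y s)),
      Finset.sum_range_succ (fun s => Measure.dirac (orbit (L + 1) y (s + 1))), orbit_period]

theorem orbit_apply (L : ℕ) (y : ℕ → Bool) (s t : ℕ) :
    orbit L y s (t : ℤ) = y ((s + t) % L) := by
  simp only [orbit]
  congr 1

theorem sum_rotate {B : ℕ} (f : ℕ → ℝ) :
    ∑ b ∈ Finset.range B, f ((b + 1) % B) = ∑ b ∈ Finset.range B, f b := by
  cases B with
  | zero => simp
  | succ B =>
    rw [Finset.sum_range_succ, Finset.sum_range_succ' f, Nat.mod_self]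
    congr 1
    exact Finset.sum_congr rfl fun b hb => by
      rw [Nat.mod_eq_of_lt (by simp only [Finset.mem_range] at hb; omega)]

theorem sum_mul_range (B n : ℕ) (f : ℕ → ℝ) :
    ∑ s ∈ Finset.range (B * n), f s =
      ∑ b ∈ Finset.range B, ∑ t ∈ Finset.range n, f (b * n + t) := by
  induction B with
  | zero => simp
  | succ B ih => rw [Finset.sum_range_succ, ← ih, Nat.succ_mul, Finset.sum_range_add]

theorem real_win_singleton (P : Code) (μ : Measure (ℤ → Bool)) (v : Word (2 * P.n)) :
    wordLaw μ (2 * P.n) v = μ.real (win 0 (2 * P.n) ⁻¹' {v}) :=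
  wordLaw_eq μ _ v

/-- The periodic law of a sequence made of rounds splits into three-word windows. -/
theorem decomp_periodic {P : Code} {M : ℕ} (hM : 0 < M) {y : ℕ → Bool} (h : Built P M y) :
    Decomp P (wordLaw (periodicLaw (M * 2 ^ P.e * P.n) y) (2 * P.n)) := by
  classical
  obtain ⟨φ, hφ, hy⟩ := h
  set B := M * 2 ^ P.e with hB
  set n := P.n with hn
  have hn0 : 0 < n := P.n_pos
  have hB0 : 0 < B := Nat.mul_pos hM (Nat.two_pow_pos _)
  set τ : ℕ → Fin P.n × Fin (2 ^ P.e) × Fin (2 ^ P.e) × Fin (2 ^ P.e) := fun s =>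
    (⟨s % n, Nat.mod_lt _ hn0⟩, φ (s / n % B), φ ((s / n + 1) % B), φ ((s / n + 2) % B)) with hτ
  refine ⟨fun r i j l =>
    (∑ s ∈ Finset.range (B * n), if τ s = (r, i, j, l) then (1 : ℝ) else 0) / (B * n : ℕ),
    fun r i j l => div_nonneg (Finset.sum_nonneg fun s _ => by split_ifs <;> norm_num)
      (Nat.cast_nonneg _), fun j => ?_, fun v => ?_⟩
  · simp only [← Finset.sum_div]
    have h1 : (∑ r, ∑ i, ∑ l, ∑ s ∈ Finset.range (B * n),
          if τ s = (r, i, j, l) then (1 : ℝ) else 0) =
        ∑ s ∈ Finset.range (B * n), if φ ((s / n + 1) % B) = j then (1 : ℝ) else 0 := by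
      simp only [Finset.sum_comm (t := Finset.range (B * n))]
      refine Finset.sum_congr rfl fun s _ => ?_
      simp [hτ, Prod.ext_iff, ite_and]
    have h2 : (∑ s ∈ Finset.range (B * n), if φ ((s / n + 1) % B) = j then (1 : ℝ) else 0) =
        (n : ℝ) * M := by
      rw [sum_mul_range]
      have h3 : ∀ b ∈ Finset.range B, (∑ t ∈ Finset.range n,
          if φ (((b * n + t) / n + 1) % B) = j then (1 : ℝ) else 0) =
          n * (fun c => if φ c = j then (1 : ℝ) else 0) ((b + 1) % B) := by
        intro b _
        rw [Finset.sum_congr rfl (g := fun _ => if φ ((b + 1) % B) = j then (1 : ℝ) else 0)]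
        · simp
        · intro t ht
          rw [mul_comm b n, Nat.mul_add_div hn0, Nat.div_eq_of_lt (Finset.mem_range.1 ht),
            add_zero]
      rw [Finset.sum_congr rfl h3, ← Finset.mul_sum,
        sum_rotate (fun c => if φ c = j then (1 : ℝ) else 0), hB, sum_mul_range]
      congr 1
      rw [Finset.sum_congr rfl (g := fun _ => (1 : ℝ))]
      · simp
      · intro R hR
        rw [← Fin.sum_univ_eq_sum_range (fun c => if φ (R * 2 ^ P.e + c) = j then (1 : ℝ) else 0),
          (hφ R (Finset.mem_range.1 hR)).sum_comp (fun c => if c = j then (1 : ℝ) else 0)]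
        simp
    rw [h1, h2, hB]
    push_cast
    have : (n : ℝ) ≠ 0 := by exact_mod_cast hn0.ne'
    have : (M : ℝ) ≠ 0 := by exact_mod_cast hM.ne'
    field_simp
  · have hseg : ∀ s ∈ Finset.range (B * n), win 0 (2 * P.n) (orbit (B * n) y s) =
        P.seg (τ s).1 (τ s).2.1 (τ s).2.2.1 (τ s).2.2.2 := by
      intro s _
      funext t
      have key : ∀ a u : ℕ, u < n → s % n + t = a * n + u →
          orbit (B * n) y s ((t : ℕ) : ℤ) = P.word (φ ((s / n + a) % B)) u := by
        intro a u hu hau
        rw [orbit_apply]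
        have h1 : s + (t : ℕ) = (s / n + a) * n + u := by
          conv_lhs => rw [← Nat.div_add_mod' s n]
          linarith
        have h2 : ((s / n + a) * n + u) % (B * n) = (s / n + a) % B * n + u := by
          have hlt : (s / n + a) % B * n + u < B * n :=
            calc (s / n + a) % B * n + u < (s / n + a) % B * n + n := Nat.add_lt_add_left hu _
              _ = ((s / n + a) % B + 1) * n := by ring
              _ ≤ B * n := Nat.mul_le_mul_right _ (Nat.mod_lt _ hB0)
          conv_lhs => rw [← Nat.div_add_mod' (s / n + a) B,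
            show ((s / n + a) / B * B + (s / n + a) % B) * n + u =
              ((s / n + a) % B * n + u) + (s / n + a) / B * (B * n) by ring]
          rw [Nat.add_mul_mod_self_right, Nat.mod_eq_of_lt hlt]
        rw [h1, h2]
        exact hy _ (Nat.mod_lt _ hB0) _ hu
      have ht := t.isLt
      have hr : s % n < n := Nat.mod_lt _ hn0
      simp only [win, zero_add, Code.seg, hτ, ← hn]
      split_ifs with ha hb
      · simpa using key 0 _ ha (by simp)
      · exact key 1 _ (by omega) (by omega)
      · exact key 2 _ (by omega) (by omega)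
    rw [real_win_singleton, periodicLaw_real y (measurableSet_win _ _ _)]
    have h4 : ∀ r i j l, (if P.seg r i j l = v then (∑ s ∈ Finset.range (B * n),
          if τ s = (r, i, j, l) then (1 : ℝ) else 0) / (B * n : ℕ) else 0) =
        (∑ s ∈ Finset.range (B * n),
          if τ s = (r, i, j, l) then (if P.seg r i j l = v then (1 : ℝ) else 0) else 0) /
            (B * n : ℕ) := by
      intro r i j l
      split_ifs with hv <;> simp
    simp only [h4, ← Finset.sum_div]
    congr 1
    simp only [Finset.sum_comm (t := Finset.range (B * n))]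
    refine Finset.sum_congr rfl fun s hs => ?_
    rw [Set.indicator_apply, Set.mem_preimage, Set.mem_singleton_iff, hseg s hs]
    simp [Prod.ext_iff, ite_and]

theorem isClosed_decomp (P : Code) :
    IsClosed {law : Word (2 * P.n) → ℝ | Decomp P law} := by
  classical
  set K : Set (Fin P.n → Fin (2 ^ P.e) → Fin (2 ^ P.e) → Fin (2 ^ P.e) → ℝ) :=
    {w | (∀ s i j l, 0 ≤ w s i j l) ∧
      ∀ j, ∑ s, ∑ i, ∑ l, w s i j l = ((2 : ℝ) ^ P.e)⁻¹} with hK
  have hKc : IsCompact K := by
    refine (isCompact_Icc (a := fun _ _ _ _ => (0 : ℝ)) (b := fun _ _ _ _ => (1 : ℝ))).of_isClosed_subset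
      ?_ fun w hw => ⟨fun s i j l => hw.1 s i j l, fun s i j l => ?_⟩
    · simp only [hK, Set.ofPred_and, Set.ofPred_forall]
      exact (isClosed_iInter fun s => isClosed_iInter fun i => isClosed_iInter fun j =>
        isClosed_iInter fun l => isClosed_le continuous_const (by fun_prop)).inter
          (isClosed_iInter fun j => isClosed_eq (by fun_prop) continuous_const)
    · calc w s i j l ≤ ∑ l', w s i j l' :=
            Finset.single_le_sum (fun l' _ => hw.1 s i j l') (Finset.mem_univ l)
        _ ≤ ∑ i', ∑ l', w s i' j l' := Finset.single_le_sum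
            (f := fun i' => ∑ l', w s i' j l')
            (fun i' _ => Finset.sum_nonneg fun l' _ => hw.1 s i' j l') (Finset.mem_univ i)
        _ ≤ ∑ s', ∑ i', ∑ l', w s' i' j l' := Finset.single_le_sum
            (f := fun s' => ∑ i', ∑ l', w s' i' j l')
            (fun s' _ => Finset.sum_nonneg fun i' _ =>
              Finset.sum_nonneg fun l' _ => hw.1 s' i' j l') (Finset.mem_univ s)
        _ ≤ 1 := by rw [hw.2 j]; exact inv_le_one_of_one_le₀ (one_le_pow₀ one_le_two)
  have him : {law : Word (2 * P.n) → ℝ | Decomp P law} =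
      (fun w (v : Word (2 * P.n)) =>
        ∑ s, ∑ i, ∑ j, ∑ l, if P.seg s i j l = v then w s i j l else 0) '' K := by
    ext law
    exact ⟨fun ⟨w, h1, h2, h3⟩ => ⟨w, ⟨h1, h2⟩, (funext h3).symm⟩,
      fun ⟨w, ⟨h1, h2⟩, h⟩ => ⟨w, h1, h2, fun v => (congrFun h v).symm⟩⟩
  rw [him]
  refine (hKc.image ?_).isClosed
  refine continuous_pi fun v => ?_
  refine continuous_finsetSum _ fun s _ => continuous_finsetSum _ fun i _ =>
    continuous_finsetSum _ fun j _ => continuous_finsetSum _ fun l _ => ?_
  split_ifs <;> fun_prop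

/-- Almost every window of a law of three-word windows is cut from three consecutive words. -/
theorem ae_window {P : Code} {μ : Measure (ℤ → Bool)} [IsFiniteMeasure μ]
    (h : Decomp P (wordLaw μ (2 * P.n))) :
    ∀ᵐ x ∂μ, ∃ s i j l, win 0 (2 * P.n) x = P.seg s i j l := by
  classical
  obtain ⟨w, -, -, hlaw⟩ := h
  set V : Finset (Word (2 * P.n)) :=
    Finset.univ.filter fun v => ¬ ∃ s i j l, v = P.seg s i j l with hV
  have h0 : μ.real (win 0 (2 * P.n) ⁻¹' (V : Set (Word (2 * P.n)))) = 0 := by
    rw [← real_win_finset]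
    refine Finset.sum_eq_zero fun v hv => ?_
    simp only [hV, Finset.mem_filter, Finset.mem_univ, true_and, not_exists] at hv
    rw [hlaw v]
    refine Finset.sum_eq_zero fun s _ => Finset.sum_eq_zero fun i _ => Finset.sum_eq_zero
      fun j _ => Finset.sum_eq_zero fun l _ => if_neg fun e => hv s i j l e.symm
  refine ae_iff.2 ?_
  rw [measureReal_eq_zero_iff] at h0
  refine measure_mono_null (fun x hx => ?_) h0
  simp only [Set.mem_ofPred_eq] at hx
  simp only [Set.mem_preimage, hV, Finset.coe_filter, Finset.mem_univ, true_and, Set.mem_ofPred_eq]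
  exact hx

/-- Window frequencies are almost surely close to a constant over long windows. -/
theorem freq_close {P : ℕ → Code} (hc : ∀ k, Composite (P k) (P (k + 1)))
    (hs : StrictMono fun k => (P k).n) {μ : Measure (ℤ → Bool)} [IsFiniteMeasure μ]
    (hd : ∀ k, Decomp (P k) (wordLaw μ (2 * (P k).n))) (m : ℕ) (W : Set (Word m)) {η : ℝ}
    (hη : 0 < η) :
    ∃ (c : ℝ) (N : ℕ), 0 < N ∧ ∀ᵐ x ∂μ,
      |(∑ t ∈ Finset.range N, (win 0 m ⁻¹' W).indicator (fun _ => (1 : ℝ)) (shift^[t] x)) / N
        - c| ≤ η := by
  classical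
  obtain ⟨k, hk⟩ := exists_nat_gt (12 * (m : ℝ) / η)
  have hkn : 12 * (m : ℝ) / η < (P k).n :=
    hk.trans_le (by exact_mod_cast hs.id_le k)
  obtain ⟨c, hcount⟩ := built_count (P := P k) W
  set G : ℕ := 2 ^ (P k).e * (P k).n with hG
  obtain ⟨L₀, hL₀⟩ := exists_nat_gt (4 * (G : ℝ) / η)
  set L := max (max L₀ (k + 1)) m with hLdef
  have hLn : L ≤ (P L).n := hs.id_le L
  obtain ⟨M, hM, hB⟩ := built_of_chain hc (show k < L by omega)
  refine ⟨c, (P L).n, (P L).n_pos, ?_⟩
  filter_upwards [ae_window (hd L)] with x hx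
  obtain ⟨s, i, j, l, hseg⟩ := hx
  set y : ℕ → Bool := fun t => if t < (P L).n then (P L).word i t
    else if t < 2 * (P L).n then (P L).word j (t - (P L).n) else (P L).word l (t - 2 * (P L).n) with hy
  have hy3 : Built (P k) (3 * M) y := by
    refine built_concat hM (z := fun b => if b = 0 then (P L).word i
      else if b = 1 then (P L).word j else (P L).word l) (fun b _ => ?_) fun b hb t ht => ?_
    · split_ifs <;> exact hB _
    · have hn0 := (P L).n_pos
      interval_cases b
      · simp [hy, ht]
      · have h1 : ¬ 1 * (P L).n + t < (P L).n := by omega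
        have h2 : 1 * (P L).n + t < 2 * (P L).n := by omega
        simp only [hy, if_neg h1, if_pos h2, if_neg one_ne_zero, if_pos]
        congr 1
        omega
      · have h1 : ¬ 2 * (P L).n + t < (P L).n := by omega
        have h2 : ¬ 2 * (P L).n + t < 2 * (P L).n := by omega
        simp only [hy, if_neg h1, if_neg h2]
        simp
  have hsN : (s : ℕ) + (P L).n ≤ 3 * M * (2 ^ (P k).e * (P k).n) := by
    have := s.isLt
    calc (s : ℕ) + (P L).n ≤ 3 * (P L).n := by omega
      _ = 3 * M * (2 ^ (P k).e * (P k).n) := by rw [hM]; ring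
  have hb := hcount _ y hy3 s (P L).n hsN
  have hsum : (∑ t ∈ Finset.range (P L).n, W.indicator (fun _ => (1 : ℝ))
        fun a => y ((s : ℕ) + t + a)) =
      ∑ t ∈ Finset.range (P L).n, (win 0 m ⁻¹' W).indicator (fun _ => (1 : ℝ)) (shift^[t] x) := by
    refine Finset.sum_congr rfl fun t ht => ?_
    simp only [Finset.mem_range] at ht
    have hw : win 0 m (shift^[t] x) = fun a : Fin m => y ((s : ℕ) + t + a) := by
      rw [win_iterate]
      funext a
      have ha := a.isLt
      have hlt : t + (a : ℕ) < 2 * (P L).n := by omega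
      have h2 := congrFun hseg ⟨t + a, hlt⟩
      simp only [win, zero_add, Code.seg, Nat.cast_add] at h2 ⊢
      rw [h2, add_assoc]
    simp only [Set.indicator_apply, Set.mem_preimage, hw]
  rw [hsum] at hb
  have hnR : (0 : ℝ) < (P L).n := by exact_mod_cast (P L).n_pos
  have hMn : ((P L).n : ℝ) = M * G := by rw [hM, hG]; push_cast; ring
  have hkR : (0 : ℝ) < (P k).n := by exact_mod_cast (P k).n_pos
  have h1 : 12 * (m : ℝ) ≤ η * (P k).n := by
    rw [div_lt_iff₀ hη] at hkn
    linarith
  have h2 : 4 * (G : ℝ) ≤ η * (P L).n := by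
    rw [div_lt_iff₀ hη] at hL₀
    have : (L₀ : ℝ) ≤ (P L).n := by exact_mod_cast le_trans (by omega) hLn
    nlinarith
  rw [abs_le] at hb ⊢
  rw [le_sub_iff_add_le, sub_le_iff_le_add, div_le_iff₀ hnR, le_div_iff₀ hnR]
  have h3 : 2 * (((3 * M : ℕ) : ℝ) * (2 ^ (P k).e * m)) ≤ η / 2 * (P L).n := by
    rw [hMn, hG]
    push_cast
    nlinarith [mul_le_mul_of_nonneg_left h1
      (show (0 : ℝ) ≤ M * 2 ^ (P k).e by positivity)]
  have h4 : ((2 : ℝ) ^ (P k).e * (P k).n) = G := by rw [hG]; push_cast; ring
  rw [h4] at hb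
  constructor <;> nlinarith [hb.1, hb.2]

theorem limit : LimitSpec := by
  intro P hc hs
  classical
  have hpow : ∀ k, 0 < 2 ^ (P k).e := fun k => Nat.two_pow_pos _
  set μs : ℕ → ProbabilityMeasure (ℤ → Bool) := fun l =>
    ⟨periodicLaw (P l).n ((P l).word ⟨0, hpow l⟩), periodicLaw_prob (P l).n_pos _⟩ with hμs
  obtain ⟨μ, -, hle⟩ :=
    isCompact_univ.ultrafilter_le_nhds ((Ultrafilter.of (atTop : Filter ℕ)).map μs) (by simp)
  have hlim : Tendsto μs (Ultrafilter.of (atTop : Filter ℕ)) (𝓝 μ) := hle
  have hpres : MeasurePreserving shift (μ : Measure (ℤ → Bool)) μ := by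
    refine ⟨measurable_shift, ?_⟩
    have h1 := ((ProbabilityMeasure.continuous_map continuous_shift).tendsto μ).comp hlim
    have h2 : (fun l => (μs l).map continuous_shift.measurable.aemeasurable) = μs := by
      funext l
      exact Subtype.ext (periodicLaw_map _ _)
    have h4 : Tendsto μs (Ultrafilter.of (atTop : Filter ℕ))
        (𝓝 (μ.map continuous_shift.measurable.aemeasurable)) := by
      refine h1.congr fun l => ?_
      exact congrFun h2 l
    have h3 := tendsto_nhds_unique h4 hlim
    exact congrArg Subtype.val h3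
  have hd : ∀ k, Decomp (P k) (wordLaw (μ : Measure (ℤ → Bool)) (2 * (P k).n)) := by
    intro k
    show wordLaw (μ : Measure (ℤ → Bool)) (2 * (P k).n) ∈
      {law : Word (2 * (P k).n) → ℝ | Decomp (P k) law}
    refine IsClosed.mem_of_tendsto (b := (Ultrafilter.of (atTop : Filter ℕ) : Filter ℕ))
      (f := fun l => wordLaw (μs l : Measure (ℤ → Bool)) (2 * (P k).n)) (isClosed_decomp (P k))
      ?_ ?_
    · refine tendsto_pi_nhds.2 fun v => ?_
      simp only [wordLaw_eq, measureReal_def]
      exact (ENNReal.tendsto_toReal (measure_ne_top _ _)).comp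
        (ProbabilityMeasure.tendsto_measure_of_null_frontier_of_tendsto' hlim
          (by rw [(isClopen_win 0 _ _).frontier_eq]; simp))
    · refine Filter.Eventually.filter_mono (Ultrafilter.of_le _) ?_
      filter_upwards [eventually_gt_atTop k] with l hl
      obtain ⟨M, hM, hB⟩ := built_of_chain hc hl
      have hM0 : 0 < M := Nat.pos_of_ne_zero fun h => by
        have := (P l).n_pos
        simp [hM, h] at this
      show Decomp _ (wordLaw (periodicLaw (P l).n ((P l).word ⟨0, hpow l⟩)) _)
      rw [hM]
      exact decomp_periodic hM0 (hB _)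
  refine ⟨μ, inferInstance, ⟨hpres, ⟨fun A hA hinv => ?_⟩⟩, hd⟩
  rw [eventuallyConst_set']
  have key : ∀ η : ℝ, 0 < η → min ((μ : Measure (ℤ → Bool)).real A)
      (1 - (μ : Measure (ℤ → Bool)).real A) ≤ 2 * η := by
    intro η hη
    obtain ⟨m, W, hW⟩ := approx_of_measurable (μ := (μ : Measure (ℤ → Bool))) hA η hη
    have hit : ∀ t : ℕ, shift^[t] ⁻¹' A = A := fun t => by
      induction t with
      | zero => rfl
      | succ t ih => rw [Function.iterate_succ, Set.preimage_comp, ih, hinv]
    set D := symmDiff A (win 0 (2 * m + 1) ⁻¹' W) with hD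
    have hWm : MeasurableSet (win 0 (2 * m + 1) ⁻¹' W) := measurableSet_win _ _ _
    have hDm : MeasurableSet D := hA.symmDiff hWm
    have hDlt : (μ : Measure (ℤ → Bool)).real D < η := by
      have hpre : shift^[m] ⁻¹' (symmDiff A (centred m ⁻¹' W)) = D := by
        ext x
        have h1 : centred m (shift^[m] x) = win 0 (2 * m + 1) x := by
          rw [centred, win_iterate]; simp
        have h2 : shift^[m] x ∈ A ↔ x ∈ A := by rw [← Set.mem_preimage, hit m]
        simp only [hD, Set.mem_preimage, Set.mem_symmDiff, h1, h2]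
      rw [← hpre, measureReal_def, (hpres.iterate m).measure_preimage
        (hA.symmDiff (show MeasurableSet (centred m ⁻¹' W) from measurableSet_win _ _ _)).nullMeasurableSet]
      exact hW
    obtain ⟨c, N, hN, hfreq⟩ := freq_close hc hs hd (2 * m + 1) W hη
    set e : (ℤ → Bool) → ℝ := fun x =>
      (∑ t ∈ Finset.range N, D.indicator (fun _ => (1 : ℝ)) (shift^[t] x)) / N with he
    have hle : ∀ᵐ x ∂(μ : Measure (ℤ → Bool)),
        |A.indicator (fun _ => (1 : ℝ)) x - c| ≤ e x + η := by
      filter_upwards [hfreq] with x hx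
      have h1 : |A.indicator (fun _ => (1 : ℝ)) x - (∑ t ∈ Finset.range N,
          (win 0 (2 * m + 1) ⁻¹' W).indicator (fun _ => (1 : ℝ)) (shift^[t] x)) / N| ≤ e x := by
        have hN' : (0 : ℝ) < N := by exact_mod_cast hN
        have hA' : A.indicator (fun _ => (1 : ℝ)) x =
            (∑ t ∈ Finset.range N, A.indicator (fun _ => (1 : ℝ)) (shift^[t] x)) / N := by
          have : ∀ t, A.indicator (fun _ => (1 : ℝ)) (shift^[t] x) =
              A.indicator (fun _ => (1 : ℝ)) x := fun t => by
            have : shift^[t] x ∈ A ↔ x ∈ A := by rw [← Set.mem_preimage, hit t]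
            simp only [Set.indicator_apply, this]
          simp [this, hN.ne']
        rw [hA', ← sub_div, ← Finset.sum_sub_distrib, abs_div, abs_of_pos hN', he]
        refine div_le_div_of_nonneg_right ((Finset.abs_sum_le_sum_abs _ _).trans
          (Finset.sum_le_sum fun t _ => le_of_eq ?_)) hN'.le
        simp only [hD, Set.indicator_apply, Set.mem_symmDiff]
        split_ifs <;> simp_all
      exact (abs_sub_le _ _ _).trans (add_le_add h1 hx)
    have hint : ∀ (S : Set (ℤ → Bool)), MeasurableSet S → ∀ t : ℕ, Integrable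
        (fun x => S.indicator (fun _ => (1 : ℝ)) (shift^[t] x)) (μ : Measure (ℤ → Bool)) :=
      fun S hS t => (hpres.iterate t).integrable_comp_of_integrable
        ((integrable_const (1 : ℝ)).indicator hS)
    have hei : Integrable e (μ : Measure (ℤ → Bool)) :=
      (integrable_finsetSum _ fun t _ => hint D hDm t).div_const _
    have hAi : Integrable (fun x => |A.indicator (fun _ => (1 : ℝ)) x - c|)
        (μ : Measure (ℤ → Bool)) :=
      (((integrable_const (1 : ℝ)).indicator hA).sub (integrable_const c)).abs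
    have hmain := integral_mono_ae hAi (hei.add (integrable_const η)) hle
    have hr : ∫ x, (e x + η) ∂(μ : Measure (ℤ → Bool)) =
        (μ : Measure (ℤ → Bool)).real D + η := by
      rw [integral_add hei (integrable_const η), he, integral_div,
        integral_finsetSum _ fun t _ => hint D hDm t]
      have : ∀ t, ∫ x, D.indicator (fun _ => (1 : ℝ)) (shift^[t] x) ∂(μ : Measure (ℤ → Bool)) =
          (μ : Measure (ℤ → Bool)).real D := fun t => by
        rw [← integral_map (hpres.iterate t).measurable.aemeasurable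
          (by rw [(hpres.iterate t).map_eq]; exact
            ((stronglyMeasurable_const).indicator hDm).aestronglyMeasurable),
          (hpres.iterate t).map_eq, integral_indicator_const _ hDm]
        simp
      simp [this, hN.ne']
    have hl : ∫ x, |A.indicator (fun _ => (1 : ℝ)) x - c| ∂(μ : Measure (ℤ → Bool)) =
        |1 - c| * (μ : Measure (ℤ → Bool)).real A +
          |c| * (1 - (μ : Measure (ℤ → Bool)).real A) := by
      have : (fun x => |A.indicator (fun _ => (1 : ℝ)) x - c|) =
          A.indicator (fun _ => |1 - c| - |c|) + fun _ => |c| := by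
        funext x
        by_cases hx : x ∈ A <;> simp [hx]
      rw [this, integral_add' ((integrable_const _).indicator hA) (integrable_const _),
        integral_indicator_const _ hA]
      simp
      ring
    simp only [Pi.add_apply] at hmain
    rw [hl, hr] at hmain
    have hc1 : 1 ≤ |1 - c| + |c| := by
      have := abs_add_le (1 - c) c
      simpa using this
    have hmin1 := min_le_left ((μ : Measure (ℤ → Bool)).real A)
      (1 - (μ : Measure (ℤ → Bool)).real A)
    have hmin2 := min_le_right ((μ : Measure (ℤ → Bool)).real A)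
      (1 - (μ : Measure (ℤ → Bool)).real A)
    have hmin0 : 0 ≤ min ((μ : Measure (ℤ → Bool)).real A)
        (1 - (μ : Measure (ℤ → Bool)).real A) :=
      le_min measureReal_nonneg (sub_nonneg.2 measureReal_le_one)
    nlinarith [abs_nonneg (1 - c), abs_nonneg c]
  have hzero : min ((μ : Measure (ℤ → Bool)).real A)
      (1 - (μ : Measure (ℤ → Bool)).real A) ≤ 0 :=
    le_of_forall_pos_le_add fun ε hε => by linarith [key (ε / 2) (by linarith)]
  rcases min_le_iff.1 hzero with h | h
  · left
    rw [ae_eq_empty, ← measureReal_eq_zero_iff]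
    exact le_antisymm h measureReal_nonneg
  · right
    rw [ae_eq_univ, ← measureReal_eq_zero_iff, measureReal_compl hA, probReal_univ]
    exact le_antisymm h (sub_nonneg.2 measureReal_le_one)

end Vale.Agent.P109
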