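import Vale.Agent.P109.Defs

/-!
P109: maps given up to geometric error by polynomials on finitely many balls of finitely many
charts.
-/

namespace Vale.Agent.P109

open MeasureTheory

/-- A polynomial of degree below `r` in each of `d` variables, with vector coefficients. -/
def peval {d r : ℕ} (c : (Fin d → Fin r) → (Fin d → ℝ)) (v : Fin d → ℝ) : Fin d → ℝ :=
  ∑ a, (∏ i, v i ^ (a i : ℕ)) • c a

/-- The displacement from a centre in units of four radii. -/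
noncomputable def rel {d : ℕ} (ctr : Fin d → ℝ) (rad : ℝ) (y : Fin d → ℝ) : Fin d → ℝ :=
  (4 * rad)⁻¹ • (y - ctr)

universe u

/-- Polynomial description of a map preserving an absolutely continuous measure. -/
structure PolySystem (d : ℕ) {M : Type u} [MeasurableSpace M] (ν : Measure M) (S : M → M) where
  N : ℕ
  Nb : ℕ
  U : Fin N → Set M
  z : Fin N → M → Fin d → ℝ
  meas_U : ∀ i, MeasurableSet (U i)
  meas_z : ∀ i, Measurable (z i)
  cover : ∀ x, ∃ i, x ∈ U i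
  ac : ∀ i, (ν.restrict (U i)).map (z i) ≪ volume
  pull : ∀ (i : Fin N) (A : Set M), MeasurableSet A →
    ∃ B : Set (Fin d → ℝ), MeasurableSet B ∧ ∀ x ∈ U i, z i x ∈ B ↔ x ∈ A
  ctr : Fin N → Fin Nb → Fin d → ℝ
  rad : Fin N → Fin Nb → ℝ
  target : Fin N → Fin Nb → Fin N
  rad_pos : ∀ i b, 0 < rad i b
  ball_cover : ∀ i, ∀ x ∈ U i, ∃ b, ‖z i x - ctr i b‖ < rad i b
  ball_map : ∀ i b, ∀ x ∈ U i, ‖z i x - ctr i b‖ < 3 * rad i b → S x ∈ U (target i b)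
  L : ℝ
  C : ℝ
  a : ℝ
  a_nonneg : 0 ≤ a
  a_lt_one : a < 1
  poly : ∀ (r : ℕ) (i : Fin N) (b : Fin Nb), ∃ c : (Fin d → Fin r) → (Fin d → ℝ),
    (∀ α, ‖c α‖ ≤ C ^ (r + 1)) ∧
    (∀ v w : Fin d → ℝ, ‖v‖ ≤ 1 → ‖w‖ ≤ 1 → ‖peval c v - peval c w‖ ≤ L * ‖v - w‖) ∧
    ∀ x ∈ U i, ‖z i x - ctr i b‖ < 3 * rad i b →
      ‖z (target i b) (S x) - peval c (rel (ctr i b) (rad i b) (z i x))‖ ≤ C * a ^ r

end Vale.Agent.P109
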