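import Vale.Agent.P109.GenSpec
import Vale.Agent.P109.Count.Growth

/-!
P109: polynomial descriptions give tables of every size above `2 ^ √n`.
-/

namespace Vale.Agent.P109

open MeasureTheory Filter Topology

universe u

theorem polyGen : PolyGenSpec.{u} := by
  intro f hf d M _ ν S D
  set Λ := ∑ i, ∑ b, |D.L| / (4 * D.rad i b) with hΛdef
  have hΛnn : ∀ i b, 0 ≤ |D.L| / (4 * D.rad i b) := fun i b => by
    have := D.rad_pos i b
    positivity
  have hΛ : ∀ i b, |D.L| / (4 * D.rad i b) ≤ Λ := fun i b =>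
    (Finset.single_le_sum (fun b _ => hΛnn i b) (Finset.mem_univ b)).trans
      (Finset.single_le_sum (f := fun i => ∑ b, |D.L| / (4 * D.rad i b))
        (fun i _ => Finset.sum_nonneg fun b _ => hΛnn i b) (Finset.mem_univ i))
  refine ⟨{
    N := D.N
    U := D.U
    z := D.z
    meas_U := D.meas_U
    meas_z := D.meas_z
    cover := D.cover
    ac := D.ac
    pull := D.pull
    Λ := Λ
    scheme := ?_ }⟩
  intro K
  obtain ⟨k, hk⟩ : ∃ k : ℕ, D.a ^ k ≤ (2⁻¹ : ℝ) ^ (K + 1) :=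
    ((tendsto_pow_atTop_nhds_zero_of_lt_one D.a_nonneg D.a_lt_one).eventually
      (eventually_le_nhds (show (0 : ℝ) < (2⁻¹ : ℝ) ^ (K + 1) by positivity))).exists
  obtain ⟨p, hp⟩ : ∃ p : ℕ, |D.C| ≤ (2 : ℝ) ^ p :=
    ((tendsto_pow_atTop_atTop_of_one_lt one_lt_two).eventually_ge_atTop |D.C|).exists
  have hbig : ∀ x : ℝ, ∀ᶠ n : ℕ in atTop, x ≤ (2 : ℝ) ^ n := fun x =>
    (tendsto_pow_atTop_atTop_of_one_lt one_lt_two).eventually_ge_atTop x
  have hctr : ∀ᶠ n : ℕ in atTop, ∀ i b,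
      ((2⁻¹ : ℝ) ^ n ≤ D.rad i b ∧ D.rad i b ≤ (2 : ℝ) ^ n) ∧ ‖D.ctr i b‖ ≤ (2 : ℝ) ^ n :=
    eventually_all.2 fun i => eventually_all.2 fun b =>
      (((tendsto_pow_atTop_nhds_zero_of_lt_one (r := (2⁻¹ : ℝ)) (by norm_num) (by norm_num)).eventually
        (eventually_le_nhds (D.rad_pos i b))).and (hbig _)).and (hbig _)
  filter_upwards [eventually_poly_le ((D.Nb * (k ^ d + 1) + 1 : ℕ) : ℝ) d, hctr, hbig |D.C|,
    eventually_ge_atTop (p * k + p + 1)] with n hpoly hnum hCn hn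
  have hn1 : 1 ≤ n := by omega
  refine ⟨D.Nb, k * n, D.ctr, D.rad, D.target, ?_, fun i b =>
    ⟨(hnum i b).1.1, (hnum i b).1.2, (hnum i b).2⟩, D.ball_cover, D.ball_map, fun i b => ?_⟩
  · refine le_trans ?_ (hpoly.trans (Real.rpow_le_rpow_of_exponent_le one_le_two (hf n)))
    have hnd : 1 ≤ n ^ d := Nat.one_le_pow _ _ hn1
    have : D.Nb * ((k * n) ^ d + 1) + 1 ≤ (D.Nb * (k ^ d + 1) + 1) * n ^ d := by
      rw [mul_pow, show (D.Nb * (k ^ d + 1) + 1) * n ^ d =
        D.Nb * (k ^ d * n ^ d + n ^ d) + n ^ d by ring]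
      exact add_le_add (Nat.mul_le_mul_left _ (Nat.add_le_add_left hnd _)) hnd
    exact_mod_cast this
  · obtain ⟨c, hc1, hc2, hc3⟩ := D.poly (k * n) i b
    refine ⟨c, fun α => ?_, fun v w hv hw => ?_, fun x hx hx' => (hc3 x hx hx').trans ?_⟩
    · refine (hc1 α).trans ((le_abs_self _).trans ?_)
      rw [abs_pow]
      refine (pow_le_pow_left₀ (abs_nonneg _) hp _).trans ?_
      rw [← pow_mul]
      refine pow_le_pow_right₀ one_le_two ?_
      calc p * (k * n + 1) ≤ (p * k + p) * n := by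
            rw [Nat.mul_add, mul_one, Nat.add_mul, mul_assoc]
            exact Nat.add_le_add_left (Nat.le_mul_of_pos_right p hn1) _
        _ ≤ n * n := Nat.mul_le_mul_right _ (by omega)
        _ = n ^ 2 := (sq n).symm
    · have hr := D.rad_pos i b
      refine (hc2 v w hv hw).trans (mul_le_mul_of_nonneg_right ?_ (norm_nonneg _))
      calc D.L ≤ |D.L| := le_abs_self _
        _ = |D.L| / (4 * D.rad i b) * (4 * D.rad i b) := by field_simp
        _ ≤ _ := mul_le_mul_of_nonneg_right (hΛ i b) (by linarith)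
    · calc D.C * D.a ^ (k * n) ≤ (2 : ℝ) ^ n * ((2⁻¹ : ℝ) ^ (K + 1)) ^ n := by
            rw [pow_mul]
            exact mul_le_mul ((le_abs_self _).trans hCn)
              (pow_le_pow_left₀ (pow_nonneg D.a_nonneg _) hk n)
              (pow_nonneg (pow_nonneg D.a_nonneg _) _) (by positivity)
        _ = (2⁻¹ : ℝ) ^ (K * n) := by
            rw [← pow_mul, add_mul, one_mul, pow_add, inv_pow, inv_pow]
            field_simp

end Vale.Agent.P109
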