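import Vale.Agent.P109.GenSpec
import Vale.Agent.P109.Chart
import Vale.Agent.P109.Smooth.Scale
import Vale.Agent.P109.Smooth.Taylor

/-!
P109: smooth maps with bounded derivative growth have tables of subexponential size.
-/

namespace Vale.Agent.P109

open MeasureTheory Filter Topology Finset
open scoped ContDiff Nat

universe u v

/-! ### Cells -/

/-- The cell of a displacement among `2 ^ m * c` per direction. -/
noncomputable def cellKey {d : ℕ} (m W c : ℕ) (hc : 0 < c) (v : Fin d → ℝ) (l : Fin d) :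
    Fin (2 ^ m * c) :=
  ⟨min (⌊v l * (2 : ℝ) ^ m⌋ + (2 ^ m * W : ℕ)).toNat (2 ^ m * c - 1), by
    have : 0 < 2 ^ m * c := Nat.mul_pos (Nat.two_pow_pos m) hc
    omega⟩

theorem cellKey_eq {d : ℕ} {m W c : ℕ} {hc : 0 < c} (hW : 2 * W + 1 ≤ c) {v w : Fin d → ℝ}
    (hv : ‖v‖ ≤ W) (hw : ‖w‖ ≤ W) (h : cellKey m W c hc v = cellKey m W c hc w) :
    ‖v - w‖ < (2⁻¹ : ℝ) ^ m := by
  have hp : (0 : ℝ) < (2 : ℝ) ^ m := by positivity
  have hrange : ∀ (x : Fin d → ℝ) (_ : ‖x‖ ≤ W) (l : Fin d),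
      0 ≤ ⌊x l * (2 : ℝ) ^ m⌋ + (2 ^ m * W : ℕ) ∧
        ⌊x l * (2 : ℝ) ^ m⌋ + (2 ^ m * W : ℕ) < (2 ^ m * c : ℕ) := by
    intro x hx l
    have hxl : |x l| ≤ W := (norm_le_pi_norm x l).trans hx
    obtain ⟨h1, h2⟩ := abs_le.1 hxl
    have h3 : -((2 ^ m * W : ℕ) : ℤ) ≤ ⌊x l * (2 : ℝ) ^ m⌋ := Int.le_floor.2 (by
      push_cast
      nlinarith)
    have h4 : ⌊x l * (2 : ℝ) ^ m⌋ ≤ ((2 ^ m * W : ℕ) : ℤ) := by
      have h5 := (Int.floor_le (x l * (2 : ℝ) ^ m)).trans (mul_le_mul_of_nonneg_right h2 hp.le)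
      have h6 : ((⌊x l * (2 : ℝ) ^ m⌋ : ℤ) : ℝ) ≤ (((2 ^ m * W : ℕ) : ℤ) : ℝ) := by
        push_cast; linarith
      exact_mod_cast h6
    have h7 : 2 ^ m * (2 * W + 1) ≤ 2 ^ m * c := Nat.mul_le_mul_left _ hW
    have h8 : 2 ^ m * (2 * W + 1) = 2 * (2 ^ m * W) + 2 ^ m := by ring
    have h9 : 0 < 2 ^ m := Nat.two_pow_pos m
    constructor <;> omega
  rw [inv_pow]
  refine (pi_norm_lt_iff (inv_pos.2 hp)).2 fun l => ?_
  have hkey : ⌊v l * (2 : ℝ) ^ m⌋ = ⌊w l * (2 : ℝ) ^ m⌋ := by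
    have := congrArg Fin.val (congrFun h l)
    simp only [cellKey] at this
    obtain ⟨a1, a2⟩ := hrange v hv l
    obtain ⟨b1, b2⟩ := hrange w hw l
    omega
  have hd := Int.abs_sub_lt_one_of_floor_eq_floor hkey
  rw [← sub_mul, abs_mul, abs_of_pos hp] at hd
  rw [Pi.sub_apply, Real.norm_eq_abs]
  calc |v l - w l| = |v l - w l| * (2 : ℝ) ^ m * ((2 : ℝ) ^ m)⁻¹ := by field_simp
    _ < 1 * ((2 : ℝ) ^ m)⁻¹ := mul_lt_mul_of_pos_right hd (inv_pos.2 hp)
    _ = _ := one_mul _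

/-! ### From derivatives to one table entry -/

theorem poly_of_series {d r : ℕ} (ser : FormalMultilinearSeries ℝ (Euc d) (Euc d)) {rad B₀ B₁ : ℝ}
    (hrad : 0 ≤ rad) (hB₀ : ‖ser 0‖ ≤ B₀) (hB₁ : 0 ≤ B₁)
    (hB : ∀ k, 1 ≤ k → (16 * d * rad) ^ k * ‖ser k‖ ≤ B₁) :
    (∀ α, ‖boxCoef (r := r) ser (4 * rad) α‖ ≤ 2 * (B₀ + B₁)) ∧
      ∀ v w : Fin d → ℝ, ‖v‖ ≤ 1 → ‖w‖ ≤ 1 →
        ‖peval (boxCoef (r := r) ser (4 * rad)) v - peval (boxCoef (r := r) ser (4 * rad)) w‖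
          ≤ 2 * B₁ * ‖v - w‖ := by
  have h4 : (0 : ℝ) ≤ 4 * rad := by linarith
  have hB₀0 : 0 ≤ B₀ := (norm_nonneg _).trans hB₀
  have hscale : ∀ k, 1 ≤ k → ((d : ℝ) * (4 * rad)) ^ k * ‖ser k‖ ≤ B₁ * (1 / 4) ^ k := by
    intro k hk
    rw [show (d : ℝ) * (4 * rad) = 16 * d * rad * (1 / 4) by ring, mul_pow, mul_right_comm]
    exact mul_le_mul_of_nonneg_right (hB k hk) (by positivity)
  refine ⟨fun α => boxCoef_bound ser h4 (fun k => ?_) α, fun v w hv hw => ?_⟩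
  · rcases Nat.eq_zero_or_pos k with rfl | hk
    · simp only [pow_zero, one_mul, mul_one]; linarith
    · exact (hscale k hk).trans (mul_le_mul_of_nonneg_right (by linarith) (by positivity))
  · let ser' : FormalMultilinearSeries ℝ (Euc d) (Euc d) := fun k => if k = 0 then 0 else ser k
    have hsame : peval (boxCoef (r := r) ser (4 * rad)) v - peval (boxCoef (r := r) ser (4 * rad)) w
        = peval (boxCoef (r := r) ser' (4 * rad)) v
          - peval (boxCoef (r := r) ser' (4 * rad)) w := by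
      simp only [peval_boxCoef_eq, ← WithLp.ofLp_sub, FormalMultilinearSeries.partialSum,
        ← Finset.sum_sub_distrib]
      congr 1
      refine Finset.sum_congr rfl fun k _ => ?_
      simp only [ser']
      split_ifs with hk
      · subst hk
        simp only [ContinuousMultilinearMap.zero_apply, sub_zero]
        rw [sub_eq_zero]
        congr 1
        exact funext fun i => i.elim0
      · rfl
    rw [hsame]
    refine peval_boxCoef_lipschitz ser' h4 (fun k => ?_) v w hv hw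
    rcases Nat.eq_zero_or_pos k with rfl | hk
    · simp [ser', hB₁]
    · simp only [ser', if_neg hk.ne']
      exact hscale k hk

/-- One table entry from a truncated series with bounded derivative growth. -/
theorem table_entry {R : ℕ → ℝ} {d r K n m : ℕ} {B : ℝ} (hd : 16 * ((d : ℝ) + 1) ≤ B)
    (hr : 1 ≤ r) (hcell : (2⁻¹ : ℝ) ^ m ≤ 1)
    (hmid : ∀ k, 2 ≤ k → k < r → ∀ A : ℝ, 0 ≤ A → A ≤ B →
      (B * (2⁻¹ : ℝ) ^ m) ^ k * (A ^ (k + 1) * |R k|) ≤ (2⁻¹ : ℝ) ^ m)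
    (hrem : ∀ A : ℝ, 0 ≤ A → A ≤ B →
      A ^ (r + 1) * |R r| * (B * (2⁻¹ : ℝ) ^ m) ^ r ≤ (2⁻¹ : ℝ) ^ (K * n))
    (hbig : 2 * (B * |R 0| + (1 + 16 * d * B ^ 2 * |R 1|)) ≤ (2 : ℝ) ^ n)
    (ser : FormalMultilinearSeries ℝ (Euc d) (Euc d)) {A : ℝ} (hA0 : 0 ≤ A) (hAB : A ≤ B)
    (hserb : ∀ k, k < r → ‖ser k‖ ≤ A ^ (k + 1) * |R k|) (hser0 : ∀ k, r ≤ k → ser k = 0) :
    ∃ c : (Fin d → Fin r) → Fin d → ℝ, (∀ α, ‖c α‖ ≤ (2 : ℝ) ^ (n ^ 2)) ∧
      (∀ v w : Fin d → ℝ, ‖v‖ ≤ 1 → ‖w‖ ≤ 1 → ‖peval c v - peval c w‖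
        ≤ (1 + 16 * d * B ^ 2 * |R 1|) * (4 * (2⁻¹ : ℝ) ^ m) * ‖v - w‖) ∧
      ∀ (G z z₁ : Fin d → ℝ), ‖z - z₁‖ < 3 * (2⁻¹ : ℝ) ^ m →
        ‖G - WithLp.ofLp (ser.partialSum r (WithLp.toLp 2 (z - z₁)))‖
          ≤ A ^ (r + 1) * |R r| * ‖(WithLp.toLp 2 (z - z₁) : Euc d)‖ ^ r →
        ‖G - peval c (rel z₁ ((2⁻¹ : ℝ) ^ m) z)‖ ≤ (2⁻¹ : ℝ) ^ (K * n) := by
  set rad : ℝ := (2⁻¹ : ℝ) ^ m with hrad
  have hradpos : 0 < rad := by positivity
  set Λ : ℝ := 1 + 16 * d * B ^ 2 * |R 1| with hΛ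
  have hΛ0 : 0 ≤ Λ := by positivity
  have hd0 : (0 : ℝ) ≤ d := Nat.cast_nonneg d
  have hB1 : ∀ k, 1 ≤ k → (16 * (d : ℝ) * rad) ^ k * ‖ser k‖ ≤ Λ * rad := by
    intro k hk
    rcases Nat.lt_or_ge k r with hkr | hkr
    · refine (mul_le_mul_of_nonneg_left (hserb k hkr) (by positivity)).trans ?_
      rcases eq_or_lt_of_le hk with rfl | hk2
      · rw [pow_one, hΛ]
        calc 16 * (d : ℝ) * rad * (A ^ (1 + 1) * |R 1|)
            ≤ 16 * (d : ℝ) * rad * (B ^ 2 * |R 1|) := by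
              refine mul_le_mul_of_nonneg_left (mul_le_mul_of_nonneg_right ?_ (abs_nonneg _))
                (by positivity)
              exact pow_le_pow_left₀ hA0 hAB 2
          _ ≤ (1 + 16 * (d : ℝ) * B ^ 2 * |R 1|) * rad := by linarith
      · refine le_trans ?_ ((hmid k hk2 hkr _ hA0 hAB).trans
          (le_mul_of_one_le_left hradpos.le (le_add_of_nonneg_right (by positivity))))
        refine mul_le_mul_of_nonneg_right ?_ (by positivity)
        exact pow_le_pow_left₀ (by positivity)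
          (mul_le_mul_of_nonneg_right (by linarith) hradpos.le) k
    · rw [hser0 k hkr, norm_zero, mul_zero]; positivity
  obtain ⟨hcoef, hlip⟩ := poly_of_series (r := r) ser hradpos.le
    ((hserb 0 hr).trans (le_of_eq (by rw [zero_add, pow_one]))) (by positivity) hB1
  refine ⟨boxCoef ser (4 * rad), fun α => (hcoef α).trans ?_, fun v w hv hw =>
    (hlip v w hv hw).trans ?_, fun G z z₁ hz herr => ?_⟩
  · refine le_trans ?_ (le_trans hbig (pow_le_pow_right₀ one_le_two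
      (Nat.le_self_pow two_ne_zero n)))
    have h1 : A * |R 0| ≤ B * |R 0| := mul_le_mul_of_nonneg_right hAB (abs_nonneg _)
    have h2 : Λ * rad ≤ Λ := mul_le_of_le_one_right hΛ0 hcell
    linarith
  · refine mul_le_mul_of_nonneg_right ?_ (norm_nonneg _)
    have : 0 ≤ Λ * rad := by positivity
    linarith
  · have hrel : (4 * rad) • (WithLp.toLp 2 (rel z₁ rad z) : Euc d) = WithLp.toLp 2 (z - z₁) := by
      rw [rel, WithLp.toLp_smul, smul_smul, mul_inv_cancel₀ (by positivity), one_smul]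
    rw [peval_boxCoef_eq, hrel]
    refine herr.trans (le_trans (mul_le_mul_of_nonneg_left
      (pow_le_pow_left₀ (norm_nonneg _) ?_ r) (by positivity)) (hrem _ hA0 hAB))
    calc _ ≤ (d : ℝ) * ‖z - z₁‖ := norm_toLp_le _
      _ ≤ (d : ℝ) * (3 * rad) := mul_le_mul_of_nonneg_left hz.le hd0
      _ ≤ B * rad := by
          rw [← mul_assoc]; exact mul_le_mul_of_nonneg_right (by linarith) hradpos.le

/-- A centre is chosen in every occupied cell of every coarse ball. -/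
theorem exists_centres {M ι κ : Type*} [Nonempty M] {d : ℕ} (z : M → Fin d → ℝ) (K : Set M)
    (cen : ι → M) (s : ι → ℝ) (hcen : ∀ b, cen b ∈ K) (hs : ∀ b, 0 < s b) (key : ι → M → κ) :
    ∃ pt : ι × κ → M, (∀ b, pt b ∈ K ∧ ‖z (pt b) - z (cen b.1)‖ < s b.1) ∧
      ∀ b y, y ∈ K → ‖z y - z (cen b)‖ < s b → key b (pt (b, key b y)) = key b y := by
  have h : ∀ b : ι × κ, ∃ x, (x ∈ K ∧ ‖z x - z (cen b.1)‖ < s b.1) ∧
      ((∃ y, y ∈ K ∧ ‖z y - z (cen b.1)‖ < s b.1 ∧ key b.1 y = b.2) → key b.1 x = b.2) := by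
    intro b
    by_cases h : ∃ y, y ∈ K ∧ ‖z y - z (cen b.1)‖ < s b.1 ∧ key b.1 y = b.2
    · obtain ⟨y, h1, h2, h3⟩ := h
      exact ⟨y, ⟨h1, h2⟩, fun _ => h3⟩
    · exact ⟨cen b.1, ⟨hcen _, by simpa using hs _⟩, fun h' => absurd h' h⟩
  choose pt h1 h2 using h
  exact ⟨pt, h1, fun b y hy1 hy2 => h2 (b, key b y) ⟨y, hy1, hy2, rfl⟩⟩

section Manifold

variable {d : ℕ} {H : Type v} [TopologicalSpace H]
  (I : ModelWithCorners ℝ (EuclideanSpace ℝ (Fin d)) H)
  {M : Type u} [TopologicalSpace M] [ChartedSpace H M]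

/-- Near a point, derivative growth gives Taylor series at every nearby centre. -/
theorem local_smooth [IsManifold I ∞ M] {R : ℕ → ℝ} {S : M → M} (hS : ContMDiff I I ∞ S)
    (hR : GrowthBound R I S) {p q x₀ : M} {V : Set M} (hV : IsOpen V)
    (hVs : V ⊆ (extChartAt I q).source) (hx₀ : x₀ ∈ (extChartAt I p).source) (hSx₀ : S x₀ ∈ V) :
    ∃ s : ℝ, 0 < s ∧ ∃ A : ℝ, 1 ≤ A ∧
      (∀ x ∈ (extChartAt I p).source, ‖coord I p x - coord I p x₀‖ < 3 * s → S x ∈ V) ∧
      ∀ x₁ ∈ (extChartAt I p).source, ‖coord I p x₁ - coord I p x₀‖ < s → ∀ r : ℕ, 1 ≤ r →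
        ∃ ser : FormalMultilinearSeries ℝ (Euc d) (Euc d),
          (∀ k, k < r → ‖ser k‖ ≤ A ^ (k + 1) * |R k|) ∧ (∀ k, r ≤ k → ser k = 0) ∧
          ∀ x ∈ (extChartAt I p).source, ‖coord I p x - coord I p x₀‖ < 3 * s →
            ‖coord I q (S x) - WithLp.ofLp (ser.partialSum r
              (extChartAt I p x - extChartAt I p x₁))‖
              ≤ A ^ (r + 1) * |R r| * ‖extChartAt I p x - extChartAt I p x₁‖ ^ r := by
  set e := extChartAt I p with he
  set F : Euc d → Euc d := fun w => extChartAt I q (S (e.symm w)) with hF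
  set y₀ := e x₀ with hy₀
  obtain ⟨A₀, ρ, hρ, hbd⟩ := hR p q x₀ hx₀ (hVs hSx₀)
  have hcont : ∀ᶠ y in 𝓝[e.target] y₀, S (e.symm y) ∈ V := by
    have h1 : ContinuousWithinAt e.symm e.target y₀ :=
      continuousOn_extChartAt_symm p y₀ (e.map_source hx₀)
    have h2 : S ⁻¹' V ∈ 𝓝 (e.symm y₀) := by
      rw [e.left_inv hx₀]
      exact (hV.preimage hS.continuous).mem_nhds hSx₀
    exact h1 h2
  obtain ⟨η, hη, hball⟩ := Metric.mem_nhdsWithin_iff.mp hcont
  obtain ⟨η', hη', hball'⟩ :=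
    Metric.mem_nhdsWithin_iff.mp (extChartAt_target_mem_nhdsWithin' (I := I) hx₀)
  obtain ⟨T, hT0, hTη, hTη', hTρ⟩ : ∃ T, 0 < T ∧ T ≤ η ∧ T ≤ η' ∧ T ≤ ρ :=
    ⟨min (min η η') ρ, lt_min (lt_min hη hη') hρ, le_trans (min_le_left _ _) (min_le_left _ _),
      le_trans (min_le_left _ _) (min_le_right _ _), min_le_right _ _⟩
  set s : ℝ := T / (4 * (d + 1)) with hs_def
  have hs : 0 < s := div_pos hT0 (by positivity)
  have hpt : ∀ x ∈ e.source, ‖coord I p x - coord I p x₀‖ < 3 * s →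
      e x ∈ Metric.ball y₀ T ∩ Set.range I := by
    intro x hx hlt
    refine ⟨?_, extChartAt_target_subset_range p (e.map_source hx)⟩
    have h1 : ‖e x - y₀‖ ≤ d * ‖coord I p x - coord I p x₀‖ := by
      have h := norm_toLp_le (WithLp.ofLp (e x - y₀))
      rw [WithLp.toLp_ofLp, WithLp.ofLp_sub] at h
      rw [coord_eq I hx, coord_eq I hx₀]
      exact h
    rw [mem_ball_iff_norm]
    have h2 : (d : ℝ) * ‖coord I p x - coord I p x₀‖ ≤ d * (3 * s) :=
      mul_le_mul_of_nonneg_left hlt.le (Nat.cast_nonneg d)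
    have h3 : 4 * s * (d + 1) = T := by rw [hs_def]; field_simp
    nlinarith
  set D : Set (Euc d) := Metric.ball y₀ T ∩ Set.range I
  have hDt : D ⊆ e.target := fun y hy => hball' ⟨Metric.ball_subset_ball hTη' hy.1, hy.2⟩
  have hDV : ∀ y ∈ D, S (e.symm y) ∈ V := fun y hy =>
    hball ⟨Metric.ball_subset_ball hTη hy.1, hDt hy⟩
  have hDconv : Convex ℝ D := (convex_ball _ _).inter I.convex_range
  have hDu : UniqueDiffOn ℝ D := by
    rw [show D = Set.range I ∩ Metric.ball y₀ T from Set.inter_comm _ _]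
    exact I.uniqueDiffOn.inter Metric.isOpen_ball
  have hsm : ∀ r : ℕ, ContDiffOn ℝ r F D := fun r y hy => by
    have hys : e.symm y ∈ e.source := e.map_target (hDt hy)
    have h := ((contMDiffAt_iff_of_mem_source (by rwa [← extChartAt_source I])
      (by rw [← extChartAt_source I]; exact hVs (hDV y hy))).mp (hS (e.symm y))).2
    rw [← he, e.right_inv (hDt hy)] at h
    exact (h.mono Set.inter_subset_right).of_le (by exact_mod_cast le_top)
  refine ⟨s, hs, max |A₀| 1, le_max_right _ _, fun x hx hlt => ?_, fun x₁ hx₁ hlt₁ r hr => ?_⟩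
  · have := hDV _ (hpt x hx hlt)
    rwa [e.left_inv hx] at this
  have hder : ∀ (k : ℕ), ∀ y ∈ D,
      ‖iteratedFDerivWithin ℝ k F D y‖ ≤ max |A₀| 1 ^ (k + 1) * |R k| := by
    intro k y hy
    rw [show D = Set.range I ∩ Metric.ball y₀ T from Set.inter_comm _ _,
      iteratedFDerivWithin_inter_open Metric.isOpen_ball hy.1]
    refine (hbd y hy.2 (lt_of_lt_of_le (Metric.mem_ball.1 hy.1) hTρ) k).trans ?_
    refine (le_abs_self _).trans ?_
    rw [abs_mul, abs_pow]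
    exact mul_le_mul_of_nonneg_right (pow_le_pow_left₀ (abs_nonneg _) (le_max_left _ _) _)
      (abs_nonneg _)
  have hy₁ : e x₁ ∈ D := hpt x₁ hx₁ (by linarith)
  refine ⟨fun k => if k < r then (k ! : ℝ)⁻¹ • iteratedFDerivWithin ℝ k F D (e x₁) else 0,
    fun k hk => ?_, fun k hk => if_neg (by omega), fun x hx hlt => ?_⟩
  · show ‖(if k < r then _ else (0 : ContinuousMultilinearMap ℝ (fun _ : Fin k => Euc d) (Euc d)))‖
      ≤ _
    rw [if_pos hk, norm_smul, norm_inv, Real.norm_natCast]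
    exact (mul_le_of_le_one_left (norm_nonneg _)
      (inv_le_one_of_one_le₀ (by exact_mod_cast Nat.factorial_pos k))).trans (hder k _ hy₁)
  · obtain ⟨n, rfl⟩ := Nat.exists_eq_add_of_le' hr
    have hy := hpt x hx hlt
    have ht := taylor_convex (v := e x - e x₁) hDconv hDu (hsm (n + 1)) hy₁
      (by rwa [add_sub_cancel]) (hder (n + 1))
    rw [add_sub_cancel] at ht
    have hSx : S x ∈ (extChartAt I q).source := by
      have := hDV _ hy
      rw [e.left_inv hx] at this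
      exact hVs this
    have hFx : F (e x) = extChartAt I q (S x) := by simp only [hF, e.left_inv hx]
    rw [coord_eq I hSx, ← WithLp.ofLp_sub, ← hFx]
    refine (norm_ofLp_le _).trans (le_trans (le_of_eq ?_) ht)
    congr 2
    refine Finset.sum_congr rfl fun k hk => ?_
    simp only [if_pos (Finset.mem_range.1 hk)]
    rfl

/-- The tables of a smooth map with bounded derivative growth. -/
theorem genSystem_of_smooth [IsManifold I ∞ M] [CompactSpace M] [T2Space M]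
    [MeasurableSpace M] [BorelSpace M] (ν : Measure M)
    (hν : ∀ x : M, (ν.restrict (extChartAt I x).source).map (extChartAt I x) ≪ volume)
    {S : M → M} (hS : ContMDiff I I ∞ S) {R : ℕ → ℝ} (hR : GrowthBound R I S) :
    Nonempty (GenSystem (scaleF R) d ν S) := by
  classical
  have hnb : ∀ p : M, ∃ K ∈ 𝓝 p, IsCompact K ∧ K ⊆ (extChartAt I p).source := fun p => by
    obtain ⟨K, hK, hKs, hKc⟩ :=
      local_compact_nhds ((isOpen_extChartAt_source p).mem_nhds (mem_extChartAt_source (I := I) p))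
    exact ⟨K, hK, hKc, hKs⟩
  haveI : LocallyCompactSpace M := inferInstance
  choose K hKn hKc hKs using hnb
  obtain ⟨t, -, ht⟩ := isCompact_univ.elim_nhds_subcover (fun p : M => interior (K p))
    fun p _ => interior_mem_nhds.mpr (hKn p)
  have hcov : ∀ x : M, ∃ i : t, x ∈ interior (K i) := fun x => by
    obtain ⟨p, hp, hx⟩ := Set.mem_iUnion₂.mp (ht (Set.mem_univ x))
    exact ⟨⟨p, hp⟩, hx⟩
  choose tg htg using hcov
  have hdata := fun (i : t) (x : K (i : M)) =>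
    local_smooth I hS hR (p := (i : M)) (q := (tg (S x) : M)) isOpen_interior
      (interior_subset.trans (hKs _)) (hKs _ x.2) (htg (S x))
  choose s hs Abd hA hmap hser using hdata
  have hsub : ∀ i : t, ∃ F : Finset (K (i : M)), ∀ x : K (i : M),
      ∃ c ∈ F, ‖coord I (i : M) x - coord I (i : M) c‖ < s i c := by
    intro i
    have : CompactSpace (K (i : M)) := isCompact_iff_compactSpace.mp (hKc _)
    have hct : Continuous fun x : K (i : M) => coord I (i : M) x :=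
      (continuousOn_coord I (i : M)).comp_continuous continuous_subtype_val fun x => hKs _ x.2
    obtain ⟨F, -, hF⟩ := isCompact_univ.elim_nhds_subcover
      (fun c : K (i : M) => {x : K (i : M) | ‖coord I (i : M) x - coord I (i : M) c‖ < s i c})
      fun c _ => (isOpen_lt (by fun_prop) continuous_const).mem_nhds (by simpa using hs i c)
    refine ⟨F, fun x => ?_⟩
    obtain ⟨c, hc, hx⟩ := Set.mem_iUnion₂.mp (hF (Set.mem_univ x))
    exact ⟨c, hc, hx⟩
  choose Fs hFs using hsub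
  let ι := Σ i : t, Fs i
  let N := Fintype.card t
  let eN : Fin N ≃ t := (Fintype.equivFin t).symm
  let base : ∀ i : t, K (i : M) := fun i => ⟨i, mem_of_mem_nhds (hKn i)⟩
  let cen : ∀ i : t, ι → K (i : M) := fun i b =>
    if h : b.1 = i then h ▸ (b.2 : K (b.1 : M)) else base i
  have hcen : ∀ (i : t) (x : K (i : M)),
      ∃ b, ‖coord I (i : M) x - coord I (i : M) (cen i b)‖ < s i (cen i b) := by
    intro i x
    obtain ⟨c, hc, hx⟩ := hFs i x
    exact ⟨⟨i, ⟨c, hc⟩⟩, by simp only [cen, dif_pos]; exact hx⟩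
  obtain ⟨B, hB16, hAB, hsB⟩ : ∃ B : ℝ, 16 * ((d : ℝ) + 1) ≤ B ∧
      (∀ i b, Abd i (cen i b) ≤ B) ∧ ∀ i b, s i (cen i b) ≤ B ∧
        ‖coord I (i : M) (cen i b)‖ + s i (cen i b) ≤ B := by
    have h : ∀ᶠ B : ℝ in atTop, 16 * ((d : ℝ) + 1) ≤ B ∧
        (∀ i b, Abd i (cen i b) ≤ B) ∧ ∀ i b, s i (cen i b) ≤ B ∧
          ‖coord I (i : M) (cen i b)‖ + s i (cen i b) ≤ B :=
      (eventually_ge_atTop _).and ((eventually_all.2 fun i => eventually_all.2 fun b =>
        eventually_ge_atTop _).and (eventually_all.2 fun i => eventually_all.2 fun b =>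
          (eventually_ge_atTop _).and (eventually_ge_atTop _)))
    exact h.exists
  obtain ⟨W, hW⟩ : ∃ W : ℕ, B ≤ W := exists_nat_ge B
  obtain ⟨σ₀, hσ₀, hσ⟩ : ∃ σ : ℝ, 0 < σ ∧ ∀ i b, σ ≤ s i (cen i b) := by
    obtain ⟨σ, h1, h2⟩ :=
      ((eventually_all.2 fun i : t => eventually_all.2 fun b : ι =>
        eventually_nhdsWithin_of_eventually_nhds (eventually_le_nhds (hs i (cen i b)))).and
        (self_mem_nhdsWithin (s := Set.Ioi (0 : ℝ)))).exists
    exact ⟨σ, h2, h1⟩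
  set c := 2 * W + 1 + Fintype.card ι with hc
  have hcpos : 0 < c := by omega
  set Λ : ℝ := 1 + 16 * d * B ^ 2 * |R 1| with hΛ
  have hsrc : ∀ i, interior (K (eN i : M)) ⊆ (extChartAt I (eN i : M)).source := fun i =>
    interior_subset.trans (hKs _)
  refine ⟨{
    N := N
    U := fun i => interior (K (eN i : M))
    z := fun i => coord I (eN i : M)
    meas_U := fun i => isOpen_interior.measurableSet
    meas_z := fun i => measurable_coord I _
    cover := fun x => ⟨eN.symm (tg x), by rw [Equiv.apply_symm_apply]; exact htg x⟩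
    ac := fun i => coord_ac I ν _ (hsrc i) (hν _)
    pull := fun i A hA => ?_
    Λ := Λ
    scheme := fun K' => ?_ }⟩
  · obtain ⟨B', hB', hBA⟩ := coord_pull I (eN i : M) hA
    exact ⟨B', hB', fun x hx => hBA x (hsrc i hx)⟩
  have hB1 : (1 : ℝ) ≤ B := by have : (0 : ℝ) ≤ d := Nat.cast_nonneg d; linarith
  filter_upwards [middle_terms R B, remainder_term R B K', table_size R d c,
    (cell_tendsto R).eventually (ge_mem_nhds (half_pos hσ₀)),
    (cell_tendsto R).eventually (ge_mem_nhds one_pos),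
    (tendsto_pow_atTop_atTop_of_one_lt (one_lt_two (α := ℝ))).eventually_ge_atTop
      (2 * (B * |R 0| + Λ) + (B + 1))]
    with n hmid hrem hsize hcell hcell1 hbig
  obtain ⟨hs1, hrem⟩ := hrem
  have hΛ0 : (0 : ℝ) ≤ B * |R 0| + Λ := by positivity
  have hbig1 : 2 * (B * |R 0| + Λ) ≤ (2 : ℝ) ^ n := by linarith
  have hbig2 : B ≤ (2 : ℝ) ^ n := by linarith
  obtain ⟨m, hm⟩ : ∃ m, scaleM R n = m := ⟨_, rfl⟩
  obtain ⟨r, hr⟩ : ∃ r, scaleS R n ^ 2 = r := ⟨_, rfl⟩
  have hr1 : 1 ≤ r := hr ▸ Nat.one_le_pow _ _ hs1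
  have hmn : m ≤ n := hm ▸ scaleM_le R n
  rw [hm, hr] at hmid hrem hsize
  rw [hm] at hcell hcell1
  have hpts := fun i : t => by
    haveI : Nonempty M := ⟨(i : M)⟩
    exact exists_centres (coord I (i : M)) (K (i : M)) (fun b : ι => (cen i b : M))
      (fun b => s i (cen i b)) (fun b => (cen i b).2) (fun b => hs i _)
      (fun b x => cellKey m W c hcpos (coord I (i : M) x - coord I (i : M) (cen i b)))
  choose pt hpt hptk using hpts
  let eB : Fin (Fintype.card (ι × (Fin d → Fin (2 ^ m * c)))) ≃ ι × (Fin d → Fin (2 ^ m * c)) :=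
    (Fintype.equivFin _).symm
  have hnear : ∀ (i : t) (b : ι × (Fin d → Fin (2 ^ m * c))) (x : M),
      ‖coord I (i : M) x - coord I (i : M) (pt i b)‖ < 3 * (2⁻¹ : ℝ) ^ m →
      ‖coord I (i : M) x - coord I (i : M) (cen i b.1)‖ < 3 * s i (cen i b.1) := by
    intro i b x hx
    have := norm_sub_le_norm_sub_add_norm_sub (coord I (i : M) x) (coord I (i : M) (pt i b))
      (coord I (i : M) (cen i b.1))
    linarith [(hpt i b).2, hσ i b.1]
  refine ⟨_, r, fun i b => coord I (eN i : M) (pt (eN i) (eB b)),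
    fun _ _ => (2⁻¹ : ℝ) ^ m, fun i b => eN.symm (tg (S (cen (eN i) (eB b).1))), ?_,
    fun i b => ⟨?_, ?_, ?_⟩, fun i x hx => ?_, fun i b x hx hlt => ?_, fun i b => ?_⟩
  · refine le_trans ?_ hsize
    have hcard : Fintype.card (ι × (Fin d → Fin (2 ^ m * c)))
        = Fintype.card ι * (2 ^ m * c) ^ d := by simp
    rw [hcard]
    exact Nat.cast_le.2 (Nat.add_le_add_right (Nat.mul_le_mul_right _
      (Nat.mul_le_mul_right _ (by omega))) _)
  · exact pow_le_pow_of_le_one (by norm_num) (by norm_num) hmn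
  · exact hcell1.trans (one_le_pow₀ one_le_two)
  · have h := norm_le_norm_add_norm_sub' (coord I (eN i : M) (pt (eN i) (eB b)))
      (coord I (eN i : M) (cen (eN i) (eB b).1))
    linarith [(hsB (eN i) (eB b).1).2, (hpt (eN i) (eB b)).2]
  · obtain ⟨b, hb⟩ := hcen (eN i) ⟨x, interior_subset hx⟩
    refine ⟨eB.symm (b, cellKey m W c hcpos
      (coord I (eN i : M) x - coord I (eN i : M) (cen (eN i) b))), ?_⟩
    simp only [Equiv.apply_symm_apply]
    have hk := hptk (eN i) b x (interior_subset hx) hb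
    have hle : ∀ y : Fin d → ℝ, ‖y‖ < s (eN i) (cen (eN i) b) → ‖y‖ ≤ W := fun y hy =>
      hy.le.trans ((hsB (eN i) b).1.trans hW)
    have h := cellKey_eq (by omega) (hle _ hb) (hle _ (hpt (eN i) _).2) hk.symm
    rw [sub_sub_sub_cancel_right] at h
    exact h
  · rw [Equiv.apply_symm_apply]
    exact hmap _ _ x (hsrc i hx) (hnear _ _ x hlt)
  · obtain ⟨ser, hserb, hser0, hsererr⟩ := hser (eN i) (cen (eN i) (eB b).1)
      (pt (eN i) (eB b)) (hKs _ (hpt _ _).1) (hpt _ _).2 r hr1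
    obtain ⟨co, hco1, hco2, hco3⟩ := table_entry hB16 hr1 hcell1 hmid hrem hbig1 ser
      (zero_le_one.trans (hA _ _)) (hAB (eN i) (eB b).1) hserb hser0
    refine ⟨co, hco1, hco2, fun x hx hlt => ?_⟩
    simp only [Equiv.apply_symm_apply]
    refine hco3 _ _ _ hlt ?_
    have hxs := hsrc i hx
    rw [WithLp.toLp_sub, coord_eq I hxs, coord_eq I (hKs _ (hpt _ _).1), WithLp.toLp_ofLp,
      WithLp.toLp_ofLp]
    exact hsererr x hxs (hnear _ _ x hlt)

end Manifold

theorem smooth : SmoothSpec.{u, v} := fun R =>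
  ⟨scaleF R, scaleF_small R, scaleF_sqrt R,
    fun _ _ _ I _ _ _ _ _ _ _ _ ν _ hν _ hS hR => genSystem_of_smooth I ν hν hS hR⟩

end Vale.Agent.P109
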