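import Vale.Agent.P109.Code
import Vale.Agent.P109.Poly

/-!
P109: the statements of the parts.
-/

namespace Vale.Agent.P109

open MeasureTheory Filter Topology
open scoped ContDiff

universe u v

/-- Codes avoiding a small catalogue. -/
def ChainSpec : Prop :=
  ∀ C : ∀ n, Finset (Word n → ℝ), Small C →
    ∃ δ > 0, ∃ P : ℕ → Code,
      (∀ k, Composite (P k) (P (k + 1))) ∧ StrictMono (fun k => (P k).n) ∧
      (∀ k, 0 < (P k).D) ∧
      Tendsto (fun k => ((P k).n : ℝ) / (2 : ℝ) ^ (P k).e) atTop (𝓝 0) ∧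
      Tendsto (fun k => ((P k).e : ℝ) / (P k).n) atTop (𝓝 0) ∧
      ∀ k, 1 ≤ k → ∀ law : Word (2 * (P k).n) → ℝ, Decomp (P k) law →
        ∀ c ∈ C (2 * (P k).n), ¬ Near δ law c

/-- A chain of codes carries an ergodic shift-invariant measure. -/
def LimitSpec : Prop :=
  ∀ P : ℕ → Code, (∀ k, Composite (P k) (P (k + 1))) → StrictMono (fun k => (P k).n) →
    ∃ μ : Measure (ℤ → Bool), IsProbabilityMeasure μ ∧ Ergodic shift μ ∧
      ∀ k, Decomp (P k) (wordLaw μ (2 * (P k).n))

/-- Few names force entropy zero. -/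
def EntropySpec : Prop :=
  ∀ μ : Measure (ℤ → Bool), IsProbabilityMeasure μ → MeasurePreserving shift μ μ →
    (∀ ε : ℝ, 0 < ε → ∃ n, 0 < n ∧ ∃ W : Finset (Word n),
      (W.card : ℝ) ≤ (2 : ℝ) ^ (ε * n) ∧ ∑ v ∈ W, wordLaw μ n v = 1) →
    ksEntropy μ shift = 0

/-- Analytic maps of compact manifolds with boundary have polynomial descriptions. -/
def ChartSpec : Prop :=
  ∀ (d : ℕ) {H : Type v} [TopologicalSpace H]
    (I : ModelWithCorners ℝ (EuclideanSpace ℝ (Fin d)) H)
    {M : Type u} [TopologicalSpace M] [ChartedSpace H M] [IsManifold I ω M]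
    [CompactSpace M] [T2Space M] [MeasurableSpace M] [BorelSpace M]
    (ν : Measure M) [IsProbabilityMeasure ν],
    (∀ x : M, (ν.restrict (extChartAt I x).source).map (extChartAt I x) ≪ volume) →
    ∀ S : M → M, ContMDiff I I ω S → Nonempty (PolySystem d ν S)

/-- Systems with polynomial descriptions have names in one small catalogue. -/
def CountSpec : Prop :=
  ∃ C : ∀ n, Finset (Word n → ℝ), Small C ∧
    ∀ (d : ℕ) {M : Type u} [MeasurableSpace M] (ν : Measure M) [IsProbabilityMeasure ν]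
      (S : M → M), MeasurePreserving S ν ν → Nonempty (PolySystem d ν S) →
      ∀ g : M → Bool, Measurable g → ∀ δ : ℝ, 0 < δ →
        ∀ᶠ n : ℕ in atTop, ∃ c ∈ C n, Near δ (procLaw ν S g n) c

end Vale.Agent.P109
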