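import Vale.Agent.P109.Spec

/-!
P109: an ergodic zero-entropy shift whose names avoid a small catalogue.
-/

namespace Vale.Agent.P109

open MeasureTheory Filter Topology Finset
open scoped ContDiff

universe u v

theorem shift_iterate (t : ℕ) (y : ℤ → Bool) (i : ℤ) : shift^[t] y i = y (i + t) := by
  induction t generalizing y with
  | zero => simp
  | succ t ih =>
    rw [Function.iterate_succ, Function.comp_apply, ih]
    show y (i + t + 1) = _
    congr 1
    push_cast
    ring

theorem shift_bijective : Function.Bijective shift :=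
  Function.bijective_iff_has_inverse.2 ⟨fun x i => x (i - 1),
    fun x => funext fun i => by simp [shift], fun x => funext fun i => by simp [shift]⟩

/-- The names of a factor map have the law of the coordinates. -/
theorem procLaw_eq {M : Type u} [MeasurableSpace M] {ν : Measure M} {S : M → M}
    {μ : Measure (ℤ → Bool)} {F : M → ℤ → Bool} (hS : MeasurePreserving S ν ν)
    (hF : MeasurePreserving F ν μ) (hFS : F ∘ S =ᵐ[ν] shift ∘ F) (n : ℕ) :
    procLaw ν S (fun x => F x 0) n = wordLaw μ n := by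
  have hit : ∀ t : ℕ, (fun x => F (S^[t] x)) =ᵐ[ν] fun x => shift^[t] (F x) := by
    intro t
    induction t with
    | zero => exact EventuallyEq.rfl
    | succ t ih =>
      filter_upwards [hS.quasiMeasurePreserving.tendsto_ae.eventually ih, hFS] with x h1 h2
      simp only [Function.iterate_succ, Function.comp_apply] at h1 h2 ⊢
      rw [h1, h2]
  funext v
  have hmeas : MeasurableSet {y : ℤ → Bool | ∀ t : Fin n, y (t : ℕ) = v t} := by
    rw [Set.setOf_forall]
    exact MeasurableSet.iInter fun t =>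
      measurableSet_eq_fun (measurable_pi_apply _) measurable_const
  rw [wordLaw, ← hF.map_eq, measureReal_def, Measure.map_apply hF.measurable hmeas, procLaw,
    measureReal_def]
  congr 1
  refine measure_congr (eventuallyEq_set.2 ?_)
  filter_upwards [ae_all_iff.2 hit] with x hx
  simp only [Set.mem_setOf_eq, Set.mem_preimage]
  refine forall_congr' fun t => ?_
  rw [hx t, shift_iterate, zero_add]

/-- The part of a window covered by the middle word. -/
theorem seg_middle (P : Code) (s : Fin P.n) (i j l : Fin (2 ^ P.e)) (t : ℕ) (ht : t < P.n) :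
    ∀ h : P.n - s + t < 2 * P.n, P.seg s i j l ⟨P.n - s + t, h⟩ = P.word j t := by
  intro h
  have hs := s.isLt
  simp only [Code.seg]
  rw [if_neg (by omega), if_pos (by omega), show (s : ℕ) + (P.n - s + t) - P.n = t by omega]

/-- A window is unlikely. -/
theorem law_le (P : Code) (hD : 0 < P.D) (law : Word (2 * P.n) → ℝ) (h : Decomp P law)
    (v : Word (2 * P.n)) : law v ≤ (P.n : ℝ) / (2 : ℝ) ^ P.e := by
  classical
  obtain ⟨W, hW, hmid, hlaw⟩ := h
  let r : Fin P.n → Fin (2 ^ P.e) → Prop := fun s j =>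
    ∀ t < P.n, ∀ h : P.n - s + t < 2 * P.n, v ⟨P.n - s + t, h⟩ = P.word j t
  have huniq : ∀ s, (univ.filter (r s)).card ≤ 1 := fun s => card_le_one.2 fun j hj j' hj' => by
    by_contra hne
    have h0 := lt_of_lt_of_le hD (P.sep j j' hne)
    obtain ⟨t, ht⟩ := card_pos.1 h0
    rw [mem_filter, Finset.mem_range] at ht
    have hlt : P.n - (s : ℕ) + t < 2 * P.n := by omega
    exact ht.2 (((mem_filter.1 hj).2 t ht.1 hlt).symm.trans ((mem_filter.1 hj').2 t ht.1 hlt))
  have hbound : ∀ s j, ∑ i, ∑ l, W s i j l ≤ ((2 : ℝ) ^ P.e)⁻¹ := fun s j =>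
    le_trans (single_le_sum (f := fun s => ∑ i, ∑ l, W s i j l)
      (fun s _ => sum_nonneg fun i _ => sum_nonneg fun l _ => hW _ _ _ _) (mem_univ s))
      (hmid j).le
  rw [hlaw, div_eq_mul_inv]
  calc ∑ s, ∑ i, ∑ j, ∑ l, (if P.seg s i j l = v then W s i j l else 0)
      ≤ ∑ s, ∑ j ∈ univ.filter (r s), ∑ i, ∑ l, W s i j l := by
        refine sum_le_sum fun s _ => ?_
        rw [sum_comm, sum_filter]
        refine sum_le_sum fun j _ => ?_
        split_ifs with hr
        · refine sum_le_sum fun i _ => sum_le_sum fun l _ => ?_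
          split_ifs
          · exact le_rfl
          · exact hW _ _ _ _
        · refine le_of_eq (sum_eq_zero fun i _ => sum_eq_zero fun l _ => if_neg fun he => hr ?_)
          intro t ht h
          rw [← he]
          exact seg_middle P s i j l t ht h
    _ ≤ ∑ _s : Fin P.n, ((2 : ℝ) ^ P.e)⁻¹ := sum_le_sum fun s _ => by
        refine le_trans (sum_le_card_nsmul _ _ _ fun j _ => hbound s j) ?_
        rw [nsmul_eq_mul]
        exact mul_le_of_le_one_left (by positivity) (by exact_mod_cast huniq s)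
    _ = (P.n : ℝ) * ((2 : ℝ) ^ P.e)⁻¹ := by simp

/-- The windows of a decomposed law are few. -/
theorem law_support (P : Code) (law : Word (2 * P.n) → ℝ) (h : Decomp P law) :
    ∃ W : Finset (Word (2 * P.n)),
      (W.card : ℝ) ≤ (P.n : ℝ) * (2 : ℝ) ^ (3 * P.e) ∧ ∑ v ∈ W, law v = 1 := by
  classical
  obtain ⟨w, -, hmid, hlaw⟩ := h
  refine ⟨(univ : Finset (Fin P.n × Fin (2 ^ P.e) × Fin (2 ^ P.e) × Fin (2 ^ P.e))).image
    (fun x => P.seg x.1 x.2.1 x.2.2.1 x.2.2.2), ?_, ?_⟩
  · refine le_trans (Nat.cast_le.2 card_image_le) (le_of_eq ?_)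
    simp only [card_univ, Fintype.card_prod, Fintype.card_fin]
    push_cast
    ring
  · set W := (univ : Finset (Fin P.n × Fin (2 ^ P.e) × Fin (2 ^ P.e) × Fin (2 ^ P.e))).image
      (fun x => P.seg x.1 x.2.1 x.2.2.1 x.2.2.2)
    simp only [hlaw]
    have hmem : ∀ s i j l, P.seg s i j l ∈ W := fun s i j l =>
      mem_image.2 ⟨(s, i, j, l), mem_univ _, rfl⟩
    rw [sum_comm]
    calc ∑ s, ∑ v ∈ W, ∑ i, ∑ j, ∑ l, (if P.seg s i j l = v then w s i j l else 0)
        = ∑ s, ∑ i, ∑ j, ∑ l, w s i j l := sum_congr rfl fun s _ => by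
          rw [sum_comm]
          refine sum_congr rfl fun i _ => ?_
          rw [sum_comm]
          refine sum_congr rfl fun j _ => ?_
          rw [sum_comm]
          refine sum_congr rfl fun l _ => ?_
          rw [sum_ite_eq, if_pos (hmem s i j l)]
      _ = 1 := by
          rw [sum_congr rfl fun s _ => sum_comm, sum_comm, sum_congr rfl fun j _ => hmid j]
          simp

/-- A system whose names avoid a given small catalogue. -/
theorem system_of_catalogue (hchain : ChainSpec) (hlimit : LimitSpec) (hent : EntropySpec)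
    {C : ∀ n, Finset (Word n → ℝ)} (hC : Small C) :
    ∃ μ : Measure (ℤ → Bool), IsProbabilityMeasure μ ∧ NoAtoms μ ∧ Ergodic shift μ ∧
      ksEntropy μ shift = 0 ∧
      ∀ {M : Type u} [MeasurableSpace M] (ν : Measure M) (S : M → M), MeasurePreserving S ν ν →
        (∀ g : M → Bool, Measurable g → ∀ δ : ℝ, 0 < δ →
          ∀ᶠ n : ℕ in atTop, ∃ c ∈ C n, Near δ (procLaw ν S g n) c) →
        ¬ ∃ F : M → ℤ → Bool, MeasurePreserving F ν μ ∧ F ∘ S =ᵐ[ν] shift ∘ F := by
  obtain ⟨δ, hδ, P, hcomp, hmono, hD, hatom, hrate, hfar⟩ := hchain C hC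
  obtain ⟨μ, hμ, herg, hdec⟩ := hlimit P hcomp hmono
  haveI := hμ
  refine ⟨μ, hμ, ?_, herg, ?_, ?_⟩
  · refine ⟨fun y => ?_⟩
    have h : ∀ k, μ.real {y} ≤ ((P k).n : ℝ) / (2 : ℝ) ^ (P k).e := fun k => by
      refine le_trans ?_ (law_le (P k) (hD k) _ (hdec k) fun t => y (t : ℕ))
      exact measureReal_mono (by intro z hz t; rw [Set.mem_singleton_iff.1 hz])
    have h0 : μ.real {y} ≤ 0 := ge_of_tendsto' hatom h
    exact (measureReal_eq_zero_iff).1 (le_antisymm h0 measureReal_nonneg)
  · refine hent μ hμ herg.toMeasurePreserving fun ε hε => ?_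
    have h1 : Tendsto (fun k => 4 * (((P k).e : ℝ) / (P k).n)) atTop (𝓝 0) := by
      simpa using hrate.const_mul 4
    obtain ⟨k, hk1, hk2⟩ :=
      ((h1.eventually_lt_const hε).and (hatom.eventually_lt_const one_pos)).exists
    obtain ⟨W, hcard, hsum⟩ := law_support (P k) _ (hdec k)
    have hn : (0 : ℝ) < (P k).n := Nat.cast_pos.2 (P k).n_pos
    refine ⟨2 * (P k).n, by have := (P k).n_pos; omega, W, hcard.trans ?_, hsum⟩
    rw [div_lt_one (by positivity)] at hk2
    rw [← mul_div_assoc, div_lt_iff₀ hn] at hk1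
    calc ((P k).n : ℝ) * (2 : ℝ) ^ (3 * (P k).e) ≤ (2 : ℝ) ^ (P k).e * (2 : ℝ) ^ (3 * (P k).e) :=
          mul_le_mul_of_nonneg_right hk2.le (by positivity)
      _ = (2 : ℝ) ^ (((4 * (P k).e : ℕ) : ℝ)) := by
          rw [Real.rpow_natCast, ← pow_add]; ring_nf
      _ ≤ _ := by
          refine Real.rpow_le_rpow_of_exponent_le one_le_two ?_
          push_cast
          nlinarith
  · intro M _ ν S hSm hmodel
    rintro ⟨F, hF, hFS⟩
    have hev := hmodel (fun x => F x 0) ((measurable_pi_apply _).comp hF.measurable) δ hδ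
    have hn2 : Tendsto (fun k => 2 * (P k).n) atTop atTop :=
      tendsto_atTop_mono (fun k => show (P k).n ≤ 2 * (P k).n by omega) hmono.tendsto_atTop
    obtain ⟨k, hk, c, hc, hnear⟩ :=
      ((eventually_ge_atTop 1).and (hn2.eventually hev)).exists
    rw [procLaw_eq hSm hF hFS] at hnear
    exact hfar k hk _ (hdec k) c hc hnear

end Vale.Agent.P109
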